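import Mathlib

/-! The algebraic step: non-mixing sequences do not exist for one automorphism. -/

namespace Vale.Agent.P102
open Filter Polynomial

lemma alg_zpow {a : ℝ} (h0 : 0 ≤ a) (h1 : a < 1) {l : Filter ℕ} {f : ℕ → ℤ}
    (hf : Tendsto f l atTop) : Tendsto (fun n => a ^ f n) l (nhds 0) := by
  have h2 : Tendsto (fun n => (f n).toNat) l atTop :=
    tendsto_atTop.2 fun b => (hf.eventually_ge_atTop b).mono fun n hn => by omega
  refine ((tendsto_pow_atTop_nhds_zero_of_lt_one h0 h1).comp h2).congr' ?_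
  filter_upwards [hf.eventually_ge_atTop 0] with n hn
  simp only [Function.comp]
  rw [← zpow_natCast, Int.toNat_of_nonneg hn]

/-- Dominant term argument. -/
lemma alg_abs {K : Type*} [Field K] (v : AbsoluteValue K ℝ) {τ : K} (h0 : τ ≠ 0) (h1 : v τ ≠ 1)
    {k : ℕ} (w : Fin k → K) (hw : w ≠ 0) (D : Fin k → ℕ → ℕ) (U : Ultrafilter ℕ)
    (hgap : ∀ i j, i < j → Tendsto (fun n => (D j n : ℤ) - D i n) U atTop)
    (hrel : ∀ᶠ n in (U : Filter ℕ), ∑ i, w i * τ ^ D i n = 0) : False := by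
  classical
  have hpos : 0 < v τ := v.pos h0
  have hne : (Finset.univ.filter fun i => w i ≠ 0).Nonempty := by
    obtain ⟨i, hi⟩ := Function.ne_iff.1 hw
    exact ⟨i, Finset.mem_filter.2 ⟨Finset.mem_univ _, hi⟩⟩
  obtain ⟨i₀, hi₀, hdom⟩ : ∃ i₀, w i₀ ≠ 0 ∧ ∀ i, i ≠ i₀ → w i ≠ 0 →
      Tendsto (fun n => v τ ^ ((D i n : ℤ) - D i₀ n)) U (nhds 0) := by
    rcases h1.lt_or_gt with h | h
    · refine ⟨_, (Finset.mem_filter.1 (Finset.min'_mem _ hne)).2, fun i hi hwi => ?_⟩
      exact alg_zpow hpos.le h (hgap _ _ (lt_of_le_of_ne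
        (Finset.min'_le _ i (Finset.mem_filter.2 ⟨Finset.mem_univ _, hwi⟩)) hi.symm))
    · refine ⟨_, (Finset.mem_filter.1 (Finset.max'_mem _ hne)).2, fun i hi hwi => ?_⟩
      refine (alg_zpow (inv_nonneg.2 hpos.le) (inv_lt_one_of_one_lt₀ h) (hgap _ _ (lt_of_le_of_ne
        (Finset.le_max' _ i (Finset.mem_filter.2 ⟨Finset.mem_univ _, hwi⟩)) hi))).congr fun n => ?_
      rw [inv_zpow', neg_sub]
  have ht : Tendsto (fun n => ∑ i ∈ Finset.univ.erase i₀, v (w i) * v τ ^ ((D i n : ℤ) - D i₀ n))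
      U (nhds (∑ i ∈ Finset.univ.erase i₀, v (w i) * 0)) := by
    refine tendsto_finsetSum _ fun i hi => ?_
    by_cases hwi : w i = 0
    · simp [hwi]
    · exact (hdom i (Finset.ne_of_mem_erase hi) hwi).const_mul _
  simp only [mul_zero, Finset.sum_const_zero] at ht
  refine absurd (ge_of_tendsto ht ?_) (not_le.2 (v.pos hi₀))
  filter_upwards [hrel] with n hn
  rw [← Finset.add_sum_erase _ _ (Finset.mem_univ i₀), add_eq_zero_iff_eq_neg] at hn
  have h2 : w i₀ = -∑ i ∈ Finset.univ.erase i₀, w i * τ ^ ((D i n : ℤ) - D i₀ n) := by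
    rw [← mul_left_inj' (pow_ne_zero (D i₀ n) h0), hn, neg_mul, Finset.sum_mul]
    congr 1
    refine Finset.sum_congr rfl fun i _ => ?_
    rw [zpow_sub₀ h0, zpow_natCast, zpow_natCast, mul_assoc, div_mul_cancel₀ _ (pow_ne_zero _ h0)]
  rw [h2, v.map_neg]
  refine (v.sum_le _ _).trans (le_of_eq (Finset.sum_congr rfl fun i _ => ?_))
  rw [map_mul, map_zpow₀]

lemma alg_trans (F : Type*) {K : Type*} [Field F] [Field K] [Algebra F K] {τ : K}
    (ht : Transcendental F τ)
    (hgen : ∀ x : K, ∃ p q : ℤ[X], aeval τ q ≠ 0 ∧ x = aeval τ p / aeval τ q) :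
    ∃ v : AbsoluteValue K ℝ, v τ ≠ 1 := by
  let : Algebra F[X] K := (aeval τ : F[X] →ₐ[F] K).toRingHom.toAlgebra
  have : FaithfulSMul F[X] K :=
    (faithfulSMul_iff_algebraMap_injective _ _).2 (transcendental_iff_injective.1 ht)
  have : IsFractionRing F[X] K := IsFractionRing.of_field _ _ fun z => by
    obtain ⟨p, q, -, h⟩ := hgen z
    refine ⟨p.map (algebraMap ℤ F), q.map (algebraMap ℤ F), ?_⟩
    change z = aeval τ _ / aeval τ _
    rw [aeval_map_algebraMap, aeval_map_algebraMap, h]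
  refine ⟨(idealX F).adicAbv (b := 2) (by norm_num), ne_of_lt ?_⟩
  have : τ = algebraMap F[X] K X := (aeval_X τ).symm
  rw [this, IsDedekindDomain.HeightOneSpectrum.adicAbv_coe_lt_one_iff]
  exact Ideal.mem_span_singleton_self _

lemma alg_fin (F : Type*) {K : Type*} [Field F] [Field K] [Algebra F K] {τ : K}
    (ht : IsAlgebraic F τ)
    (hgen : ∀ x : K, ∃ p q : ℤ[X], aeval τ q ≠ 0 ∧ x = aeval τ p / aeval τ q) :
    FiniteDimensional F K := by
  have h1 := IntermediateField.adjoin.finiteDimensional ht.isIntegral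
  have h2 : IntermediateField.adjoin F {τ} = ⊤ := by
    refine eq_top_iff.2 fun z _ => (IntermediateField.mem_adjoin_simple_iff F z).2 ?_
    obtain ⟨p, q, -, h⟩ := hgen z
    exact ⟨p.map (algebraMap ℤ F), q.map (algebraMap ℤ F), by
      rw [aeval_map_algebraMap, aeval_map_algebraMap, h]⟩
  rw [h2] at h1
  exact IntermediateField.topEquiv.toLinearEquiv.finiteDimensional

/-- In a field generated by `τ`, if `τ` is not a root of unity some absolute value sees it. -/
lemma exists_abs {K : Type*} [Field K] {τ : K} (h0 : τ ≠ 0) (hr : ∀ M, 0 < M → τ ^ M ≠ 1)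
    (hgen : ∀ x : K, ∃ p q : ℤ[X], aeval τ q ≠ 0 ∧ x = aeval τ p / aeval τ q) :
    ∃ v : AbsoluteValue K ℝ, v τ ≠ 1 := by
  obtain ⟨p, hp⟩ := CharP.exists K
  rcases CharP.char_is_prime_or_zero K p with hpp | rfl
  · have := Fact.mk hpp
    let := ZMod.algebra K p
    by_cases ht : IsAlgebraic (ZMod p) τ
    · have := alg_fin (ZMod p) ht hgen
      have : Finite K := Module.finite_of_finite (ZMod p)
      have := Fintype.ofFinite K
      exact absurd (FiniteField.pow_card_sub_one_eq_one τ h0)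
        (hr _ (Nat.sub_pos_of_lt Fintype.one_lt_card))
    · exact alg_trans (ZMod p) ht hgen
  · have := CharP.charP_to_charZero K
    by_cases ht : IsAlgebraic ℚ τ
    · have := alg_fin ℚ ht hgen
      have : NumberField K := {}
      by_contra hc
      push Not at hc
      obtain ⟨y, hy⟩ := IsDedekindDomain.HeightOneSpectrum.mem_integers_of_valuation_le_one
        (R := NumberField.RingOfIntegers K) K τ fun v => by
          have := hc (v.adicAbv (b := 2) (by norm_num))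
          refine (WithZeroMulInt.toNNReal_le_one_iff (e := 2) (by norm_num)).1 (le_of_eq ?_)
          exact NNReal.coe_eq_one.1 this
      obtain ⟨n, hn, h⟩ := NumberField.Embeddings.pow_eq_one_of_norm_eq_one K ℂ (x := τ)
        (hy ▸ y.isIntegral_coe) fun φ => hc (NumberField.place φ)
      exact hr n hn h
    · exact alg_trans ℚ ht hgen

/-- vectors all of whose square determinants vanish lie in a hyperplane -/
lemma alg_rows {K : Type*} [Field K] {k : ℕ} (T : Set (Fin k → K))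
    (h : ∀ A : Matrix (Fin k) (Fin k) K, (∀ l, A l ∈ T) → A.det = 0) :
    ∃ w : Fin k → K, w ≠ 0 ∧ ∀ r ∈ T, ∑ i, w i * r i = 0 := by
  classical
  have h1 : Submodule.span K T < ⊤ := by
    refine lt_top_iff_ne_top.2 fun ht => ?_
    obtain ⟨b, hb, hs, hli⟩ := exists_linearIndependent K T
    let B : Module.Basis b K (Fin k → K) := Module.Basis.mk hli (by simp [hs, ht])
    let e := B.indexEquiv (Pi.basisFun K (Fin k))
    have h2 : IsUnit (Matrix.of fun l => ((e.symm l : b) : Fin k → K)) :=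
      Matrix.linearIndependent_rows_iff_isUnit.1 (hli.comp _ e.symm.injective)
    exact ((Matrix.isUnit_iff_isUnit_det _).1 h2).ne_zero (h _ fun l => hb (e.symm l).2)
  obtain ⟨f, hf, hle⟩ := Submodule.exists_le_ker_of_lt_top _ h1
  have h3 : ∀ r, f r = ∑ i, f (Pi.single i 1) * r i := fun r => by
    rw [LinearMap.pi_apply_eq_sum_univ]
    refine Finset.sum_congr rfl fun i _ => ?_
    rw [smul_eq_mul, mul_comm]
    congr 2
    ext j
    simp [Pi.single_apply, eq_comm]
  refine ⟨fun i => f (Pi.single i 1), fun h0 => hf (LinearMap.ext fun r => ?_), fun r hr => ?_⟩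
  · rw [h3]
    exact Finset.sum_eq_zero fun i _ => by rw [congrFun h0 i]; simp
  · rw [← h3]
    exact hle (Submodule.subset_span hr)

/-- the divisors of the polynomials `X ^ a * (X ^ M - 1) ^ e` -/
def algS : Submonoid ℤ[X] where
  carrier := {f | ∃ a M e : ℕ, 0 < M ∧ f ∣ X ^ a * (X ^ M - 1) ^ e}
  one_mem' := ⟨0, 1, 0, one_pos, one_dvd _⟩
  mul_mem' := by
    rintro f g ⟨a, M, e, hM, hf⟩ ⟨b, N, e', hN, hg⟩
    refine ⟨a + b, M * N, e + e', Nat.mul_pos hM hN, (mul_dvd_mul hf hg).trans ?_⟩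
    have h1 : (X ^ M - 1 : ℤ[X]) ∣ X ^ (M * N) - 1 := by
      rw [pow_mul]; exact sub_one_dvd_pow_sub_one _ _
    have h2 : (X ^ N - 1 : ℤ[X]) ∣ X ^ (M * N) - 1 := by
      rw [mul_comm, pow_mul]; exact sub_one_dvd_pow_sub_one _ _
    rw [pow_add, pow_add, mul_mul_mul_comm]
    exact mul_dvd_mul_left _ (mul_dvd_mul (pow_dvd_pow_of_dvd h1 _) (pow_dvd_pow_of_dvd h2 _))

/-- the annihilator of `s` -/
def algAnn {G : Type*} [AddCommGroup G] (θ : Module.End ℤ G) (s : G) : Ideal ℤ[X] where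
  carrier := {f | aeval θ f s = 0}
  zero_mem' := by simp
  add_mem' := by
    intro f g hf hg
    simp only [Set.mem_ofPred_eq, map_add, LinearMap.add_apply] at *
    rw [hf, hg, add_zero]
  smul_mem' := by
    intro c f hf
    simp only [Set.mem_ofPred_eq, smul_eq_mul, map_mul, Module.End.mul_apply] at *
    rw [hf, map_zero]

lemma alg_det {G : Type*} [AddCommGroup G] (θ : Module.End ℤ G) {k : ℕ} (s : Fin k → G)
    (i0 : Fin k) (A : Matrix (Fin k) (Fin k) ℤ[X]) (h : ∀ l, ∑ i, aeval θ (A l i) (s i) = 0) :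
    A.det ∈ algAnn θ (s i0) := by
  have h1 : ∑ l, aeval θ (A.adjugate i0 l) (∑ i, aeval θ (A l i) (s i)) = 0 :=
    Finset.sum_eq_zero fun l _ => by rw [h, map_zero]
  simp only [map_sum, ← Module.End.mul_apply, ← map_mul] at h1
  rw [Finset.sum_comm] at h1
  have h2 : ∀ i, ∑ l, aeval θ (A.adjugate i0 l * A l i) (s i) =
      if i0 = i then aeval θ A.det (s i) else 0 := fun i => by
    rw [← LinearMap.sum_apply, ← map_sum, ← Matrix.mul_apply, Matrix.adjugate_mul]
    split_ifs with h <;> simp [h]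
  simp only [h2, Finset.sum_ite_eq, Finset.mem_univ, if_true] at h1
  exact h1

lemma alg_aeval {K : Type*} [Field K] (ψ : ℤ[X] →+* K) (f : ℤ[X]) : aeval (ψ X) f = ψ f := by
  have : (aeval (ψ X) : ℤ[X] →ₐ[ℤ] K).toRingHom = ψ := Polynomial.ringHom_ext (by simp) (by simp)
  exact congrArg (fun g : ℤ[X] →+* K => g f) this

theorem alg_false {G : Type*} [AddCommGroup G] (θ : Module.End ℤ G) (hθ : Function.Injective θ)
    {k : ℕ} (s : Fin k → G) (i0 : Fin k) (D : Fin k → ℕ → ℕ) (U : Ultrafilter ℕ)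
    (hgap : ∀ i j, i < j → Tendsto (fun n => (D j n : ℤ) - D i n) U atTop)
    (hrel : ∀ᶠ n in (U : Filter ℕ), ∑ i, (θ ^ D i n) (s i) = 0)
    (hnd : ∀ M e : ℕ, 0 < M → ((θ ^ M - 1) ^ e) (s i0) ≠ 0) : False := by
  obtain ⟨P, hP, hle, hdis⟩ := (algAnn θ (s i0)).exists_le_prime_disjoint algS (by
    refine Set.disjoint_left.2 ?_
    rintro f hf ⟨a, M, e, hM, hd⟩
    have h1 : aeval θ (X ^ a * (X ^ M - 1) ^ e : ℤ[X]) (s i0) = 0 :=
      (algAnn θ (s i0)).mem_of_dvd hd hf
    simp only [map_mul, map_pow, map_sub, aeval_X, map_one, Module.End.mul_apply] at h1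
    refine hnd M e hM (Module.End.iterate_injective hθ a ?_)
    rw [h1, map_zero])
  let K := FractionRing (ℤ[X] ⧸ P)
  let ψ : ℤ[X] →+* K := (algebraMap (ℤ[X] ⧸ P) K).comp (Ideal.Quotient.mk P)
  have hψ : ∀ f, ψ f = 0 ↔ f ∈ P := fun f =>
    (IsFractionRing.to_map_eq_zero_iff (R := ℤ[X] ⧸ P)).trans Ideal.Quotient.eq_zero_iff_mem
  have h0 : ψ X ≠ 0 := fun h =>
    Set.disjoint_left.1 hdis ((hψ _).1 h) ⟨1, 1, 0, one_pos, by simp⟩
  obtain ⟨v, hv⟩ := exists_abs h0 (fun M hM h => Set.disjoint_left.1 hdis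
    ((hψ (X ^ M - 1)).1 (by rw [map_sub, map_pow, h, map_one, sub_self]))
    ⟨0, M, 1, hM, by simp⟩) fun x => by
      obtain ⟨a, b, hb, rfl⟩ := IsFractionRing.div_surjective (A := ℤ[X] ⧸ P) x
      obtain ⟨a, rfl⟩ := Ideal.Quotient.mk_surjective a
      obtain ⟨b, rfl⟩ := Ideal.Quotient.mk_surjective b
      refine ⟨a, b, ?_, ?_⟩
      · rw [alg_aeval]
        exact IsFractionRing.to_map_ne_zero_of_mem_nonZeroDivisors (R := ℤ[X] ⧸ P) hb
      · rw [alg_aeval, alg_aeval]
        rfl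
  obtain ⟨w, hw, hr⟩ := alg_rows
    {r : Fin k → K | ∃ n, ∑ i, (θ ^ D i n) (s i) = 0 ∧ r = fun i => ψ X ^ D i n} fun A hA => by
      choose n hn hA using hA
      have h1 := (hψ _).2 (hle (alg_det θ s i0 (Matrix.of fun l i => X ^ D i (n l)) fun l => by
        simpa using hn l))
      rw [RingHom.map_det] at h1
      rw [← h1]
      congr 1
      ext l i
      simp [hA l]
  exact alg_abs v h0 hv w hw D U hgap (hrel.mono fun n hn => hr _ ⟨n, hn, rfl⟩)

end Vale.Agent.P102
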