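import Mathlib

/-!
Bounded measurable functions modulo null functions, as a commutative star algebra with the
L2 inner product, its subalgebras `L μ m` and conditional expectations `cE μ m`.
-/

namespace Vale.Agent.P102
open MeasureTheory ProbabilityTheory Filter Topology
open scoped InnerProductSpace ComplexConjugate

variable {X : Type*}

/-- Bounded measurable complex functions. -/
def BMF (m0 : MeasurableSpace X) : StarSubalgebra ℂ (X → ℂ) where
  carrier := {f | Measurable f ∧ ∃ C : ℝ, ∀ x, ‖f x‖ ≤ C}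
  mul_mem' := by
    rintro f g ⟨hf, C, hC⟩ ⟨hg, D, hD⟩
    refine ⟨hf.mul hg, C * D, fun x => ?_⟩
    rw [Pi.mul_apply, norm_mul]
    exact mul_le_mul (hC x) (hD x) (norm_nonneg _) ((norm_nonneg _).trans (hC x))
  add_mem' := by
    rintro f g ⟨hf, C, hC⟩ ⟨hg, D, hD⟩
    exact ⟨hf.add hg, C + D, fun x => (norm_add_le _ _).trans (add_le_add (hC x) (hD x))⟩
  algebraMap_mem' := fun c => ⟨measurable_const, ‖c‖, fun _ => le_rfl⟩
  star_mem' := by
    rintro f ⟨hf, C, hC⟩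
    refine ⟨Complex.continuous_conj.measurable.comp hf, C, fun x => ?_⟩
    simpa using hC x

/-- Sub-sigma-algebras of `m0`. -/
abbrev SA (m0 : MeasurableSpace X) : Type _ := Set.Iic m0

variable {m0 : MeasurableSpace X}

lemma bmf_meas (f : BMF m0) : Measurable (f : X → ℂ) := f.2.1

lemma bmf_bound (f : BMF m0) : ∃ C : ℝ, ∀ x, ‖(f : X → ℂ) x‖ ≤ C := f.2.2

lemma bmf_int (f : BMF m0) (μ : Measure X) [IsFiniteMeasure μ] :
    Integrable (f : X → ℂ) μ := by
  obtain ⟨C, hC⟩ := bmf_bound f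
  exact Integrable.of_bound (bmf_meas f).aestronglyMeasurable C (ae_of_all _ hC)

/-- Composition with a measurable map. -/
def bmfComp {Y : Type*} {m1 : MeasurableSpace Y} (φ : X → Y) (hφ : Measurable φ) :
    BMF m1 →⋆ₐ[ℂ] BMF m0 where
  toFun f := ⟨fun x => (f : Y → ℂ) (φ x), (bmf_meas f).comp hφ,
    (bmf_bound f).imp fun _ h x => h (φ x)⟩
  map_one' := rfl
  map_mul' _ _ := rfl
  map_zero' := rfl
  map_add' _ _ := rfl
  commutes' _ := rfl
  map_star' _ := rfl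

/-- Indicator of a measurable set. -/
noncomputable def bmfInd (s : Set X) (hs : MeasurableSet s) : BMF m0 :=
  ⟨s.indicator fun _ => (1 : ℂ), measurable_const.indicator hs, 1, fun x => by
    by_cases h : x ∈ s <;> simp [h]⟩

/-- The ideal of almost everywhere vanishing functions. -/
def nullI (μ : Measure X) : Ideal (BMF m0) where
  carrier := {f | (f : X → ℂ) =ᵐ[μ] 0}
  add_mem' := by
    intro f g hf hg
    change (_ : X → ℂ) =ᵐ[μ] 0 at hf hg ⊢
    filter_upwards [hf, hg] with x h1 h2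
    simp only [Pi.zero_apply] at h1 h2
    simp [h1, h2]
  zero_mem' := ae_of_all _ fun _ => rfl
  smul_mem' := by
    intro c f hf
    change (_ : X → ℂ) =ᵐ[μ] 0 at hf ⊢
    filter_upwards [hf] with x h1
    simp only [Pi.zero_apply] at h1
    simp [h1]

/-- Bounded measurable functions modulo null functions. -/
def LB (μ : Measure X) : Type _ := BMF m0 ⧸ nullI μ

variable {μ : Measure X}

noncomputable instance : CommRing (LB μ) := inferInstanceAs (CommRing (BMF m0 ⧸ nullI μ))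

noncomputable instance : Algebra ℂ (LB μ) := inferInstanceAs (Algebra ℂ (BMF m0 ⧸ nullI μ))

/-- The class of a bounded measurable function (algebra map version). -/
noncomputable def mkA (μ : Measure X) : BMF m0 →ₐ[ℂ] LB μ := Ideal.Quotient.mkₐ ℂ (nullI μ)

lemma mkA_eq_iff {f g : BMF m0} : mkA μ f = mkA μ g ↔ (f : X → ℂ) =ᵐ[μ] g := by
  change Ideal.Quotient.mk (nullI μ) f = Ideal.Quotient.mk (nullI μ) g ↔ _
  rw [Ideal.Quotient.eq]
  change ((f - g : BMF m0) : X → ℂ) =ᵐ[μ] 0 ↔ _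
  constructor
  · intro h
    filter_upwards [h] with x hx
    simpa [sub_eq_zero] using hx
  · intro h
    filter_upwards [h] with x hx
    simp [hx]

lemma mkA_surj : Function.Surjective (mkA μ) := Ideal.Quotient.mk_surjective

/-- A representative. -/
noncomputable def LB.rep (x : LB μ) : BMF m0 := (mkA_surj x).choose

lemma mkA_rep (x : LB μ) : mkA μ x.rep = x := (mkA_surj x).choose_spec

lemma rep_mkA (f : BMF m0) : ((mkA μ f).rep : X → ℂ) =ᵐ[μ] f := mkA_eq_iff.1 (mkA_rep _)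

noncomputable instance : Star (LB μ) := ⟨fun x => mkA μ (star x.rep)⟩

lemma mkA_star (f : BMF m0) : mkA μ (star f) = star (mkA μ f) := by
  change _ = mkA μ (star (mkA μ f).rep)
  rw [mkA_eq_iff]
  filter_upwards [rep_mkA (μ := μ) f] with x hx
  simp [hx]

noncomputable instance : StarRing (LB μ) where
  star_involutive x := by
    obtain ⟨f, rfl⟩ := mkA_surj x
    rw [← mkA_star, ← mkA_star, star_star]
  star_mul x y := by
    obtain ⟨f, rfl⟩ := mkA_surj x
    obtain ⟨g, rfl⟩ := mkA_surj y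
    rw [← map_mul, ← mkA_star, ← mkA_star, ← mkA_star, ← map_mul, star_mul]
  star_add x y := by
    obtain ⟨f, rfl⟩ := mkA_surj x
    obtain ⟨g, rfl⟩ := mkA_surj y
    rw [← map_add, ← mkA_star, ← mkA_star, ← mkA_star, ← map_add, star_add]

instance : StarModule ℂ (LB μ) where
  star_smul c x := by
    obtain ⟨f, rfl⟩ := mkA_surj x
    rw [← map_smul, ← mkA_star, ← mkA_star, ← map_smul, star_smul]

/-- The class of a bounded measurable function. -/
noncomputable def cls (μ : Measure X) : BMF m0 →⋆ₐ[ℂ] LB μ :=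
  { mkA μ with map_star' := mkA_star }

lemma mk_eq_iff {f g : BMF m0} : cls μ f = cls μ g ↔ (f : X → ℂ) =ᵐ[μ] g := mkA_eq_iff

lemma mk_surj : Function.Surjective (cls μ) := mkA_surj

@[simp] lemma mk_rep (x : LB μ) : cls μ x.rep = x := mkA_rep x

lemma rep_mk (f : BMF m0) : ((cls μ f).rep : X → ℂ) =ᵐ[μ] f := rep_mkA f

/-- Indicator of a measurable set. -/
noncomputable def ind (μ : Measure X) (s : Set X) (hs : MeasurableSet s) : LB μ :=
  cls μ (bmfInd s hs)

variable [IsProbabilityMeasure μ]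

/-- Expectation. -/
noncomputable def E (μ : Measure X) [IsProbabilityMeasure μ] : LB μ →ₗ[ℂ] ℂ where
  toFun x := ∫ ω, (x.rep : X → ℂ) ω ∂μ
  map_add' x y := by
    rw [← integral_add (bmf_int x.rep μ) (bmf_int y.rep μ)]
    refine integral_congr_ae ?_
    have : cls μ (x + y).rep = cls μ (x.rep + y.rep) := by simp
    filter_upwards [mk_eq_iff.1 this] with ω h
    simpa using h
  map_smul' c x := by
    rw [RingHom.id_apply, smul_eq_mul, ← integral_const_mul]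
    refine integral_congr_ae ?_
    have : cls μ (c • x).rep = cls μ (c • x.rep) := by simp
    filter_upwards [mk_eq_iff.1 this] with ω h
    simpa using h

lemma E_mk (f : BMF m0) : E μ (cls μ f) = ∫ ω, (f : X → ℂ) ω ∂μ :=
  integral_congr_ae (rep_mk f)

lemma E_star (x : LB μ) : E μ (star x) = conj (E μ x) := by
  obtain ⟨f, rfl⟩ := mk_surj x
  rw [← map_star, E_mk, E_mk, ← integral_conj]
  rfl

@[simp] lemma E_one : E μ 1 = 1 := by
  rw [← map_one (cls μ), E_mk]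
  simp

@[simp] lemma E_algebraMap (c : ℂ) : E μ (algebraMap ℂ (LB μ) c) = c := by
  rw [Algebra.algebraMap_eq_smul_one, map_smul, E_one, smul_eq_mul, mul_one]

lemma E_star_mul_self_mk (f : BMF m0) :
    E μ (star (cls μ f) * cls μ f) = ((∫ ω, ‖(f : X → ℂ) ω‖ ^ 2 ∂μ : ℝ) : ℂ) := by
  rw [← map_star, ← map_mul, E_mk, ← integral_complex_ofReal]
  refine integral_congr_ae (ae_of_all _ fun ω => ?_)
  simp [Complex.conj_mul']

/-- The L2 inner product. -/
@[reducible] noncomputable def core (μ : Measure X) [IsProbabilityMeasure μ] :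
    InnerProductSpace.Core ℂ (LB μ) where
  inner x y := E μ (star x * y)
  conj_inner_symm x y := by
    rw [← E_star, star_mul, star_star]
  re_inner_nonneg x := by
    obtain ⟨f, rfl⟩ := mk_surj x
    rw [E_star_mul_self_mk]
    simpa using integral_nonneg fun ω => by positivity
  add_left x y z := by rw [star_add, add_mul, map_add]
  smul_left x y r := by
    rw [star_smul, smul_mul_assoc, map_smul]
    rfl
  definite x := by
    obtain ⟨f, rfl⟩ := mk_surj x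
    intro h
    change E μ (star (cls μ f) * cls μ f) = 0 at h
    rw [E_star_mul_self_mk, Complex.ofReal_eq_zero, integral_eq_zero_iff_of_nonneg] at h
    · rw [← map_zero (cls μ), mk_eq_iff]
      filter_upwards [h] with ω hω
      simpa using hω
    · exact fun ω => by positivity
    · obtain ⟨C, hC⟩ := bmf_bound f
      refine Integrable.of_bound ((bmf_meas f).norm.pow_const 2).aestronglyMeasurable (C ^ 2)
        (ae_of_all _ fun ω => ?_)
      rw [norm_pow, norm_norm]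
      exact pow_le_pow_left₀ (norm_nonneg _) (hC ω) 2

noncomputable instance : NormedAddCommGroup (LB μ) :=
  @InnerProductSpace.Core.toNormedAddCommGroup ℂ (LB μ) _ _ _ (core μ)

noncomputable instance : InnerProductSpace ℂ (LB μ) :=
  InnerProductSpace.ofCore (core μ).toCore

lemma inner_def (x y : LB μ) : ⟪x, y⟫_ℂ = E μ (star x * y) := rfl

/-- Essential bound. -/
def Bd (x : LB μ) (C : ℝ) : Prop := ∀ᵐ ω ∂μ, ‖(x.rep : X → ℂ) ω‖ ≤ C

/-- The classes having an `m`-measurable representative. -/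
noncomputable def L (μ : Measure X) (m : SA m0) : StarSubalgebra ℂ (LB μ) where
  carrier := {x | ∃ f : BMF m0, Measurable[m.1] (f : X → ℂ) ∧ cls μ f = x}
  mul_mem' := by
    rintro _ _ ⟨f, hf, rfl⟩ ⟨g, hg, rfl⟩
    exact ⟨f * g, hf.mul hg, map_mul _ _ _⟩
  add_mem' := by
    rintro _ _ ⟨f, hf, rfl⟩ ⟨g, hg, rfl⟩
    exact ⟨f + g, hf.add hg, map_add _ _ _⟩
  algebraMap_mem' := fun c => ⟨algebraMap ℂ _ c, measurable_const, (cls μ).commutes c⟩
  star_mem' := by
    rintro _ ⟨f, hf, rfl⟩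
    exact ⟨star f, Complex.continuous_conj.measurable.comp hf, map_star _ _⟩

/-- `L μ m` as a submodule. -/
noncomputable abbrev LS (μ : Measure X) (m : SA m0) : Submodule ℂ (LB μ) :=
  Subalgebra.toSubmodule (L μ m).toSubalgebra

/-! ### Norm and expectation -/

lemma norm_sq_eq (x : LB μ) : ((‖x‖ ^ 2 : ℝ) : ℂ) = E μ (star x * x) := by
  rw [← inner_def, inner_self_eq_norm_sq_to_K]
  simp

lemma norm_sq_mk (f : BMF m0) : ‖cls μ f‖ ^ 2 = ∫ ω, ‖(f : X → ℂ) ω‖ ^ 2 ∂μ := by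
  have := norm_sq_eq (cls μ f)
  rw [E_star_mul_self_mk] at this
  exact_mod_cast this

@[simp] lemma norm_star' (x : LB μ) : ‖star x‖ = ‖x‖ := by
  have h : ((‖star x‖ ^ 2 : ℝ) : ℂ) = ((‖x‖ ^ 2 : ℝ) : ℂ) := by
    rw [norm_sq_eq, norm_sq_eq, star_star, mul_comm]
  have h' : ‖star x‖ ^ 2 = ‖x‖ ^ 2 := by exact_mod_cast h
  exact (pow_left_inj₀ (norm_nonneg _) (norm_nonneg _) two_ne_zero).1 h'

@[simp] lemma norm_one' : ‖(1 : LB μ)‖ = 1 := by
  have h : ((‖(1 : LB μ)‖ ^ 2 : ℝ) : ℂ) = 1 := by rw [norm_sq_eq]; simp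
  have h' : ‖(1 : LB μ)‖ ^ 2 = 1 ^ 2 := by rw [one_pow]; exact_mod_cast h
  exact (pow_left_inj₀ (norm_nonneg _) zero_le_one two_ne_zero).1 h'

lemma E_mul_eq_inner (x y : LB μ) : E μ (x * y) = ⟪star x, y⟫_ℂ := by
  rw [inner_def, star_star]

lemma E_eq_inner (x : LB μ) : E μ x = ⟪1, x⟫_ℂ := by
  rw [inner_def, star_one, one_mul]

lemma norm_E_mul_le (x y : LB μ) : ‖E μ (x * y)‖ ≤ ‖x‖ * ‖y‖ := by
  rw [E_mul_eq_inner, ← norm_star' x]
  exact norm_inner_le_norm _ _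

lemma norm_E_le (x : LB μ) : ‖E μ x‖ ≤ ‖x‖ := by
  simpa using norm_E_mul_le 1 x

lemma inner_mul_left (x y z : LB μ) : ⟪x * y, z⟫_ℂ = ⟪y, star x * z⟫_ℂ := by
  rw [inner_def, inner_def, star_mul]
  congr 1
  ring

lemma inner_mul_right (x y z : LB μ) : ⟪y, x * z⟫_ℂ = ⟪star x * y, z⟫_ℂ := by
  rw [inner_mul_left, star_star]

lemma inner_star_star (x y : LB μ) : ⟪star x, star y⟫_ℂ = ⟪y, x⟫_ℂ := by
  rw [inner_def, inner_def, star_star, mul_comm]

/-- Expectation as a continuous linear map. -/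
noncomputable def EL (μ : Measure X) [IsProbabilityMeasure μ] : LB μ →L[ℂ] ℂ :=
  (E μ).mkContinuous 1 fun x => by simpa using norm_E_le x

@[simp] lemma EL_apply (x : LB μ) : EL μ x = E μ x := rfl

lemma continuous_E : Continuous (E μ) := (EL μ).continuous

lemma continuous_star' : Continuous (star : LB μ → LB μ) := by
  refine (LipschitzWith.of_dist_le_mul (K := 1) fun x y => ?_).continuous
  rw [dist_eq_norm, dist_eq_norm, ← star_sub, norm_star']
  simp

lemma api_int_sq (f : BMF m0) : Integrable (fun ω => ‖(f : X → ℂ) ω‖ ^ 2) μ := by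
  obtain ⟨C, hC⟩ := bmf_bound f
  refine Integrable.of_bound ((bmf_meas f).norm.pow_const 2).aestronglyMeasurable (C ^ 2)
    (ae_of_all _ fun ω => ?_)
  rw [norm_pow, norm_norm]
  exact pow_le_pow_left₀ (norm_nonneg _) (hC ω) 2

lemma api_trunc {m : SA m0} {g : X → ℂ} (hg : Measurable[m.1] g) (C : ℝ) :
    ∃ f : BMF m0, (Measurable[m.1] (f : X → ℂ) ∧ (0 ≤ C → ∀ ω, ‖(f : X → ℂ) ω‖ ≤ C)) ∧
      ∀ ω, ‖g ω‖ ≤ C → (f : X → ℂ) ω = g ω := by
  have hs : MeasurableSet[m.1] {ω | ‖g ω‖ ≤ C} :=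
    (measurable_norm.comp hg) measurableSet_Iic
  have hm : Measurable[m.1] ({ω | ‖g ω‖ ≤ C}.indicator g) := hg.indicator hs
  have hb : ∀ D, C ≤ D → 0 ≤ D → ∀ ω, ‖{ω | ‖g ω‖ ≤ C}.indicator g ω‖ ≤ D := by
    intro D h1 h2 ω
    by_cases h : ω ∈ {ω | ‖g ω‖ ≤ C}
    · rw [Set.indicator_of_mem h]
      exact le_trans h h1
    · rw [Set.indicator_of_notMem h, norm_zero]
      exact h2
  exact ⟨⟨_, hm.mono m.2 le_rfl, max C 0, hb _ (le_max_left _ _) (le_max_right _ _)⟩,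
    ⟨hm, fun h => hb C le_rfl h⟩, fun ω h => Set.indicator_of_mem (s := {ω | ‖g ω‖ ≤ C}) h _⟩

lemma api_memLp (f : BMF m0) : MemLp (f : X → ℂ) 2 μ := by
  obtain ⟨C, hC⟩ := bmf_bound f
  exact MemLp.of_bound (bmf_meas f).aestronglyMeasurable C (ae_of_all _ hC)

/-- The class as an element of `L²`. -/
noncomputable def api_toLp (x : LB μ) : Lp ℂ 2 μ := (api_memLp x.rep).toLp _

lemma api_coe_toLp (x : LB μ) : api_toLp x =ᵐ[μ] (x.rep : X → ℂ) := MemLp.coeFn_toLp _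

lemma api_isometry : Isometry (api_toLp : LB μ → Lp ℂ 2 μ) := by
  refine Isometry.of_dist_eq fun x y => ?_
  rw [dist_eq_norm, dist_eq_norm, ← sq_eq_sq₀ (norm_nonneg _) (norm_nonneg _)]
  have h1 : x - y = cls μ (x.rep - y.rep) := by simp
  rw [h1, norm_sq_mk, ← real_inner_self_eq_norm_sq, L2.inner_def]
  refine integral_congr_ae ?_
  filter_upwards [Lp.coeFn_sub (api_toLp x) (api_toLp y), api_coe_toLp x, api_coe_toLp y]
    with ω h2 h3 h4
  rw [real_inner_self_eq_norm_sq, h2, Pi.sub_apply, h3, h4]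
  rfl

lemma api_isComplete_of_seq {Y : Type*} [MetricSpace Y] {s : Set Y}
    (h : ∀ u : ℕ → Y, (∀ n, u n ∈ s) → CauchySeq u → ∃ a ∈ s, Tendsto u atTop (𝓝 a)) :
    IsComplete s := by
  rw [← completeSpace_coe_iff_isComplete]
  refine Metric.complete_of_cauchySeq_tendsto fun u hu => ?_
  obtain ⟨a, ha, hl⟩ := h (fun n => u n) (fun n => (u n).2)
    (uniformContinuous_subtype_val.comp_cauchySeq hu)
  exact ⟨⟨a, ha⟩, tendsto_subtype_rng.2 hl⟩

lemma api_condExp_bd (m : SA m0) {f : X → ℂ} (hf : Integrable f μ) {C : ℝ}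
    (h : ∀ᵐ ω ∂μ, ‖f ω‖ ≤ C) : ∀ᵐ ω ∂μ, ‖(μ[f | m.1]) ω‖ ≤ C := by
  have h1 := norm_condExp_le (μ := μ) (m := m.1) f
  have h2 := condExp_mono (m := m.1) hf.norm (integrable_const C) h
  rw [condExp_const m.2] at h2
  filter_upwards [h1, h2] with ω h3 h4
  exact le_trans h3 h4

lemma E_ind (s : Set X) (hs : MeasurableSet s) : E μ (ind μ s hs) = (μ.real s : ℂ) := by
  unfold ind
  rw [E_mk]
  change ∫ ω, s.indicator (fun _ => (1 : ℂ)) ω ∂μ = _
  rw [integral_indicator hs]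
  simp

omit [IsProbabilityMeasure μ] in
lemma ind_mul_ind (s t : Set X) (hs : MeasurableSet s) (ht : MeasurableSet t) :
    ind μ s hs * ind μ t ht = ind μ (s ∩ t) (hs.inter ht) := by
  unfold ind
  rw [← map_mul, mk_eq_iff]
  refine ae_of_all _ fun ω => ?_
  change s.indicator (fun _ => (1 : ℂ)) ω * t.indicator (fun _ => (1 : ℂ)) ω =
    (s ∩ t).indicator (fun _ => (1 : ℂ)) ω
  by_cases h1 : ω ∈ s <;> by_cases h2 : ω ∈ t <;> simp [h1, h2]

omit [IsProbabilityMeasure μ] in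
lemma star_ind (s : Set X) (hs : MeasurableSet s) : star (ind μ s hs) = ind μ s hs := by
  unfold ind
  rw [← map_star, mk_eq_iff]
  refine ae_of_all _ fun ω => ?_
  change star (s.indicator (fun _ => (1 : ℂ)) ω) = s.indicator (fun _ => (1 : ℂ)) ω
  by_cases h1 : ω ∈ s <;> simp [h1]

omit [IsProbabilityMeasure μ] in
lemma ind_univ : ind μ Set.univ MeasurableSet.univ = 1 := by
  unfold ind
  rw [← map_one (cls μ), mk_eq_iff]
  refine ae_of_all _ fun ω => ?_
  change (Set.univ : Set X).indicator (fun _ => (1 : ℂ)) ω = 1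
  simp

omit [IsProbabilityMeasure μ] in
lemma prod_ind {ι : Type*} (J : Finset ι) (s : ι → Set X) (hs : ∀ i, MeasurableSet (s i)) :
    ∏ i ∈ J, ind μ (s i) (hs i) =
      ind μ (⋂ i ∈ J, s i) (Finset.measurableSet_biInter J fun i _ => hs i) := by
  classical
  induction J using Finset.induction_on with
  | empty => simpa using ind_univ.symm
  | insert a J ha ih =>
    rw [Finset.prod_insert ha, ih, ind_mul_ind]
    simp only [Finset.set_biInter_insert]

/-! ### Essential bounds -/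

omit [IsProbabilityMeasure μ] in
lemma bd_mk_iff {f : BMF m0} {C : ℝ} : Bd (cls μ f) C ↔ ∀ᵐ ω ∂μ, ‖(f : X → ℂ) ω‖ ≤ C := by
  unfold Bd
  constructor
  · intro h
    filter_upwards [h, rep_mk (μ := μ) f] with ω h1 h2
    rwa [← h2]
  · intro h
    filter_upwards [h, rep_mk (μ := μ) f] with ω h1 h2
    rwa [h2]

omit [IsProbabilityMeasure μ] in
lemma exists_bd (x : LB μ) : ∃ C : ℝ, 0 < C ∧ Bd x C := by
  obtain ⟨C, hC⟩ := bmf_bound x.rep
  exact ⟨max C 1, lt_max_of_lt_right one_pos, ae_of_all _ fun ω => (hC ω).trans (le_max_left _ _)⟩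

lemma Bd.nonneg {x : LB μ} {C : ℝ} (h : Bd x C) : 0 ≤ C := by
  obtain ⟨ω, hω⟩ := h.exists
  exact (norm_nonneg _).trans hω

omit [IsProbabilityMeasure μ] in
lemma Bd.mono {x : LB μ} {C D : ℝ} (h : Bd x C) (hCD : C ≤ D) : Bd x D := by
  exact Eventually.mono h fun ω hω => hω.trans hCD

omit [IsProbabilityMeasure μ] in
lemma Bd.add {x y : LB μ} {C D : ℝ} (h : Bd x C) (h' : Bd y D) : Bd (x + y) (C + D) := by
  obtain ⟨f, rfl⟩ := mk_surj x
  obtain ⟨g, rfl⟩ := mk_surj y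
  rw [← map_add]
  rw [bd_mk_iff] at h h' ⊢
  filter_upwards [h, h'] with ω h1 h2
  exact (norm_add_le _ _).trans (add_le_add h1 h2)

omit [IsProbabilityMeasure μ] in
lemma Bd.sub {x y : LB μ} {C D : ℝ} (h : Bd x C) (h' : Bd y D) : Bd (x - y) (C + D) := by
  obtain ⟨f, rfl⟩ := mk_surj x
  obtain ⟨g, rfl⟩ := mk_surj y
  rw [← map_sub]
  rw [bd_mk_iff] at h h' ⊢
  filter_upwards [h, h'] with ω h1 h2
  exact (norm_sub_le _ _).trans (add_le_add h1 h2)

omit [IsProbabilityMeasure μ] in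
lemma Bd.mul {x y : LB μ} {C D : ℝ} (h : Bd x C) (h' : Bd y D) : Bd (x * y) (C * D) := by
  obtain ⟨f, rfl⟩ := mk_surj x
  obtain ⟨g, rfl⟩ := mk_surj y
  rw [← map_mul]
  rw [bd_mk_iff] at h h' ⊢
  filter_upwards [h, h'] with ω h1 h2
  exact (norm_mul_le _ _).trans (mul_le_mul h1 h2 (norm_nonneg _) ((norm_nonneg _).trans h1))

omit [IsProbabilityMeasure μ] in
lemma Bd.smul {x : LB μ} {C : ℝ} (h : Bd x C) (c : ℂ) : Bd (c • x) (‖c‖ * C) := by
  obtain ⟨f, rfl⟩ := mk_surj x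
  rw [← map_smul]
  rw [bd_mk_iff] at h ⊢
  filter_upwards [h] with ω h1
  exact (norm_mul_le c _).trans (mul_le_mul_of_nonneg_left h1 (norm_nonneg _))

omit [IsProbabilityMeasure μ] in
lemma Bd.star {x : LB μ} {C : ℝ} (h : Bd x C) : Bd (star x) C := by
  obtain ⟨f, rfl⟩ := mk_surj x
  rw [← map_star]
  rw [bd_mk_iff] at h ⊢
  filter_upwards [h] with ω h1
  exact (norm_star ((f : X → ℂ) ω)).trans_le h1

omit [IsProbabilityMeasure μ] in
lemma bd_algebraMap (c : ℂ) : Bd (algebraMap ℂ (LB μ) c) ‖c‖ := by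
  rw [← (cls μ).commutes c]
  exact bd_mk_iff.2 (ae_of_all _ fun ω => le_rfl)

omit [IsProbabilityMeasure μ] in
lemma bd_one : Bd (1 : LB μ) 1 := by
  simpa using bd_algebraMap (μ := μ) 1

omit [IsProbabilityMeasure μ] in
lemma bd_zero : Bd (0 : LB μ) 0 := by
  simpa using bd_algebraMap (μ := μ) 0

omit [IsProbabilityMeasure μ] in
lemma bd_ind (s : Set X) (hs : MeasurableSet s) : Bd (ind μ s hs) 1 := by
  unfold ind
  rw [bd_mk_iff]
  refine ae_of_all _ fun ω => ?_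
  change ‖s.indicator (fun _ => (1 : ℂ)) ω‖ ≤ 1
  by_cases h1 : ω ∈ s <;> simp [h1]

omit [IsProbabilityMeasure μ] in
lemma bd_prod {ι : Type*} (J : Finset ι) (x : ι → LB μ) (C : ι → ℝ)
    (h : ∀ i ∈ J, Bd (x i) (C i)) : Bd (∏ i ∈ J, x i) (∏ i ∈ J, C i) := by
  classical
  induction J using Finset.induction_on with
  | empty => simpa using bd_one
  | insert a J ha ih =>
    rw [Finset.prod_insert ha, Finset.prod_insert ha]
    exact (h a (Finset.mem_insert_self _ _)).mul (ih fun i hi => h i (Finset.mem_insert_of_mem hi))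

omit [IsProbabilityMeasure μ] in
lemma bd_prod_one {ι : Type*} (J : Finset ι) (x : ι → LB μ)
    (h : ∀ i ∈ J, Bd (x i) 1) : Bd (∏ i ∈ J, x i) 1 := by
  simpa using bd_prod J x (fun _ => 1) h

omit [IsProbabilityMeasure μ] in
lemma bd_sum {ι : Type*} (J : Finset ι) (x : ι → LB μ) (C : ι → ℝ)
    (h : ∀ i ∈ J, Bd (x i) (C i)) : Bd (∑ i ∈ J, x i) (∑ i ∈ J, C i) := by
  classical
  induction J using Finset.induction_on with
  | empty => simpa using bd_zero
  | insert a J ha ih =>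
    rw [Finset.sum_insert ha, Finset.sum_insert ha]
    exact (h a (Finset.mem_insert_self _ _)).add (ih fun i hi => h i (Finset.mem_insert_of_mem hi))

lemma Bd.norm_mul_le {x : LB μ} {C : ℝ} (h : Bd x C) (y : LB μ) : ‖x * y‖ ≤ C * ‖y‖ := by
  have hC := h.nonneg
  obtain ⟨f, rfl⟩ := mk_surj x
  obtain ⟨g, rfl⟩ := mk_surj y
  rw [bd_mk_iff] at h
  rw [← map_mul, ← sq_le_sq₀ (norm_nonneg _) (by positivity), mul_pow, norm_sq_mk, norm_sq_mk,
    ← integral_const_mul]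
  refine integral_mono_of_nonneg (ae_of_all _ fun ω => by positivity)
    ((api_int_sq g).const_mul _) ?_
  filter_upwards [h] with ω h1
  change ‖(f : X → ℂ) ω * (g : X → ℂ) ω‖ ^ 2 ≤ _
  rw [norm_mul, mul_pow]
  gcongr

lemma Bd.norm_le {x : LB μ} {C : ℝ} (h : Bd x C) : ‖x‖ ≤ C := by
  simpa using h.norm_mul_le 1

omit [IsProbabilityMeasure μ] in
lemma bd_of_unitary {x : LB μ} (h : x ∈ unitary (LB μ)) : Bd x 1 := by
  obtain ⟨f, rfl⟩ := mk_surj x
  have h1 := (Unitary.mem_iff.1 h).1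
  rw [← map_star, ← map_mul, ← map_one (cls μ), mk_eq_iff] at h1
  rw [bd_mk_iff]
  filter_upwards [h1] with ω h2
  have h3 : star ((f : X → ℂ) ω) * (f : X → ℂ) ω = 1 := h2
  have h4 := congrArg norm h3
  rw [norm_mul, norm_star, norm_one] at h4
  nlinarith [norm_nonneg ((f : X → ℂ) ω)]

/-- Multiplication by a fixed element as a continuous linear map. -/
noncomputable def mulL (x : LB μ) : LB μ →L[ℂ] LB μ :=
  (LinearMap.mulLeft ℂ x).mkContinuousOfExistsBound
    ((exists_bd x).imp fun _ h y => h.2.norm_mul_le y)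

@[simp] lemma mulL_apply (x y : LB μ) : mulL x y = x * y := rfl

lemma continuous_mul_left' (x : LB μ) : Continuous fun y : LB μ => x * y := (mulL x).continuous

lemma continuous_mul_right' (x : LB μ) : Continuous fun y : LB μ => y * x := by
  simpa only [mul_comm] using continuous_mul_left' x

lemma tendsto_mul_of_bd {ι : Type*} {l : Filter ι} {x y : ι → LB μ} {a b : LB μ} {C : ℝ}
    (hx : Tendsto x l (𝓝 a)) (hy : Tendsto y l (𝓝 b)) (hC : ∀ i, Bd (x i) C) :
    Tendsto (fun i => x i * y i) l (𝓝 (a * b)) := by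
  have h1 : Tendsto (fun i => x i * b) l (𝓝 (a * b)) :=
    ((continuous_mul_right' b).tendsto a).comp hx
  have h2 : Tendsto (fun i => x i * (y i - b)) l (𝓝 0) := by
    rw [tendsto_zero_iff_norm_tendsto_zero]
    have h3 : Tendsto (fun i => C * ‖y i - b‖) l (𝓝 0) := by
      simpa using (tendsto_iff_norm_sub_tendsto_zero.1 hy).const_mul C
    exact squeeze_zero (fun i => norm_nonneg _) (fun i => (hC i).norm_mul_le _) h3
  have h4 := h1.add h2
  rw [add_zero] at h4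
  refine h4.congr fun i => ?_
  ring

lemma tendsto_prod_of_bd {ι κ : Type*} {l : Filter ι} (J : Finset κ) {x : κ → ι → LB μ}
    {a : κ → LB μ} {C : ℝ} (hx : ∀ j ∈ J, Tendsto (x j) l (𝓝 (a j)))
    (hC : ∀ j ∈ J, ∀ i, Bd (x j i) C) :
    Tendsto (fun i => ∏ j ∈ J, x j i) l (𝓝 (∏ j ∈ J, a j)) := by
  classical
  induction J using Finset.induction_on with
  | empty => simpa using tendsto_const_nhds
  | insert j J hj ih =>
    simp only [Finset.prod_insert hj]
    exact tendsto_mul_of_bd (hx j (Finset.mem_insert_self _ _))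
      (ih (fun k hk => hx k (Finset.mem_insert_of_mem hk))
        fun k hk => hC k (Finset.mem_insert_of_mem hk)) (hC j (Finset.mem_insert_self _ _))

lemma norm_prod_sub_prod_le {κ : Type*} (J : Finset κ) (x y : κ → LB μ)
    (hx : ∀ j ∈ J, Bd (x j) 1) (hy : ∀ j ∈ J, Bd (y j) 1) :
    ‖∏ j ∈ J, x j - ∏ j ∈ J, y j‖ ≤ ∑ j ∈ J, ‖x j - y j‖ := by
  classical
  induction J using Finset.induction_on with
  | empty => simp
  | insert j J hj ih =>
    simp only [Finset.prod_insert hj, Finset.sum_insert hj]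
    have e : x j * ∏ k ∈ J, x k - y j * ∏ k ∈ J, y k =
        (∏ k ∈ J, y k) * (x j - y j) + x j * (∏ k ∈ J, x k - ∏ k ∈ J, y k) := by ring
    rw [e]
    have h1 := (bd_prod_one J y fun k hk => hy k (Finset.mem_insert_of_mem hk)).norm_mul_le
      (x j - y j)
    have h2 := (hx j (Finset.mem_insert_self _ _)).norm_mul_le (∏ k ∈ J, x k - ∏ k ∈ J, y k)
    have h3 := ih (fun k hk => hx k (Finset.mem_insert_of_mem hk))
      fun k hk => hy k (Finset.mem_insert_of_mem hk)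
    have h4 := norm_add_le ((∏ k ∈ J, y k) * (x j - y j)) (x j * (∏ k ∈ J, x k - ∏ k ∈ J, y k))
    linarith

/-- The set of classes bounded by `C` is complete for the L2 norm. -/
lemma isComplete_bd (C : ℝ) : IsComplete {x : LB μ | Bd x C} := by
  refine api_isComplete_of_seq fun u hu hc => ?_
  have hc' : CauchySeq fun n => api_toLp (u n) := api_isometry.uniformContinuous.comp_cauchySeq hc
  obtain ⟨F, hF⟩ := cauchySeq_tendsto_of_complete hc'
  obtain ⟨ns, -, hns⟩ := (tendstoInMeasure_of_tendsto_Lp hF).exists_seq_tendsto_ae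
  have hb : ∀ᵐ ω ∂μ, ‖F ω‖ ≤ C := by
    have h1 : ∀ᵐ ω ∂μ, ∀ n, ‖api_toLp (u n) ω‖ ≤ C := by
      refine ae_all_iff.2 fun n => ?_
      filter_upwards [hu n, api_coe_toLp (u n)] with ω h1 h2
      rwa [h2]
    filter_upwards [h1, hns] with ω h1 h2
    exact le_of_tendsto' h2.norm fun n => h1 _
  obtain ⟨f, -, hf⟩ := api_trunc (m := ⊤) (Lp.stronglyMeasurable F).measurable C
  have hfF : (f : X → ℂ) =ᵐ[μ] F := hb.mono fun ω h => hf ω h
  refine ⟨cls μ f, ?_, ?_⟩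
  · change Bd _ _
    rw [bd_mk_iff]
    filter_upwards [hb, hfF] with ω h1 h2
    rwa [h2]
  · have e : api_toLp (cls μ f) = F :=
      Lp.ext ((api_coe_toLp _).trans ((rep_mk f).trans hfF))
    rw [api_isometry.tendsto_nhds_iff, e]
    exact hF

lemma isClosed_bd (C : ℝ) : IsClosed {x : LB μ | Bd x C} := (isComplete_bd C).isClosed

/-! ### Unitary elements -/

omit [IsProbabilityMeasure μ] in
lemma mem_unitary_iff {x : LB μ} : x ∈ unitary (LB μ) ↔ star x * x = 1 := by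
  rw [Unitary.mem_iff]
  exact ⟨fun h => h.1, fun h => ⟨h, by rw [mul_comm]; exact h⟩⟩

omit [IsProbabilityMeasure μ] in
lemma mk_mem_unitary {f : BMF m0} (h : ∀ ω, ‖(f : X → ℂ) ω‖ = 1) : cls μ f ∈ unitary (LB μ) := by
  rw [mem_unitary_iff, ← map_star, ← map_mul, ← map_one (cls μ), mk_eq_iff]
  refine ae_of_all _ fun ω => ?_
  change star ((f : X → ℂ) ω) * (f : X → ℂ) ω = 1
  rw [Complex.star_def, Complex.conj_mul', h ω]
  simp

lemma norm_unitary_mul {u : LB μ} (h : u ∈ unitary (LB μ)) (y : LB μ) : ‖u * y‖ = ‖y‖ := by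
  have h1 : ((‖u * y‖ ^ 2 : ℝ) : ℂ) = ((‖y‖ ^ 2 : ℝ) : ℂ) := by
    rw [norm_sq_eq, norm_sq_eq, star_mul, mul_assoc, ← mul_assoc (star u), mem_unitary_iff.1 h,
      one_mul]
  have h' : ‖u * y‖ ^ 2 = ‖y‖ ^ 2 := by exact_mod_cast h1
  exact (pow_left_inj₀ (norm_nonneg _) (norm_nonneg _) two_ne_zero).1 h'

lemma norm_unitary {u : LB μ} (h : u ∈ unitary (LB μ)) : ‖u‖ = 1 := by
  simpa using norm_unitary_mul h 1

omit [IsProbabilityMeasure μ] in
lemma smul_mem_unitary {u : LB μ} (h : u ∈ unitary (LB μ)) {c : ℂ} (hc : ‖c‖ = 1) :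
    c • u ∈ unitary (LB μ) := by
  rw [mem_unitary_iff, star_smul, smul_mul_smul_comm, mem_unitary_iff.1 h, Complex.star_def,
    Complex.conj_mul', hc]
  simp

/-- A unitary with expectation of modulus one is a constant. -/
lemma unitary_eq_const {u : LB μ} (h : u ∈ unitary (LB μ)) (hE : ‖E μ u‖ = 1) :
    u = algebraMap ℂ (LB μ) (E μ u) := by
  have h1 : star (E μ u) * E μ u = 1 := by
    rw [Complex.star_def, Complex.conj_mul', hE]
    simp
  rw [← sub_eq_zero, ← inner_self_eq_zero (𝕜 := ℂ), inner_def, Algebra.algebraMap_eq_smul_one,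
    star_sub, star_smul, star_one, sub_mul, mul_sub, mul_sub, mem_unitary_iff.1 h]
  simp only [mul_smul_comm, smul_mul_assoc, mul_one, one_mul, map_sub, map_smul, E_one, E_star,
    smul_eq_mul]
  rw [Complex.star_def] at h1 ⊢
  linear_combination -h1

/-- Normalisation of an element of constant modulus. -/
lemma unitary_of_const_modulus {x : LB μ} {c : ℂ} (h : star x * x = algebraMap ℂ (LB μ) c)
    (hx : x ≠ 0) : ((‖x‖⁻¹ : ℝ) : ℂ) • x ∈ unitary (LB μ) := by
  have h1 : ((‖x‖ ^ 2 : ℝ) : ℂ) = c := by rw [norm_sq_eq, h, E_algebraMap]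
  have h2 : (‖x‖ : ℂ) ≠ 0 := by exact_mod_cast norm_ne_zero_iff.2 hx
  rw [mem_unitary_iff, star_smul, smul_mul_smul_comm, h, Algebra.algebraMap_eq_smul_one, smul_smul,
    ← h1, Complex.star_def, Complex.conj_ofReal]
  push_cast
  rw [show (‖x‖ : ℂ)⁻¹ * (‖x‖ : ℂ)⁻¹ * (‖x‖ : ℂ) ^ 2 = 1 by field_simp, one_smul]

lemma isClosed_unitary : IsClosed {x : LB μ | x ∈ unitary (LB μ)} := by
  refine isClosed_of_closure_subset fun a ha => ?_
  obtain ⟨u, hu, hl⟩ := mem_closure_iff_seq_limit.1 ha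
  have h1 := tendsto_mul_of_bd ((continuous_star'.tendsto a).comp hl) hl
    fun n => (bd_of_unitary (hu n)).star
  have h2 : (fun n => (star ∘ u) n * u n) = fun _ => (1 : LB μ) :=
    funext fun n => mem_unitary_iff.1 (hu n)
  rw [h2] at h1
  exact mem_unitary_iff.2 (tendsto_nhds_unique h1 tendsto_const_nhds)

/-! ### The subalgebras `L μ m` -/

omit [IsProbabilityMeasure μ] in
lemma mk_mem_L {m : SA m0} {f : BMF m0} (hf : Measurable[m.1] (f : X → ℂ)) : cls μ f ∈ L μ m :=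
  ⟨f, hf, rfl⟩

omit [IsProbabilityMeasure μ] in
lemma ind_mem_L {m : SA m0} {s : Set X} (hs : MeasurableSet[m.1] s) :
    ind μ s (m.2 s hs) ∈ L μ m :=
  mk_mem_L (measurable_const.indicator hs)

omit [IsProbabilityMeasure μ] in
@[simp] lemma mem_LS {m : SA m0} {x : LB μ} : x ∈ LS μ m ↔ x ∈ L μ m := Iff.rfl

omit [IsProbabilityMeasure μ] in
lemma L_mono {m m' : SA m0} (h : m ≤ m') : L μ m ≤ L μ m' := by
  rintro _ ⟨f, hf, rfl⟩
  exact ⟨f, hf.mono h le_rfl, rfl⟩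

omit [IsProbabilityMeasure μ] in
lemma L_le_sup_left (m m' : SA m0) : L μ m ≤ L μ (m ⊔ m') := L_mono le_sup_left

omit [IsProbabilityMeasure μ] in
lemma L_le_sup_right (m m' : SA m0) : L μ m' ≤ L μ (m ⊔ m') := L_mono le_sup_right

omit [IsProbabilityMeasure μ] in
lemma mem_L_top (x : LB μ) : x ∈ L μ (⊤ : SA m0) := ⟨x.rep, bmf_meas _, mk_rep x⟩

omit [IsProbabilityMeasure μ] in
lemma mem_L_iff_aesm {m : SA m0} {x : LB μ} :
    x ∈ L μ m ↔ AEStronglyMeasurable[m.1] (x.rep : X → ℂ) μ := by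
  constructor
  · rintro ⟨f, hf, rfl⟩
    exact ⟨f, hf.stronglyMeasurable, rep_mk f⟩
  · rintro ⟨g, hg, h⟩
    obtain ⟨C, hC⟩ := bmf_bound x.rep
    obtain ⟨f, ⟨hf, -⟩, hf'⟩ := api_trunc (m := m) hg.measurable C
    refine ⟨f, hf, ?_⟩
    rw [← mk_rep x, mk_eq_iff]
    filter_upwards [h] with ω h1
    rw [hf' ω (h1 ▸ hC ω), h1]

lemma exists_rep_bd {m : SA m0} {x : LB μ} {C : ℝ} (hx : x ∈ L μ m) (hC : Bd x C) :
    ∃ f : BMF m0, Measurable[m.1] (f : X → ℂ) ∧ (∀ ω, ‖(f : X → ℂ) ω‖ ≤ C) ∧ cls μ f = x := by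
  obtain ⟨g, hg, rfl⟩ := hx
  obtain ⟨f, ⟨hf, hb⟩, hf'⟩ := api_trunc (m := m) hg C
  refine ⟨f, hf, hb hC.nonneg, mk_eq_iff.2 ?_⟩
  exact (bd_mk_iff.1 hC).mono fun ω h => hf' ω h

/-- Existence of conditional expectations. -/
lemma exists_cE (m : SA m0) (x : LB μ) :
    ∃ y ∈ L μ m, (y.rep : X → ℂ) =ᵐ[μ] μ[(x.rep : X → ℂ) | m.1] ∧
      ∀ z ∈ L μ m, E μ (z * y) = E μ (z * x) := by
  obtain ⟨C, hC⟩ := bmf_bound x.rep
  have hb := api_condExp_bd m (bmf_int x.rep μ) (ae_of_all μ hC)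
  obtain ⟨f, ⟨hf, -⟩, hf'⟩ := api_trunc (m := m)
    (stronglyMeasurable_condExp (m := m.1) (μ := μ) (f := (x.rep : X → ℂ))).measurable C
  have h1 : (f : X → ℂ) =ᵐ[μ] μ[(x.rep : X → ℂ) | m.1] := hb.mono fun ω h => hf' ω h
  refine ⟨cls μ f, mk_mem_L hf, (rep_mk f).trans h1, ?_⟩
  rintro _ ⟨g, hg, rfl⟩
  rw [← mk_rep x, ← map_mul, ← map_mul, E_mk, E_mk]
  have h2 := condExp_bilin_of_stronglyMeasurable_left (μ := μ) (ContinuousLinearMap.mul ℝ ℂ)
    hg.stronglyMeasurable (bmf_int (g * x.rep) μ) (bmf_int x.rep μ)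
  have hm : m.1 ≤ m0 := m.2
  rw [← integral_condExp (μ := μ) hm (f := ((g * x.rep : BMF m0) : X → ℂ))]
  refine integral_congr_ae ?_
  filter_upwards [h1, h2] with ω h3 h4
  exact (congrArg ((g : X → ℂ) ω * ·) h3).trans h4.symm

instance (m : SA m0) : (LS μ m).HasOrthogonalProjection where
  exists_orthogonal x := by
    obtain ⟨y, hy, -, h⟩ := exists_cE m x
    refine ⟨y, hy, ?_⟩
    rw [Submodule.mem_orthogonal]
    intro u hu
    rw [inner_def, mul_sub, map_sub, h _ (star_mem hu), sub_self]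

lemma isClosed_L (m : SA m0) : IsClosed (L μ m : Set (LB μ)) := by
  have h := (LS μ m)ᗮ.isClosed_orthogonal
  rwa [Submodule.orthogonal_orthogonal] at h

lemma isClosed_LS (m : SA m0) : IsClosed (LS μ m : Set (LB μ)) := isClosed_L m

/-- Conditional expectation. -/
noncomputable def cE (μ : Measure X) [IsProbabilityMeasure μ] (m : SA m0) : LB μ →L[ℂ] LB μ :=
  (LS μ m).starProjection

lemma cE_mem (m : SA m0) (x : LB μ) : cE μ m x ∈ L μ m :=
  Submodule.starProjection_apply_mem (LS μ m) x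

lemma cE_of_mem {m : SA m0} {x : LB μ} (hx : x ∈ L μ m) : cE μ m x = x :=
  Submodule.starProjection_eq_self_iff.2 hx

@[simp] lemma cE_cE (m : SA m0) (x : LB μ) : cE μ m (cE μ m x) = cE μ m x :=
  cE_of_mem (cE_mem m x)

lemma inner_cE_left (m : SA m0) (x y : LB μ) : ⟪cE μ m x, y⟫_ℂ = ⟪x, cE μ m y⟫_ℂ :=
  Submodule.inner_starProjection_left_eq_right _ x y

lemma inner_cE_of_mem {m : SA m0} {z : LB μ} (hz : z ∈ L μ m) (x : LB μ) :
    ⟪z, cE μ m x⟫_ℂ = ⟪z, x⟫_ℂ := by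
  rw [← inner_cE_left, cE_of_mem hz]

lemma E_mul_cE {m : SA m0} {z : LB μ} (hz : z ∈ L μ m) (x : LB μ) :
    E μ (z * cE μ m x) = E μ (z * x) := by
  rw [E_mul_eq_inner, E_mul_eq_inner, inner_cE_of_mem (star_mem hz)]

lemma E_cE_mul' {m : SA m0} {z : LB μ} (hz : z ∈ L μ m) (x : LB μ) :
    E μ (cE μ m x * z) = E μ (x * z) := by
  rw [mul_comm, E_mul_cE hz, mul_comm]

@[simp] lemma E_cE (m : SA m0) (x : LB μ) : E μ (cE μ m x) = E μ x := by
  simpa using E_mul_cE (one_mem (L μ m)) x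

lemma E_cE_mul (m : SA m0) (x y : LB μ) : E μ (cE μ m x * y) = E μ (x * cE μ m y) := by
  rw [← E_mul_cE (cE_mem m x) y, E_cE_mul' (cE_mem m y)]

lemma eq_of_E_mul {m : SA m0} {x y : LB μ} (hx : x ∈ L μ m) (hy : y ∈ L μ m)
    (h : ∀ z ∈ L μ m, E μ (z * x) = E μ (z * y)) : x = y := by
  rw [← sub_eq_zero, ← inner_self_eq_zero (𝕜 := ℂ), inner_def, mul_sub, map_sub,
    h _ (star_mem (sub_mem hx hy)), sub_self]

lemma cE_unique {m : SA m0} {x y : LB μ} (hy : y ∈ L μ m)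
    (h : ∀ z ∈ L μ m, E μ (z * y) = E μ (z * x)) : cE μ m x = y :=
  eq_of_E_mul (cE_mem m x) hy fun z hz => by rw [E_mul_cE hz, h z hz]

lemma cE_eq_zero_iff {m : SA m0} {x : LB μ} :
    cE μ m x = 0 ↔ ∀ z ∈ L μ m, E μ (z * x) = 0 :=
  ⟨fun h z hz => by rw [← E_mul_cE hz, h, mul_zero, map_zero],
    fun h => cE_unique (zero_mem _) fun z hz => by rw [mul_zero, map_zero, h z hz]⟩

lemma cE_mul_left {m : SA m0} {z : LB μ} (hz : z ∈ L μ m) (x : LB μ) :
    cE μ m (z * x) = z * cE μ m x :=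
  cE_unique (mul_mem hz (cE_mem m x)) fun w hw => by
    rw [← mul_assoc, ← mul_assoc, E_mul_cE (mul_mem hw hz)]

lemma cE_mul_right {m : SA m0} {z : LB μ} (hz : z ∈ L μ m) (x : LB μ) :
    cE μ m (x * z) = cE μ m x * z := by
  rw [mul_comm, cE_mul_left hz, mul_comm]

lemma cE_star (m : SA m0) (x : LB μ) : cE μ m (star x) = star (cE μ m x) :=
  cE_unique (star_mem (cE_mem m x)) fun w hw => by
    have h := congrArg conj (E_mul_cE (star_mem hw) x)
    rwa [← E_star, ← E_star, star_mul, star_mul, star_star, mul_comm, mul_comm (star x)] at h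

@[simp] lemma cE_one (m : SA m0) : cE μ m 1 = 1 := cE_of_mem (one_mem _)

@[simp] lemma cE_algebraMap (m : SA m0) (c : ℂ) :
    cE μ m (algebraMap ℂ (LB μ) c) = algebraMap ℂ (LB μ) c :=
  cE_of_mem ((L μ m).algebraMap_mem c)

lemma norm_cE_le (m : SA m0) (x : LB μ) : ‖cE μ m x‖ ≤ ‖x‖ :=
  Submodule.norm_starProjection_apply_le _ x

lemma norm_sq_cE (m : SA m0) (x : LB μ) : ‖x‖ ^ 2 = ‖cE μ m x‖ ^ 2 + ‖x - cE μ m x‖ ^ 2 := by
  have h := Submodule.norm_sq_eq_add_norm_sq_starProjection x (LS μ m)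
  rwa [Submodule.starProjection_orthogonal_val] at h

lemma mem_of_norm_cE {m : SA m0} {x : LB μ} (h : ‖x‖ ≤ ‖cE μ m x‖) : x ∈ L μ m := by
  have h1 := norm_sq_cE m x
  have h2 : ‖x‖ ^ 2 ≤ ‖cE μ m x‖ ^ 2 := pow_le_pow_left₀ (norm_nonneg _) h 2
  have h3 : ‖x - cE μ m x‖ = 0 := by nlinarith [norm_nonneg (x - cE μ m x)]
  rw [sub_eq_zero.1 (norm_eq_zero.1 h3)]
  exact cE_mem m x

lemma cE_cE_of_le {m m' : SA m0} (h : L μ m ≤ L μ m') (x : LB μ) :
    cE μ m (cE μ m' x) = cE μ m x :=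
  cE_unique (cE_mem m x) fun z hz => by rw [E_mul_cE hz, E_mul_cE (h hz)]

lemma cE_cE_of_ge {m m' : SA m0} (h : L μ m ≤ L μ m') (x : LB μ) :
    cE μ m' (cE μ m x) = cE μ m x := cE_of_mem (h (cE_mem m x))

lemma norm_cE_mono {m m' : SA m0} (h : L μ m ≤ L μ m') (x : LB μ) :
    ‖cE μ m x‖ ≤ ‖cE μ m' x‖ := by
  rw [← cE_cE_of_le h]
  exact norm_cE_le _ _

lemma cE_eq_of_mem {m m' : SA m0} (h : L μ m ≤ L μ m') {x : LB μ} (hx : cE μ m' x ∈ L μ m) :
    cE μ m' x = cE μ m x := by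
  rw [← cE_cE_of_le h, cE_of_mem hx]

lemma cE_eq_of_norm_le {m m' : SA m0} (h : L μ m ≤ L μ m') {x : LB μ}
    (hx : ‖cE μ m' x‖ ≤ ‖cE μ m x‖) : cE μ m' x = cE μ m x :=
  cE_eq_of_mem h (mem_of_norm_cE (by rwa [cE_cE_of_le h]))

lemma cE_congr {m m' : SA m0} (h : L μ m = L μ m') (x : LB μ) : cE μ m x = cE μ m' x :=
  (cE_eq_of_mem h.le (h ▸ cE_mem m' x)).symm

lemma cE_comm {m m' : SA m0} (h : ∀ x ∈ L μ m', cE μ m x ∈ L μ m') (x : LB μ) :
    cE μ m (cE μ m' x) = cE μ m' (cE μ m x) := by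
  refine (cE_unique (h _ (cE_mem m' x)) fun z hz => ?_).symm
  rw [← E_cE_mul m z, E_mul_cE (h z hz), E_cE_mul]

lemma cE_rep (m : SA m0) (x : LB μ) :
    ((cE μ m x).rep : X → ℂ) =ᵐ[μ] μ[(x.rep : X → ℂ) | m.1] := by
  obtain ⟨y, hy, h1, h2⟩ := exists_cE m x
  rwa [cE_unique hy h2]

lemma cE_mk_rep (m : SA m0) (f : BMF m0) :
    ((cE μ m (cls μ f)).rep : X → ℂ) =ᵐ[μ] μ[(f : X → ℂ) | m.1] :=
  (cE_rep m _).trans (condExp_congr_ae (rep_mk f))

lemma Bd.cE {x : LB μ} {C : ℝ} (h : Bd x C) (m : SA m0) : Bd (cE μ m x) C := by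
  filter_upwards [cE_rep m x, api_condExp_bd m (bmf_int x.rep μ) h] with ω h1 h2
  rwa [h1]

end Vale.Agent.P102
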