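import Vale.Agent.P102.Api

/-! Density (induction) principles and independence. -/

namespace Vale.Agent.P102
open MeasureTheory ProbabilityTheory Filter Topology
open scoped InnerProductSpace ComplexConjugate

variable {X : Type*} {m0 : MeasurableSpace X} {μ : Measure X} [IsProbabilityMeasure μ]

/-! ### Density -/

lemma apiind_tendsto {f : ℕ → BMF m0} {g : BMF m0} {C : ℝ}
    (hC : ∀ n ω, ‖(f n : X → ℂ) ω‖ ≤ C)
    (h : ∀ ω, Tendsto (fun n => (f n : X → ℂ) ω) atTop (𝓝 ((g : X → ℂ) ω))) :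
    Tendsto (fun n => cls μ (f n)) atTop (𝓝 (cls μ g)) := by
  have h1 : Tendsto (fun n => ‖cls μ (f n) - cls μ g‖ ^ 2) atTop (𝓝 0) := by
    simp only [← map_sub, norm_sq_mk]
    have := tendsto_integral_of_dominated_convergence (μ := μ)
      (F := fun n ω => ‖((f n - g : BMF m0) : X → ℂ) ω‖ ^ 2) (f := fun _ => 0)
      (fun _ => (C + C) ^ 2)
      (fun n => ((bmf_meas _).norm.pow_const 2).aestronglyMeasurable) (integrable_const _)
      (fun n => ae_of_all _ fun ω => by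
        rw [norm_pow, norm_norm]
        exact pow_le_pow_left₀ (norm_nonneg _) ((norm_sub_le _ _).trans (add_le_add (hC n ω)
          (le_of_tendsto' (h ω).norm fun n => hC n ω))) 2)
      (ae_of_all _ fun ω => by
        simpa using ((tendsto_iff_norm_sub_tendsto_zero.1 (h ω)).pow 2))
    simpa using this
  rw [tendsto_iff_norm_sub_tendsto_zero]
  simpa using h1.sqrt

omit [IsProbabilityMeasure μ] in
lemma apiind_union {s t : Set X} (hs : MeasurableSet s) (ht : MeasurableSet t)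
    (h : Disjoint s t) : ind μ (s ∪ t) (hs.union ht) = ind μ s hs + ind μ t ht := by
  rw [ind, ind, ind, ← map_add]
  exact congrArg _ (Subtype.ext (Set.indicator_union_of_disjoint h _))

lemma apiind_sets (m : SA m0) (p : Submodule ℂ (LB μ)) (hp : IsClosed (p : Set (LB μ)))
    (h : ∀ s, ∀ hs : MeasurableSet[m.1] s, ind μ s (m.2 s hs) ∈ p) : ∀ x ∈ L μ m, x ∈ p := by
  rintro _ ⟨f, hf, rfl⟩
  obtain ⟨C, hC⟩ := bmf_bound f
  let B : @SimpleFunc X m.1 ℂ → BMF m0 := fun g =>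
    ⟨g, (@SimpleFunc.measurable _ _ m.1 _ g).mono m.2 le_rfl,
      @SimpleFunc.exists_forall_norm_le _ _ m.1 _ g⟩
  have hB : ∀ g, cls μ (B g) ∈ p := by
    intro g
    refine @SimpleFunc.induction _ _ m.1 _ (fun g => cls μ (B g) ∈ p) (fun c s hs => ?_)
      (fun g g' _ h1 h2 => ?_) g
    · have : B (@SimpleFunc.piecewise _ _ m.1 s hs (@SimpleFunc.const _ _ m.1 c)
          (@SimpleFunc.const _ _ m.1 0)) = c • bmfInd s (m.2 s hs) := by
        refine Subtype.ext (funext fun ω => ?_)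
        by_cases hω : ω ∈ s <;> simp [B, bmfInd, hω]
      rw [this, map_smul]
      exact p.smul_mem c (h s hs)
    · have : B (g + g') = B g + B g' := rfl
      rw [this, map_add]
      exact add_mem h1 h2
  have hs : StronglyMeasurable[m.1] (f : X → ℂ) := hf.stronglyMeasurable
  exact hp.mem_of_tendsto (apiind_tendsto (f := fun n => B (hs.approxBounded (max C 0) n))
    (fun n ω => hs.norm_approxBounded_le (le_max_right _ _) n ω)
    fun ω => hs.tendsto_approxBounded_of_norm_le ((hC ω).trans (le_max_left _ _)))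
    (Eventually.of_forall fun n => hB _)

/-- Base density lemma: indicators of a generating pi-system and `1` have dense span. -/
lemma L_le_of_piSystem (m : SA m0) (C : Set (Set X)) (hC : IsPiSystem C)
    (hm : m.1 = MeasurableSpace.generateFrom C) (p : Submodule ℂ (LB μ))
    (hp : IsClosed (p : Set (LB μ))) (h1 : (1 : LB μ) ∈ p)
    (h : ∀ s ∈ C, ∀ hs : MeasurableSet s, ind μ s hs ∈ p) : ∀ x ∈ L μ m, x ∈ p := by
  refine apiind_sets m p hp ?_
  refine MeasurableSpace.induction_on_inter (m := m.1) hm hC ?_ (fun t ht => h t ht _)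
    (fun t ht h2 => ?_) fun f hf hfm h2 => ?_
  · have : ind μ ∅ MeasurableSet.empty = 0 := by
      rw [← map_zero (cls μ)]
      exact congrArg _ (Subtype.ext (Set.indicator_empty _))
    rw [this]
    exact zero_mem _
  · have h3 := apiind_union (μ := μ) (m.2 t ht) (m.2 _ ht.compl) disjoint_compl_right
    simp only [Set.union_compl_self, ind_univ] at h3
    rw [eq_sub_of_add_eq' h3.symm]
    exact sub_mem h1 h2
  · have h3 : ∀ n, MeasurableSet (Set.accumulate f n) := fun n =>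
      MeasurableSet.biUnion (Set.to_countable _) fun i _ => m.2 _ (hfm i)
    refine hp.mem_of_tendsto (apiind_tendsto (f := fun n => bmfInd _ (h3 n)) (C := 1)
      (fun n ω => ?_) fun ω => ?_) (Eventually.of_forall fun n => ?_)
    · by_cases hω : ω ∈ Set.accumulate f n <;> simp [bmfInd, hω]
    · have := (Set.monotone_accumulate (s := f)).tendsto_indicator _ (fun _ => (1 : ℂ)) ω
      rw [Set.iUnion_accumulate] at this
      exact this.mono_right (pure_le_nhds _)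
    · change ind μ _ (h3 n) ∈ p
      induction n with
      | zero => simpa using h2 0
      | succ n ih =>
        have := apiind_union (μ := μ) (h3 n) (m.2 _ (hfm (n + 1)))
          (Set.disjoint_accumulate hf n.lt_succ_self)
        simp only [Set.accumulate_succ, this]
        exact add_mem ih (h2 _)

lemma L_ind_induction (m : SA m0) (p : Submodule ℂ (LB μ)) (hp : IsClosed (p : Set (LB μ)))
    (h : ∀ s, ∀ hs : MeasurableSet[m.1] s, ind μ s (m.2 s hs) ∈ p) : ∀ x ∈ L μ m, x ∈ p := by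
  exact apiind_sets m p hp h

lemma L_sup_induction (m m' : SA m0) (p : Submodule ℂ (LB μ)) (hp : IsClosed (p : Set (LB μ)))
    (h : ∀ a ∈ L μ m, ∀ b ∈ L μ m', a * b ∈ p) : ∀ x ∈ L μ (m ⊔ m'), x ∈ p := by
  refine L_le_of_piSystem (m ⊔ m')
    {u | ∃ s t, MeasurableSet[m.1] s ∧ MeasurableSet[m'.1] t ∧ u = s ∩ t} ?_ ?_ p hp
    (by simpa using h 1 (one_mem _) 1 (one_mem _)) ?_
  · rintro _ ⟨s, t, hs, ht, rfl⟩ _ ⟨s', t', hs', ht', rfl⟩ -
    exact ⟨s ∩ s', t ∩ t', hs.inter hs', ht.inter ht', Set.inter_inter_inter_comm _ _ _ _⟩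
  · refine le_antisymm (sup_le (fun s hs => ?_) fun t ht => ?_)
      (MeasurableSpace.generateFrom_le ?_)
    · exact MeasurableSpace.measurableSet_generateFrom ⟨s, Set.univ, hs, .univ, by simp⟩
    · exact MeasurableSpace.measurableSet_generateFrom ⟨Set.univ, t, .univ, ht, by simp⟩
    · rintro _ ⟨s, t, hs, ht, rfl⟩
      exact ((le_sup_left : m ≤ m ⊔ m') s hs).inter ((le_sup_right : m' ≤ m ⊔ m') t ht)
  · rintro _ ⟨s, t, hs, ht, rfl⟩ _
    rw [← ind_mul_ind s t (m.2 s hs) (m'.2 t ht)]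
    exact h _ (ind_mem_L hs) _ (ind_mem_L ht)

/-- Two continuous linear maps agreeing on products agree on `L (m ⊔ m')`. -/
lemma L_sup_ext {F : Type*} [NormedAddCommGroup F] [NormedSpace ℂ F] (m m' : SA m0)
    (f g : LB μ →L[ℂ] F) (h : ∀ a ∈ L μ m, ∀ b ∈ L μ m', f (a * b) = g (a * b)) :
    ∀ x ∈ L μ (m ⊔ m'), f x = g x := by
  exact L_sup_induction m m' _ (f.isClosed_eqLocus g) h

/-- Approximation form of `L_sup_induction`. -/
lemma exists_sum_approx (m m' : SA m0) {x : LB μ} (hx : x ∈ L μ (m ⊔ m')) {ε : ℝ} (hε : 0 < ε) :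
    ∃ (n : ℕ) (a b : Fin n → LB μ), (∀ i, a i ∈ L μ m) ∧ (∀ i, b i ∈ L μ m') ∧
      ‖x - ∑ i, a i * b i‖ < ε := by
  have h1 := L_sup_induction m m'
    (Submodule.span ℂ {y | ∃ a ∈ L μ m, ∃ b ∈ L μ m', y = a * b}).topologicalClosure
    (Submodule.isClosed_topologicalClosure _) (fun a ha b hb =>
      Submodule.le_topologicalClosure _ (Submodule.subset_span ⟨a, ha, b, hb, rfl⟩)) x hx
  obtain ⟨y, hy, hd⟩ := Metric.mem_closure_iff.1 h1 ε hε
  obtain ⟨n, c, g, rfl⟩ := Submodule.mem_span_set'.1 hy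
  choose a ha b hb hg using fun i => (g i).2
  refine ⟨n, fun i => c i • a i, b, fun i => (L μ m).smul_mem (ha i) _, hb, ?_⟩
  simpa only [dist_eq_norm, hg, smul_mul_assoc] using hd

lemma eq_of_E_mul_mul {m m' : SA m0} {x y : LB μ} (hx : x ∈ L μ (m ⊔ m')) (hy : y ∈ L μ (m ⊔ m'))
    (h : ∀ a ∈ L μ m, ∀ b ∈ L μ m', E μ (a * b * x) = E μ (a * b * y)) : x = y := by
  refine eq_of_E_mul hx hy fun z hz => ?_
  simpa only [ContinuousLinearMap.comp_apply, mulL_apply, EL_apply, mul_comm z] using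
    L_sup_ext m m' ((EL μ).comp (mulL x)) ((EL μ).comp (mulL y)) (fun a ha b hb => by
      simpa only [ContinuousLinearMap.comp_apply, mulL_apply, EL_apply, mul_comm (a * b)]
        using h a ha b hb) z hz

lemma cE_sup_unique {m m' : SA m0} {x y : LB μ} (hy : y ∈ L μ (m ⊔ m'))
    (h : ∀ a ∈ L μ m, ∀ b ∈ L μ m', E μ (a * b * y) = E μ (a * b * x)) : cE μ (m ⊔ m') x = y := by
  exact eq_of_E_mul_mul (cE_mem _ x) hy fun a ha b hb => by
    rw [E_mul_cE (mul_mem (L_le_sup_left _ _ ha) (L_le_sup_right _ _ hb)), h a ha b hb]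

lemma L_sup_le {a b c : SA m0} (ha : L μ a ≤ L μ c) (hb : L μ b ≤ L μ c) :
    L μ (a ⊔ b) ≤ L μ c := fun x hx =>
  L_sup_induction a b (LS μ c) (isClosed_LS c) (fun _ h _ h' => (L μ c).mul_mem (ha h) (hb h')) x hx

lemma L_sup_mono {a b a' b' : SA m0} (ha : L μ a ≤ L μ a') (hb : L μ b ≤ L μ b') :
    L μ (a ⊔ b) ≤ L μ (a' ⊔ b') :=
  L_sup_le (ha.trans (L_le_sup_left _ _)) (hb.trans (L_le_sup_right _ _))

/-- Slot-wise density for multilinear statements: a property `Φ` of tuples which is a closed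
linear condition in each slot separately passes from dense generating sets to everything. -/
lemma slot_induction {ι : Type*} [Fintype ι] [DecidableEq ι] (S D : ι → Set (LB μ))
    (Φ : (ι → LB μ) → Prop) (hDS : ∀ i, D i ⊆ S i)
    (hdense : ∀ i, ∀ p : Submodule ℂ (LB μ), IsClosed (p : Set (LB μ)) → D i ⊆ p → S i ⊆ p)
    (hΦ : ∀ i (x : ι → LB μ), ∃ p : Submodule ℂ (LB μ), IsClosed (p : Set (LB μ)) ∧
      ∀ y, y ∈ p ↔ Φ (Function.update x i y))
    (h : ∀ x : ι → LB μ, (∀ i, x i ∈ D i) → Φ x) :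
    ∀ x : ι → LB μ, (∀ i, x i ∈ S i) → Φ x := by
  have key : ∀ (J : Finset ι) (x : ι → LB μ), (∀ i ∈ J, x i ∈ S i) → (∀ i ∉ J, x i ∈ D i) →
      Φ x := by
    intro J
    induction J using Finset.induction_on with
    | empty => exact fun x _ h2 => h x fun i => h2 i (Finset.notMem_empty i)
    | insert j J hj ih =>
      intro x h1 h2
      obtain ⟨p, hp, hp'⟩ := hΦ j x
      have h3 := (hp' _).1 (hdense j p hp (fun y hy => (hp' y).2 (ih _ (fun i hi => by
        rw [Function.update_of_ne (ne_of_mem_of_not_mem hi hj)]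
        exact h1 i (Finset.mem_insert_of_mem hi)) fun i hi => by
          rcases eq_or_ne i j with rfl | e
          · rwa [Function.update_self]
          · rw [Function.update_of_ne e]
            exact h2 i fun h4 => (Finset.mem_insert.1 h4).elim e hi))
        (h1 j (Finset.mem_insert_self _ _)))
      rwa [Function.update_eq_self] at h3
  have _ := hDS
  exact fun x hx => key Finset.univ x (fun i _ => hx i) fun i hi => (hi (Finset.mem_univ i)).elim

/-! ### Independence -/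

/-- Independence of two sub-sigma-algebras. -/
def Ind (μ : Measure X) [IsProbabilityMeasure μ] (m m' : SA m0) : Prop :=
  ∀ a ∈ L μ m, ∀ b ∈ L μ m', E μ (a * b) = E μ a * E μ b

/-- Conditional independence given `n`. -/
def CInd (μ : Measure X) [IsProbabilityMeasure μ] (n m m' : SA m0) : Prop :=
  ∀ a ∈ L μ m, ∀ b ∈ L μ m', cE μ n (a * b) = cE μ n a * cE μ n b

lemma Ind.symm {m m' : SA m0} (h : Ind μ m m') : Ind μ m' m := fun a ha b hb => by
  rw [mul_comm a, h b hb a ha, mul_comm]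

lemma Ind.mono {a b a' b' : SA m0} (h : Ind μ a' b') (ha : L μ a ≤ L μ a') (hb : L μ b ≤ L μ b') :
    Ind μ a b := fun x hx y hy => h x (ha hx) y (hb hy)

lemma CInd.symm {n m m' : SA m0} (h : CInd μ n m m') : CInd μ n m' m := fun a ha b hb => by
  rw [mul_comm a, h b hb a ha, mul_comm]

lemma CInd.mono {n a b a' b' : SA m0} (h : CInd μ n a' b') (ha : L μ a ≤ L μ a')
    (hb : L μ b ≤ L μ b') : CInd μ n a b := fun x hx y hy => h x (ha hx) y (hb hy)

lemma cind_of_cE_sup {n a b : SA m0} (h : ∀ x ∈ L μ a, cE μ (n ⊔ b) x = cE μ n x) :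
    CInd μ n a b := by
  intro x hx y hy
  rw [← cE_cE_of_le (L_le_sup_left n b), cE_mul_right (L_le_sup_right n b hy), h x hx,
    cE_mul_left (cE_mem n x)]

lemma Ind.cE_eq {m m' : SA m0} (h : Ind μ m m') {b : LB μ} (hb : b ∈ L μ m') :
    cE μ m b = algebraMap ℂ (LB μ) (E μ b) := by
  refine cE_unique ((L μ m).algebraMap_mem _) fun z hz => ?_
  rw [h z hz b hb, mul_comm z, ← Algebra.smul_def, map_smul, smul_eq_mul, mul_comm]

lemma Ind.eq_const {m m' : SA m0} (h : Ind μ m m') {x : LB μ} (hx : x ∈ L μ m)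
    (hx' : x ∈ L μ m') : x = algebraMap ℂ (LB μ) (E μ x) := by
  rw [← h.cE_eq hx', cE_of_mem hx]

lemma Ind.cE_mul {m m' : SA m0} (h : Ind μ m m') {a b : LB μ} (ha : a ∈ L μ m)
    (hb : b ∈ L μ m') : cE μ m (a * b) = E μ b • a := by
  rw [cE_mul_left ha, h.cE_eq hb, mul_comm, Algebra.smul_def]

/-- Adding an independent sigma-algebra to the conditioning changes nothing. -/
lemma Ind.cE_sup {c d b : SA m0} (h : Ind μ d b) (hcd : L μ c ≤ L μ d) {x : LB μ}
    (hx : x ∈ L μ d) : cE μ (c ⊔ b) x = cE μ c x := by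
  refine cE_sup_unique (L_le_sup_left _ _ (cE_mem c x)) fun a ha y hy => ?_
  rw [mul_right_comm, mul_right_comm a y, h _ (mul_mem (hcd ha) (hcd (cE_mem c x))) y hy,
    h _ (mul_mem (hcd ha) hx) y hy, E_mul_cE ha]

lemma Ind.sup_right {a b c : SA m0} (h : Ind μ (a ⊔ b) c) (h' : Ind μ a b) :
    Ind μ a (b ⊔ c) := by
  intro x hx
  refine L_sup_ext b c ((EL μ).comp (mulL x)) (E μ x • EL μ) fun y hy z hz => ?_
  change E μ (x * (y * z)) = E μ x * E μ (y * z)
  rw [← mul_assoc, h _ (mul_mem (L_le_sup_left _ _ hx) (L_le_sup_right _ _ hy)) z hz,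
    h' x hx y hy, h y (L_le_sup_right _ _ hy) z hz, mul_assoc]

lemma Ind.inner_mul_mul {m m' : SA m0} (h : Ind μ m m') {a a' b b' : LB μ} (ha : a ∈ L μ m)
    (ha' : a' ∈ L μ m) (hb : b ∈ L μ m') (hb' : b' ∈ L μ m') :
    ⟪a * b, a' * b'⟫_ℂ = ⟪a, a'⟫_ℂ * ⟪b, b'⟫_ℂ := by
  rw [inner_def, inner_def, inner_def,
    ← h _ (mul_mem (star_mem ha) ha') _ (mul_mem (star_mem hb) hb'), star_mul]
  congr 1
  ring

lemma Ind.norm_mul {m m' : SA m0} (h : Ind μ m m') {a b : LB μ} (ha : a ∈ L μ m)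
    (hb : b ∈ L μ m') : ‖a * b‖ = ‖a‖ * ‖b‖ := by
  have h1 := h.inner_mul_mul ha ha hb hb
  simp only [inner_self_eq_norm_sq_to_K, ← mul_pow] at h1
  have h2 : ‖a * b‖ ^ 2 = (‖a‖ * ‖b‖) ^ 2 := by exact_mod_cast h1
  exact (pow_left_inj₀ (norm_nonneg _) (by positivity) two_ne_zero).1 h2

lemma apiind_cancel {a b : ℝ} (hb : 0 ≤ b) (h : a ^ 2 ≤ a * b) : a ≤ b := by
  nlinarith

lemma apiind_sq_le {F : Type*} [NormedAddCommGroup F] [InnerProductSpace ℂ F] (x : F) :
    ‖x‖ ^ 2 = ‖⟪x, x⟫_ℂ‖ := by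
  rw [inner_self_eq_norm_sq_to_K, norm_pow, RCLike.norm_ofReal, abs_norm]

lemma apiind_sum_sq {F ι : Type*} [NormedAddCommGroup F] [InnerProductSpace ℂ F] (J : Finset ι)
    (w : ι → F) (ho : ∀ i ∈ J, ∀ j ∈ J, i ≠ j → ⟪w i, w j⟫_ℂ = 0) :
    ‖∑ i ∈ J, w i‖ ^ 2 = ∑ i ∈ J, ‖w i‖ ^ 2 := by
  rw [← inner_self_eq_norm_sq (𝕜 := ℂ), sum_inner, map_sum]
  refine Finset.sum_congr rfl fun i hi => ?_
  rw [inner_sum, Finset.sum_eq_single i (fun j hj e => ho i hi j hj e.symm) fun h => (h hi).elim,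
    inner_self_eq_norm_sq]

/-- Hilbert-Schmidt bound. -/
lemma Ind.norm_cE_mul_le {m m' : SA m0} (h : Ind μ m m') (x : LB μ) {b : LB μ}
    (hb : b ∈ L μ m') : ‖cE μ m (x * b)‖ ≤ ‖x‖ * ‖b‖ := by
  refine apiind_cancel (by positivity) ?_
  rw [apiind_sq_le, inner_cE_of_mem (cE_mem _ _), mul_comm x b, inner_mul_right]
  refine (norm_inner_le_norm _ _).trans_eq ?_
  rw [h.symm.norm_mul (star_mem hb) (cE_mem _ _), norm_star']
  ring

/-- A bounded kernel maps L2 to L-infinity. -/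
lemma Ind.bd_cE_mul {m m' : SA m0} (h : Ind μ m m') {x : LB μ} {C : ℝ} (hx : Bd x C) {b : LB μ}
    (hb : b ∈ L μ m') : Bd (cE μ m (x * b)) (C * ‖b‖) := by
  obtain ⟨f, hf, hfy⟩ := cE_mem m (x * b)
  have hD : 0 ≤ C * ‖b‖ := mul_nonneg hx.nonneg (norm_nonneg _)
  have hs : MeasurableSet[m.1] {ω | C * ‖b‖ < ‖(f : X → ℂ) ω‖} :=
    hf (measurableSet_lt measurable_const measurable_norm)
  set u := ind μ _ (m.2 _ hs) with hu
  have huL : u ∈ L μ m := ind_mem_L hs
  have hz : u * cE μ m (x * b) ∈ L μ m := mul_mem huL (cE_mem _ _)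
  have huu : u * u = u := by simp only [hu, ind_mul_ind, Set.inter_self]
  have hsu : star u = u := star_ind _ _
  have h1 : ‖u * cE μ m (x * b)‖ ≤ ‖u‖ * (C * ‖b‖) := by
    refine apiind_cancel (by positivity) ?_
    set z := u * cE μ m (x * b) with hz'
    have h2 : ⟪z, z⟫_ℂ = E μ (u * (x * (star z * b))) := by
      rw [hz', ← cE_mul_left huL, inner_cE_of_mem (cE_mem _ _), inner_def]
      congr 1
      ring
    rw [apiind_sq_le, h2]
    refine (norm_E_mul_le _ _).trans ?_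
    have h3 := hx.norm_mul_le (star z * b)
    rw [h.norm_mul (star_mem hz) hb, norm_star'] at h3
    calc ‖u‖ * ‖x * (star z * b)‖ ≤ ‖u‖ * (C * (‖z‖ * ‖b‖)) := by gcongr
      _ = _ := by ring
  have h2 := pow_le_pow_left₀ (norm_nonneg _) h1 2
  rw [← hfy, mul_pow, hu, ind, ← map_mul, norm_sq_mk, norm_sq_mk, ← integral_mul_const,
    ← sub_nonpos] at h2
  have hi : ∀ g : BMF m0, Integrable (fun ω => ‖(g : X → ℂ) ω‖ ^ 2) μ := fun g => by
    simpa [← sq] using (bmf_int (star g * g) μ).norm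
  rw [← integral_sub (hi _) ((hi _).mul_const _)] at h2
  have h3 := (integral_eq_zero_iff_of_nonneg (fun ω => ?_)
    ((hi _).sub ((hi _).mul_const _))).1 (le_antisymm h2 (integral_nonneg fun ω => ?_))
  · rw [← hfy, bd_mk_iff]
    filter_upwards [h3] with ω hω
    by_contra! h4
    have h5 : ‖(f : X → ℂ) ω‖ ^ 2 = (C * ‖b‖) ^ 2 := by
      simpa [bmfInd, h4, sub_eq_zero] using hω
    exact (pow_lt_pow_left₀ h4 hD two_ne_zero).ne' h5
  all_goals
    by_cases h4 : C * ‖b‖ < ‖(f : X → ℂ) ω‖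
    · simpa [bmfInd, h4] using pow_le_pow_left₀ hD h4.le 2
    · simp [bmfInd, h4]

/-- Bessel inequality relative to an independent sigma-algebra. -/
lemma Ind.bessel {ι : Type*} {m m' : SA m0} (h : Ind μ m m') (J : Finset ι) (g : ι → LB μ)
    (hg : ∀ i, g i ∈ L μ m) (hon : Orthonormal ℂ g) (x : LB μ) :
    ∑ i ∈ J, ‖cE μ m' (star (g i) * x)‖ ^ 2 ≤ ‖x‖ ^ 2 := by
  set η := fun i => cE μ m' (star (g i) * x) with hη
  have h1 : ‖∑ i ∈ J, g i * η i‖ ^ 2 = ∑ i ∈ J, ‖η i‖ ^ 2 := by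
    rw [apiind_sum_sq J _ fun i _ j _ e => by
      rw [h.inner_mul_mul (hg i) (hg j) (cE_mem _ _) (cE_mem _ _), hon.2 e, zero_mul]]
    exact Finset.sum_congr rfl fun i _ => by
      rw [h.norm_mul (hg i) (cE_mem _ _), hon.1 i, one_mul]
  have h2 : (⟪∑ i ∈ J, g i * η i, x⟫_ℂ).re = ∑ i ∈ J, ‖η i‖ ^ 2 := by
    rw [sum_inner, Complex.re_sum]
    refine Finset.sum_congr rfl fun i _ => ?_
    rw [inner_mul_left, ← inner_cE_of_mem (cE_mem _ _)]
    exact inner_self_eq_norm_sq (𝕜 := ℂ) _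
  rw [← h1] at h2 ⊢
  refine pow_le_pow_left₀ (norm_nonneg _) (apiind_cancel (norm_nonneg _) ?_) 2
  rw [← h2]
  exact (Complex.re_le_norm _).trans (norm_inner_le_norm _ _)

/-- Measurable for `a ⊔ b` and for `a ⊔ c` with `a, b, c` jointly independent. -/
lemma mem_of_mem_sup_sup {a b c : SA m0} (h : Ind μ (a ⊔ b) c) {x : LB μ}
    (hx : x ∈ L μ (a ⊔ b)) (hx' : x ∈ L μ (a ⊔ c)) : x ∈ L μ a := by
  rw [← cE_of_mem hx', h.cE_sup (L_le_sup_left _ _) hx]
  exact cE_mem _ _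

/-- Zero-one law for characters. -/
lemma zero_one {R A B : SA m0} (hRA : Ind μ R A) (hRB : Ind μ R B) (hAB : Ind μ A B)
    {g h : LB μ} (hg : g ∈ L μ A) (hh : h ∈ L μ B) (hgh : g * h ∈ L μ R)
    (ug : g ∈ unitary (LB μ)) (uh : h ∈ unitary (LB μ)) :
    E μ (g * h) = 0 ∨ ‖E μ (g * h)‖ = 1 := by
  have h1 : ‖E μ (g * h)‖ = ‖E μ g‖ * ‖E μ h‖ := by rw [hAB g hg h hh, norm_mul]
  have h2 : ‖E μ g‖ = ‖E μ (g * h)‖ * ‖E μ h‖ := by
    rw [← Complex.norm_conj (E μ h), ← E_star, ← norm_mul, ← hRB _ hgh _ (star_mem hh), mul_assoc,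
      mul_comm h, mem_unitary_iff.1 uh, mul_one]
  have h3 : ‖E μ h‖ = ‖E μ (g * h)‖ * ‖E μ g‖ := by
    rw [← Complex.norm_conj (E μ g), ← E_star, ← norm_mul, ← hRA _ hgh _ (star_mem hg),
      mul_right_comm, mul_comm g, mem_unitary_iff.1 ug, one_mul]
  by_cases h4 : ‖E μ g‖ = 0
  · exact Or.inl (norm_eq_zero.1 (by rw [h1, h4, zero_mul]))
  · rw [h3, ← mul_assoc, eq_comm, mul_left_eq_self₀, or_iff_left h4, mul_self_eq_one_iff] at h2
    exact Or.inr (h2.resolve_right fun h5 => by linarith [norm_nonneg (E μ (g * h))])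

/-- Approximate zero-one law. -/
lemma approx_zero_one {R A B : SA m0} (hRA : Ind μ R A) (hRB : Ind μ R B) (hAB : Ind μ A B)
    {x g h : LB μ} (hx : x ∈ L μ R) (hg : g ∈ L μ A) (hh : h ∈ L μ B)
    (ux : x ∈ unitary (LB μ)) (ug : g ∈ unitary (LB μ)) (uh : h ∈ unitary (LB μ)) {η ρ : ℝ}
    (hη : ‖x - g * h‖ ≤ η) (hρ : 0 < ρ) (hηρ : 2 * η ≤ ρ) (hE : ρ ≤ ‖E μ x‖) :
    ∃ c : ℂ, ‖c‖ = 1 ∧ ‖x - algebraMap ℂ (LB μ) c‖ ^ 2 ≤ 8 * η / ρ := by
  have key : ∀ (u y : LB μ) (a b : ℂ), u ∈ unitary (LB μ) → E μ (u * x) = a →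
      E μ (u * (g * h)) = b → ‖a‖ ≤ ‖b‖ + η ∧ ‖b‖ ≤ ‖a‖ + η := by
    rintro u - _ _ hu rfl rfl
    have h1 := norm_E_le (u * (x - g * h))
    rw [norm_unitary_mul hu, mul_sub, map_sub] at h1
    have h2 := abs_le.1 ((abs_norm_sub_norm_le _ _).trans (h1.trans hη))
    constructor <;> linarith [h2.1, h2.2]
  have h1 := (key 1 0 _ _ (one_mem _) (by rw [one_mul]) (by rw [one_mul, hAB g hg h hh])).1
  have h2 := (key (star h) 0 _ _ (Unitary.star_mem uh) (hRB.symm _ (star_mem hh) x hx)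
    (by rw [mul_left_comm, mem_unitary_iff.1 uh, mul_one])).2
  have h3 := (key (star g) 0 _ _ (Unitary.star_mem ug) (hRA.symm _ (star_mem hg) x hx)
    (by rw [← mul_assoc, mem_unitary_iff.1 ug, one_mul])).2
  rw [norm_mul] at h1 h2 h3
  rw [E_star, Complex.norm_conj] at h2 h3
  have a1 : ‖E μ x‖ ≤ 1 := (norm_E_le x).trans_eq (norm_unitary ux)
  have c1 : ‖E μ h‖ ≤ 1 := (norm_E_le h).trans_eq (norm_unitary uh)
  have h0 : 0 < ‖E μ x‖ := hρ.trans_le hE
  have hη0 : 0 ≤ η := (norm_nonneg _).trans hη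
  have hc : ‖E μ x / (‖E μ x‖ : ℂ)‖ = 1 := by
    rw [norm_div, Complex.norm_real, norm_norm, div_self h0.ne']
  refine ⟨_, hc, ?_⟩
  have h4 : (⟪x, algebraMap ℂ (LB μ) (E μ x / (‖E μ x‖ : ℂ))⟫_ℂ).re = ‖E μ x‖ := by
    rw [inner_def, mul_comm, ← Algebra.smul_def, map_smul, E_star, smul_eq_mul,
      div_mul_eq_mul_div, Complex.mul_conj', sq, mul_div_assoc,
      div_self (Complex.ofReal_ne_zero.2 h0.ne'), mul_one, Complex.ofReal_re]
  rw [@norm_sub_sq ℂ, norm_unitary ux, RCLike.re_to_complex, h4, Algebra.algebraMap_eq_smul_one,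
    norm_smul, hc, norm_one', le_div_iff₀ hρ]
  generalize ‖E μ x‖ = α at *
  have b0 := norm_nonneg (E μ g)
  generalize ‖E μ g‖ = β at *
  have c0 := norm_nonneg (E μ h)
  generalize ‖E μ h‖ = γ at *
  have h5 : ρ ≤ 2 * β := by nlinarith
  have h6 : β * (1 - α ^ 2) ≤ 2 * η := by nlinarith
  have h7 : 1 - α ≤ 1 - α ^ 2 := by nlinarith
  nlinarith

lemma ind_of_sets {m m' : SA m0} (C C' : Set (Set X)) (hC : IsPiSystem C) (hC' : IsPiSystem C')
    (hm : m.1 = MeasurableSpace.generateFrom C) (hm' : m'.1 = MeasurableSpace.generateFrom C')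
    (h : ∀ s ∈ C, ∀ t ∈ C', μ.real (s ∩ t) = μ.real s * μ.real t) : Ind μ m m' := by
  have hcl := fun x : LB μ => ((EL μ).comp (mulL x)).isClosed_eqLocus (E μ x • EL μ)
  intro a ha b hb
  rw [mul_comm a, mul_comm (E μ a)]
  refine L_le_of_piSystem m C hC hm _ (hcl b) ?_ (fun s hs hs' => ?_) a ha
  · change E μ (b * 1) = E μ b * E μ 1
    rw [mul_one, E_one, mul_one]
  · change E μ (b * ind μ s hs') = E μ b * E μ (ind μ s hs')
    rw [mul_comm b, mul_comm (E μ b)]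
    refine L_le_of_piSystem m' C' hC' hm' _ (hcl _) ?_ (fun t ht ht' => ?_) b hb
    · change E μ (ind μ s hs' * 1) = E μ (ind μ s hs') * E μ 1
      rw [mul_one, E_one, mul_one]
    · change E μ (ind μ s hs' * ind μ t ht') = E μ (ind μ s hs') * E μ (ind μ t ht')
      rw [ind_mul_ind, E_ind, E_ind, E_ind, h s hs t ht, Complex.ofReal_mul]

/-- Bessel type lemma: a constant inner product against infinitely many orthogonal bounded
vectors vanishes. -/
lemma eq_zero_of_orthogonal {F : Type*} [NormedAddCommGroup F] [InnerProductSpace ℂ F]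
    (u : F) (w : ℕ → F) (a : ℂ) (C : ℝ) (hC : ∀ n, ‖w n‖ ≤ C)
    (ho : ∀ n n', n ≠ n' → ⟪w n, w n'⟫_ℂ = 0) (ha : ∀ n, ⟪u, w n⟫_ℂ = a) : a = 0 := by
  by_contra h0
  have h1 : 0 < ‖a‖ ^ 2 := by positivity
  obtain ⟨N, hN⟩ := exists_nat_gt (‖u‖ ^ 2 * C ^ 2 / ‖a‖ ^ 2)
  have hN0 : (0 : ℝ) < N := lt_of_le_of_lt (by positivity) hN
  have h2 : ‖∑ n ∈ Finset.range N, w n‖ ^ 2 ≤ N * C ^ 2 := by
    rw [apiind_sum_sq _ _ fun i _ j _ e => ho i j e]
    simpa using Finset.sum_le_card_nsmul (Finset.range N) _ _ fun n _ =>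
      pow_le_pow_left₀ (norm_nonneg (w n)) (hC n) 2
  have h3 := pow_le_pow_left₀ (norm_nonneg _)
    (norm_inner_le_norm (𝕜 := ℂ) u (∑ n ∈ Finset.range N, w n)) 2
  simp only [inner_sum, ha, Finset.sum_const, Finset.card_range, nsmul_eq_mul, norm_mul,
    Complex.norm_natCast, mul_pow] at h3
  rw [div_lt_iff₀ h1] at hN
  nlinarith [mul_le_mul_of_nonneg_left h2 (sq_nonneg ‖u‖)]

/-- A submodule whose orthonormal families have bounded size is finite dimensional. -/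
lemma finiteDimensional_of_orthonormal_le {F : Type*} [NormedAddCommGroup F]
    [InnerProductSpace ℂ F] (V : Submodule ℂ F) (r : ℝ)
    (h : ∀ (n : ℕ) (g : Fin n → F), (∀ i, g i ∈ V) → Orthonormal ℂ g → (n : ℝ) ≤ r) :
    FiniteDimensional ℂ V := by
  by_contra h0
  obtain ⟨n, hn⟩ := exists_nat_gt r
  have h1 : (n : Cardinal) ≤ Module.rank ℂ V :=
    (Cardinal.natCast_lt_aleph0 (n := n)).le.trans
      (not_lt.1 fun h2 => h0 (Module.rank_lt_aleph0_iff.1 h2))
  obtain ⟨v, hv⟩ := Module.le_rank_iff.1 h1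
  have h2 := finrank_span_eq_card hv
  have : FiniteDimensional ℂ (Submodule.span ℂ (Set.range v)) :=
    FiniteDimensional.span_of_finite _ (Set.finite_range v)
  have h3 := h _ (fun i => ((stdOrthonormalBasis ℂ (Submodule.span ℂ (Set.range v)) i : V) : F))
    (fun i => Subtype.prop _) (((stdOrthonormalBasis ℂ _).orthonormal.comp_linearIsometry
      (Submodule.subtypeₗᵢ _)).comp_linearIsometry V.subtypeₗᵢ)
  rw [h2, Fintype.card_fin] at h3
  linarith

end Vale.Agent.P102
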