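import Vale.Agent.P102.ApiInd

/-! Pull-backs, countably generated versions, alternating projections, dense unimodular families. -/

namespace Vale.Agent.P102
open MeasureTheory ProbabilityTheory Filter Topology
open scoped InnerProductSpace ComplexConjugate

variable {X Y : Type*} {m0 : MeasurableSpace X} {m1 : MeasurableSpace Y}
  {μ : Measure X} {ν : Measure Y}

lemma mk_comp_rep {φ : X → Y} (h : MeasurePreserving φ μ ν) (f : BMF m1) :
    cls μ (bmfComp φ h.measurable (cls ν f).rep) = cls μ (bmfComp φ h.measurable f) :=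
  mk_eq_iff.2 (h.quasiMeasurePreserving.ae_eq_comp (rep_mk f))

/-- Pull-back along a measure preserving map. -/
noncomputable def pull {φ : X → Y} (h : MeasurePreserving φ μ ν) : LB ν →⋆ₐ[ℂ] LB μ where
  toFun x := cls μ (bmfComp φ h.measurable x.rep)
  map_one' := by rw [← map_one (cls ν), mk_comp_rep h, map_one, map_one]
  map_mul' x y := by
    obtain ⟨f, rfl⟩ := mk_surj x
    obtain ⟨g, rfl⟩ := mk_surj y
    rw [← map_mul (cls ν), mk_comp_rep h, mk_comp_rep h, mk_comp_rep h, map_mul, map_mul]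
  map_zero' := by rw [← map_zero (cls ν), mk_comp_rep h, map_zero, map_zero]
  map_add' x y := by
    obtain ⟨f, rfl⟩ := mk_surj x
    obtain ⟨g, rfl⟩ := mk_surj y
    rw [← map_add (cls ν), mk_comp_rep h, mk_comp_rep h, mk_comp_rep h, map_add, map_add]
  commutes' c := by
    rw [← AlgHomClass.commutes (cls ν) c, mk_comp_rep h, AlgHomClass.commutes,
      AlgHomClass.commutes]
  map_star' x := by
    obtain ⟨f, rfl⟩ := mk_surj x
    rw [← map_star (cls ν), mk_comp_rep h, mk_comp_rep h, map_star, map_star]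

lemma pull_mk {φ : X → Y} (h : MeasurePreserving φ μ ν) (f : BMF m1) :
    pull h (cls ν f) = cls μ (bmfComp φ h.measurable f) := mk_comp_rep h f

lemma pull_ind {φ : X → Y} (h : MeasurePreserving φ μ ν) (s : Set Y) (hs : MeasurableSet s) :
    pull h (ind ν s hs) = ind μ (φ ⁻¹' s) (h.measurable hs) := pull_mk h _

lemma pull_pull {Z : Type*} {m2 : MeasurableSpace Z} {ρ : Measure Z} {φ : X → Y} {ψ : Y → Z}
    (h : MeasurePreserving φ μ ν) (h' : MeasurePreserving ψ ν ρ) (x : LB ρ) :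
    pull h (pull h' x) = pull (h'.comp h) x := by
  obtain ⟨f, rfl⟩ := mk_surj x
  rw [pull_mk, pull_mk, pull_mk]
  rfl

lemma pull_congr {φ ψ : X → Y} (h : MeasurePreserving φ μ ν) (h' : MeasurePreserving ψ μ ν)
    (e : φ = ψ) (x : LB ν) : pull h x = pull h' x := by
  subst e
  rfl

lemma pull_id {φ : X → X} (h : MeasurePreserving φ μ μ) (e : φ = id) (x : LB μ) :
    pull h x = x := by
  subst e
  obtain ⟨f, rfl⟩ := mk_surj x
  rw [pull_mk]
  rfl

lemma Bd.pull {φ : X → Y} (h : MeasurePreserving φ μ ν) {x : LB ν} {C : ℝ} (hx : Bd x C) :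
    Bd (pull h x) C := by
  obtain ⟨f, rfl⟩ := mk_surj x
  rw [pull_mk, bd_mk_iff]
  exact h.quasiMeasurePreserving.ae (bd_mk_iff.1 hx)

lemma pull_mem_unitary {φ : X → Y} (h : MeasurePreserving φ μ ν) {x : LB ν}
    (hx : x ∈ unitary (LB ν)) : pull h x ∈ unitary (LB μ) := by
  rw [mem_unitary_iff] at hx ⊢
  rw [← map_star, ← map_mul, hx, map_one]

lemma pull_mem_L {φ : X → Y} (h : MeasurePreserving φ μ ν) {m : SA m1} {m' : SA m0}
    (hm : m.1.comap φ ≤ m'.1) {x : LB ν} (hx : x ∈ L ν m) : pull h x ∈ L μ m' := by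
  obtain ⟨f, hf, rfl⟩ := hx
  rw [pull_mk]
  exact mk_mem_L (hf.comp (Measurable.of_comap_le hm))

variable [IsProbabilityMeasure μ] [IsProbabilityMeasure ν]

@[simp] lemma E_pull {φ : X → Y} (h : MeasurePreserving φ μ ν) (x : LB ν) :
    E μ (pull h x) = E ν x := by
  obtain ⟨f, rfl⟩ := mk_surj x
  have e := integral_map (μ := μ) h.measurable.aemeasurable (bmf_meas f).aestronglyMeasurable
  rw [h.map_eq] at e
  rw [pull_mk, E_mk, E_mk, e]
  rfl

@[simp] lemma inner_pull {φ : X → Y} (h : MeasurePreserving φ μ ν) (x y : LB ν) :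
    ⟪pull h x, pull h y⟫_ℂ = ⟪x, y⟫_ℂ := by
  rw [inner_def, inner_def, ← map_star, ← map_mul, E_pull]

@[simp] lemma norm_pull {φ : X → Y} (h : MeasurePreserving φ μ ν) (x : LB ν) :
    ‖pull h x‖ = ‖x‖ := by
  rw [@norm_eq_sqrt_re_inner ℂ, @norm_eq_sqrt_re_inner ℂ _ _ _ _ x, inner_pull]

/-- Pull-back as a continuous linear map. -/
noncomputable def pullL {φ : X → Y} (h : MeasurePreserving φ μ ν) : LB ν →L[ℂ] LB μ :=
  (pull h).toAlgHom.toLinearMap.mkContinuous 1 fun x => by
    rw [one_mul]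
    exact (norm_pull h x).le

@[simp] lemma pullL_apply {φ : X → Y} (h : MeasurePreserving φ μ ν) (x : LB ν) :
    pullL h x = pull h x := rfl

lemma continuous_pull {φ : X → Y} (h : MeasurePreserving φ μ ν) : Continuous (pull h) :=
  (pullL h).continuous

lemma pull_cE {φ : X → Y} (h : MeasurePreserving φ μ ν) {m : SA m1} {m' : SA m0}
    (hm : m'.1 = m.1.comap φ) (x : LB ν) : pull h (cE ν m x) = cE μ m' (pull h x) := by
  refine (cE_unique (pull_mem_L h hm.ge (cE_mem m x)) ?_).symm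
  have key := L_ind_induction (μ := μ) m'
    (LinearMap.ker ((EL μ).comp (mulL (pull h (cE ν m x) - pull h x))).toLinearMap)
    (ContinuousLinearMap.isClosed_ker _) (fun s hs => by
      have hs' := hs
      rw [hm] at hs'
      obtain ⟨t, ht, rfl⟩ := hs'
      have e : ind μ (φ ⁻¹' t) (m'.2 _ hs) = pull h (ind ν t (m.2 t ht)) := (pull_ind h _ _).symm
      change E μ ((pull h (cE ν m x) - pull h x) * ind μ (φ ⁻¹' t) (m'.2 _ hs)) = 0
      rw [e, ← map_sub, ← map_mul, E_pull, sub_mul, map_sub, E_cE_mul' (ind_mem_L ht), sub_self])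
  intro z hz
  have := key z hz
  change E μ ((pull h (cE ν m x) - pull h x) * z) = 0 at this
  rwa [mul_comm, mul_sub, map_sub, sub_eq_zero] at this

/-! ### Intersections modulo null sets -/

/-- A countable family of `m`-measurable functions, dense for every probability measure. -/
lemma pull_exists_dense (m : SA m0) [@MeasurableSpace.CountablyGenerated X m.1] :
    ∃ h : ℕ → BMF m0, (∀ n, Measurable[m.1] (h n : X → ℂ)) ∧
      ∀ (κ : Measure X) [IsProbabilityMeasure κ], ∀ x ∈ L κ m,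
        x ∈ closure (Set.range fun n => cls κ (h n)) := by
  classical
  let C : Set (Set X) := generateSetAlgebra (@MeasurableSpace.countableGeneratingSet X m.1 _)
  have hCc : C.Countable :=
    countable_generateSetAlgebra (@MeasurableSpace.countable_countableGeneratingSet X m.1 _)
  have hCa : IsSetAlgebra C := isSetAlgebra_generateSetAlgebra
  have hCp : IsPiSystem C := fun s hs t ht _ => hCa.inter_mem hs ht
  have hm : m.1 = MeasurableSpace.generateFrom C := by
    rw [generateFrom_generateSetAlgebra_eq,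
      @MeasurableSpace.generateFrom_countableGeneratingSet X m.1 _]
  have hCm : ∀ s ∈ C, MeasurableSet[m.1] s := fun s hs => by
    rw [hm]
    exact MeasurableSpace.measurableSet_generateFrom hs
  obtain ⟨Q, hQc, hQ⟩ := TopologicalSpace.exists_countable_dense ℂ
  have := hCc.to_subtype
  have := hQc.to_subtype
  let d : C → BMF m0 := fun s => bmfInd s.1 (m.2 _ (hCm s.1 s.2))
  let G : List (Q × C) → BMF m0 := fun l => (l.map fun p => (p.1 : ℂ) • d p.2).sum
  have hGm : ∀ l, Measurable[m.1] (G l : X → ℂ) := by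
    intro l
    induction l with
    | nil => exact measurable_const
    | cons p l ih =>
      have h1 : Measurable[m.1] (d p.2 : X → ℂ) := measurable_const.indicator (hCm _ p.2.2)
      exact (h1.const_smul (p.1 : ℂ)).add ih
  obtain ⟨e, he⟩ := exists_surjective_nat (List (Q × C))
  refine ⟨fun n => G (e n), fun n => hGm _, fun κ _ x hx => ?_⟩
  have hr : (Set.range fun n => cls κ (G (e n))) = Set.range fun l => cls κ (G l) :=
    he.range_comp fun l => cls κ (G l)
  rw [hr]
  let S : AddSubmonoid (LB κ) :=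
    { carrier := Set.range fun l => cls κ (G l)
      zero_mem' := ⟨[], map_zero _⟩
      add_mem' := by
        rintro _ _ ⟨l, rfl⟩ ⟨l', rfl⟩
        exact ⟨l ++ l', by simp [G]⟩ }
  have hS : ∀ y ∈ Submodule.span ℂ (Set.range fun s : C => cls κ (d s)), ∀ c : ℂ,
      c • y ∈ S.topologicalClosure := by
    intro y hy
    induction hy using Submodule.span_induction with
    | mem y hy =>
      obtain ⟨s, rfl⟩ := hy
      intro c
      have hc : Continuous fun c : ℂ => c • cls κ (d s) := by fun_prop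
      refine map_mem_closure (f := fun c : ℂ => c • cls κ (d s)) hc (hQ c) fun q hq => ?_
      exact ⟨[(⟨q, hq⟩, s)], by simp [G]⟩
    | zero => intro c; rw [smul_zero]; exact zero_mem _
    | add y z _ _ h1 h2 => intro c; rw [smul_add]; exact add_mem (h1 c) (h2 c)
    | smul a y _ h1 => intro c; rw [smul_smul]; exact h1 _
  have hx' := L_le_of_piSystem (μ := κ) m C hCp hm
    (Submodule.span ℂ (Set.range fun s : C => cls κ (d s))).topologicalClosure
    (Submodule.isClosed_topologicalClosure _)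
    (by
      rw [← ind_univ]
      exact Submodule.le_topologicalClosure _ (Submodule.subset_span ⟨⟨_, hCa.univ_mem⟩, rfl⟩))
    (fun s hs _ => Submodule.le_topologicalClosure _ (Submodule.subset_span ⟨⟨s, hs⟩, rfl⟩)) x hx
  have hsub : (Submodule.span ℂ (Set.range fun s : C => cls κ (d s)) : Set (LB κ)) ⊆
      closure (Set.range fun l => cls κ (G l)) := fun y hy => by
    have := hS y hy 1
    rwa [one_smul] at this
  exact closure_minimal hsub isClosed_closure hx'

lemma exists_cg_iInf [@MeasurableSpace.CountablyGenerated X m0] {ι : Type*} (m : ι → SA m0) :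
    ∃ m' : SA m0, @MeasurableSpace.CountablyGenerated X m'.1 ∧
      ∀ x, x ∈ L μ m' ↔ ∀ i, x ∈ L μ (m i) := by
  obtain ⟨h, -, hd⟩ := pull_exists_dense (⊤ : SA m0)
  have : TopologicalSpace.SeparableSpace (LB μ) :=
    ⟨⟨_, Set.countable_range _, fun x => hd μ x (mem_L_top x)⟩⟩
  let K : Set (LB μ) := {x | ∀ i, x ∈ L μ (m i)}
  obtain ⟨D, hDK, hDc, hD⟩ :=
    (TopologicalSpace.IsSeparable.of_separableSpace K).exists_countable_dense_subset
  have hne : (insert 0 D).Nonempty := Set.insert_nonempty _ _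
  obtain ⟨u, hu⟩ := (hDc.insert 0).exists_eq_range hne
  have huK : ∀ n, u n ∈ K := fun n => by
    have : u n ∈ insert 0 D := hu ▸ Set.mem_range_self n
    rcases this with h0 | h0
    · rw [h0]
      exact fun i => zero_mem _
    · exact hDK h0
  let F : X → ℕ → ℂ := fun ω n => ((u n).rep : X → ℂ) ω
  have hF : Measurable F := measurable_pi_lambda _ fun n => bmf_meas _
  let m' : SA m0 := ⟨MeasurableSpace.comap F inferInstance, hF.comap_le⟩
  refine ⟨m', MeasurableSpace.CountablyGenerated.comap F, fun x => ⟨fun hx i => ?_, fun hx => ?_⟩⟩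
  · have hle : m'.1 ≤ eventuallyMeasurableSpace (m i).1 (ae μ) := by
      refine Measurable.comap_le (@measurable_pi_lambda _ _ _ (_) _ F fun n => ?_)
      obtain ⟨f, hf, e⟩ := huK n i
      refine Measurable.eventuallyMeasurable_of_eventuallyEq hf ?_
      exact mk_eq_iff.1 ((mk_rep _).trans e.symm)
    refine L_ind_induction m' (LS μ (m i)) (isClosed_LS _) (fun s hs => ?_) x hx
    obtain ⟨t, ht, e⟩ := hle s hs
    have : ind μ s (m'.2 s hs) = ind μ t ((m i).2 t ht) :=
      mk_eq_iff.2 (indicator_ae_eq_of_ae_eq_set e)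
    rw [this]
    exact ind_mem_L ht
  · refine closure_minimal (fun y hy => ?_) (isClosed_L m') (hD hx)
    have : y ∈ Set.range u := hu ▸ Set.mem_insert_of_mem 0 hy
    obtain ⟨n, rfl⟩ := this
    refine ⟨(u n).rep, ?_, mk_rep _⟩
    exact (measurable_pi_apply n).comp (comap_measurable F)

lemma pull_cauchy_alt {m₁ m₂ : SA m0} (u : ℕ → LB μ) (h1 : ∀ n, u n ∈ L μ m₁)
    (hs : ∀ n, u (n + 1) = cE μ m₁ (cE μ m₂ (u n))) : CauchySeq u := by
  have step : ∀ a b, ⟪u (a + 1), u b⟫_ℂ = ⟪u a, u (b + 1)⟫_ℂ := fun a b => by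
    rw [hs, hs, inner_cE_left, cE_of_mem (h1 b), inner_cE_of_mem (h1 a), inner_cE_left]
  have shift : ∀ a b, ⟪u a, u b⟫_ℂ = ⟪u 0, u (a + b)⟫_ℂ := by
    intro a
    induction a with
    | zero => intro b; rw [zero_add]
    | succ a ih => intro b; rw [step, ih, show a + (b + 1) = a + 1 + b by ring]
  let c : ℕ → ℝ := fun n => RCLike.re ⟪u 0, u n⟫_ℂ
  have ce : ∀ a, c (a + a) = ‖u a‖ ^ 2 := fun a => by
    simp only [c]
    rw [← shift, inner_self_eq_norm_sq]
  have co : ∀ a, c (a + a + 1) = ‖cE μ m₂ (u a)‖ ^ 2 := fun a => by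
    simp only [c]
    rw [add_assoc, ← shift, hs, inner_cE_of_mem (h1 a), ← @inner_self_eq_norm_sq ℂ,
      inner_cE_left, cE_cE]
  have hpar : ∀ n, ∃ a, n = a + a ∨ n = a + a + 1 := fun n => ⟨n / 2, by omega⟩
  have c0 : ∀ n, 0 ≤ c n := fun n => by
    obtain ⟨a, rfl | rfl⟩ := hpar n
    · rw [ce]; positivity
    · rw [co]; positivity
  have anti : Antitone c := antitone_nat_of_succ_le fun n => by
    obtain ⟨a, rfl | rfl⟩ := hpar n
    · rw [ce, co]
      exact pow_le_pow_left₀ (norm_nonneg _) (norm_cE_le _ _) 2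
    · rw [show a + a + 1 + 1 = a + 1 + (a + 1) by ring, ce, co, hs]
      exact pow_le_pow_left₀ (norm_nonneg _) (norm_cE_le _ _) 2
  have hb : BddBelow (Set.range c) := ⟨0, by rintro _ ⟨n, rfl⟩; exact c0 n⟩
  have hl := tendsto_atTop_ciInf anti hb
  refine cauchySeq_of_le_tendsto_0 (fun N => √(2 * (c N - ⨅ n, c n))) (fun a b N ha hb' => ?_) ?_
  · refine Real.le_sqrt_of_sq_le ?_
    rw [dist_eq_norm, @norm_sub_sq ℂ, shift, ← ce, ← ce]
    have e1 := anti (show N ≤ a + a by omega)
    have e2 := anti (show N ≤ b + b by omega)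
    have e3 := ciInf_le hb (a + b)
    change c (a + a) - 2 * c (a + b) + c (b + b) ≤ _
    linarith
  · have := ((hl.sub_const (⨅ n, c n)).const_mul 2).sqrt
    simpa using this

/-- Alternating projections (von Neumann). -/
lemma tendsto_alt_cE {m m₁ m₂ : SA m0} (h : ∀ x, x ∈ L μ m ↔ x ∈ L μ m₁ ∧ x ∈ L μ m₂)
    (x : LB μ) :
    Tendsto (fun n : ℕ => (fun y => cE μ m₁ (cE μ m₂ y))^[n] x) atTop (𝓝 (cE μ m x)) := by
  rw [← tendsto_add_atTop_iff_nat 1]
  set u : ℕ → LB μ := fun n => (fun y => cE μ m₁ (cE μ m₂ y))^[n + 1] x with hu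
  have hs : ∀ n, u (n + 1) = cE μ m₁ (cE μ m₂ (u n)) := fun n =>
    Function.iterate_succ_apply' _ _ _
  have h0 : u 0 = cE μ m₁ (cE μ m₂ x) := rfl
  have h1 : ∀ n, u n ∈ L μ m₁ := fun n => by
    cases n with
    | zero => exact cE_mem _ _
    | succ n => rw [hs]; exact cE_mem _ _
  obtain ⟨C, -, hC⟩ := exists_bd x
  have hb : ∀ n, Bd (u n) C := fun n => by
    induction n with
    | zero => exact (hC.cE _).cE _
    | succ n ih => rw [hs]; exact (ih.cE _).cE _
  obtain ⟨z, -, hz⟩ := cauchySeq_tendsto_of_isComplete (isComplete_bd C) hb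
    (pull_cauchy_alt u h1 hs)
  have z1 : z ∈ L μ m₁ := (isClosed_L m₁).mem_of_tendsto hz (Eventually.of_forall h1)
  have zf : cE μ m₁ (cE μ m₂ z) = z := by
    have a1 := ((cE μ m₁).continuous.tendsto _).comp (((cE μ m₂).continuous.tendsto _).comp hz)
    have a2 := (tendsto_add_atTop_iff_nat 1).2 hz
    simp only [hs] at a2
    exact tendsto_nhds_unique a1 a2
  have z2 : z ∈ L μ m₂ := mem_of_norm_cE (by
    conv_lhs => rw [← zf]
    exact norm_cE_le _ _)
  have e : cE μ m x = z := by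
    refine cE_unique ((h z).2 ⟨z1, z2⟩) fun w hw => ?_
    obtain ⟨w1, w2⟩ := (h w).1 hw
    have hn : ∀ n, E μ (w * u n) = E μ (w * x) := fun n => by
      induction n with
      | zero => rw [h0, E_mul_cE w1, E_mul_cE w2]
      | succ n ih => rw [hs, E_mul_cE w1, E_mul_cE w2, ih]
    have a1 := (continuous_E.tendsto _).comp (((continuous_mul_left' w).tendsto _).comp hz)
    have a2 : Tendsto (fun n => E μ (w * u n)) atTop (𝓝 (E μ (w * x))) := by
      simp only [hn]
      exact tendsto_const_nhds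
    exact tendsto_nhds_unique a1 a2
  rw [e]
  exact hz

/-- Conditional expectation onto `V` respects `A`, `B` and makes them independent. -/
structure GoodAt (μ : Measure X) [IsProbabilityMeasure μ] (A B V : SA m0) : Prop where
  memA : ∀ x ∈ L μ A, cE μ V x ∈ L μ A
  memB : ∀ x ∈ L μ B, cE μ V x ∈ L μ B
  cind : CInd μ V A B

lemma GoodAt.inf {A B V V₁ V₂ : SA m0} (h₁ : GoodAt μ A B V₁) (h₂ : GoodAt μ A B V₂)
    (h : ∀ x, x ∈ L μ V ↔ x ∈ L μ V₁ ∧ x ∈ L μ V₂) : GoodAt μ A B V := by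
  have hA : ∀ x ∈ L μ A, ∀ n : ℕ, (fun y => cE μ V₁ (cE μ V₂ y))^[n] x ∈ L μ A := by
    intro x hx n
    induction n with
    | zero => exact hx
    | succ n ih => rw [Function.iterate_succ_apply']; exact h₁.memA _ (h₂.memA _ ih)
  have hB : ∀ x ∈ L μ B, ∀ n : ℕ, (fun y => cE μ V₁ (cE μ V₂ y))^[n] x ∈ L μ B := by
    intro x hx n
    induction n with
    | zero => exact hx
    | succ n ih => rw [Function.iterate_succ_apply']; exact h₁.memB _ (h₂.memB _ ih)
  refine ⟨fun x hx => (isClosed_L A).mem_of_tendsto (tendsto_alt_cE h x)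
      (Eventually.of_forall (hA x hx)),
    fun x hx => (isClosed_L B).mem_of_tendsto (tendsto_alt_cE h x)
      (Eventually.of_forall (hB x hx)), fun a ha b hb => ?_⟩
  obtain ⟨C, -, hC⟩ := exists_bd a
  have hbd : ∀ n : ℕ, Bd ((fun y => cE μ V₁ (cE μ V₂ y))^[n] a) C := fun n => by
    induction n with
    | zero => exact hC
    | succ n ih => rw [Function.iterate_succ_apply']; exact (ih.cE _).cE _
  have hm : ∀ n : ℕ, (fun y => cE μ V₁ (cE μ V₂ y))^[n] (a * b) =
      (fun y => cE μ V₁ (cE μ V₂ y))^[n] a * (fun y => cE μ V₁ (cE μ V₂ y))^[n] b := fun n => by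
    induction n with
    | zero => rfl
    | succ n ih =>
      rw [Function.iterate_succ_apply', Function.iterate_succ_apply',
        Function.iterate_succ_apply', ih, h₂.cind _ (hA a ha n) _ (hB b hb n),
        h₁.cind _ (h₂.memA _ (hA a ha n)) _ (h₂.memB _ (hB b hb n))]
  have a1 := tendsto_alt_cE h (a * b)
  simp only [hm] at a1
  exact tendsto_nhds_unique a1 (tendsto_mul_of_bd (tendsto_alt_cE h a) (tendsto_alt_cE h b) hbd)

lemma GoodAt.congr {A B V V' : SA m0} (h : GoodAt μ A B V) (e : L μ V' = L μ V) :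
    GoodAt μ A B V' :=
  ⟨fun x hx => cE_congr e x ▸ h.memA x hx, fun x hx => cE_congr e x ▸ h.memB x hx,
    fun a ha b hb => by rw [cE_congr e, cE_congr e, cE_congr e]; exact h.cind a ha b hb⟩

lemma GoodAt.iInf [@MeasurableSpace.CountablyGenerated X m0] {ι : Type*} [Finite ι] [Nonempty ι]
    {A B V : SA m0} {W : ι → SA m0} (hW : ∀ i, GoodAt μ A B (W i))
    (h : ∀ x, x ∈ L μ V ↔ ∀ i, x ∈ L μ (W i)) : GoodAt μ A B V := by
  have := Fintype.ofFinite ι
  have key : ∀ J : Finset ι, J.Nonempty → ∀ V : SA m0,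
      (∀ x, x ∈ L μ V ↔ ∀ i ∈ J, x ∈ L μ (W i)) → GoodAt μ A B V := by
    intro J hJ
    induction hJ using Finset.Nonempty.cons_induction with
    | singleton i =>
      intro V hV
      exact (hW i).congr (StarSubalgebra.ext fun x => by simpa using hV x)
    | cons i J hi _ ih =>
      intro V hV
      obtain ⟨V', -, hV'⟩ := exists_cg_iInf (μ := μ) fun j : J => W j
      refine (hW i).inf (ih V' fun x => ?_) fun x => ?_
      · rw [hV']
        simp
      · rw [hV, hV']
        simp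
  exact key Finset.univ Finset.univ_nonempty V fun x => by simpa using h x

/-- Lemma T. -/
lemma GoodAt.split {A B V A' B' : SA m0} (h : GoodAt μ A B V)
    (hA : ∀ x ∈ L μ A, x ∈ L μ V → x ∈ L μ A') (hB : ∀ x ∈ L μ B, x ∈ L μ V → x ∈ L μ B')
    {x : LB μ} (hx : x ∈ L μ (A ⊔ B)) (hxV : x ∈ L μ V) : x ∈ L μ (A' ⊔ B') := by
  have := L_sup_induction A B ((LS μ (A' ⊔ B')).comap (cE μ V).toLinearMap)
    ((isClosed_LS _).preimage (cE μ V).continuous) (fun a ha b hb => by
      change cE μ V (a * b) ∈ L μ (A' ⊔ B')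
      rw [h.cind a ha b hb]
      exact mul_mem (L_le_sup_left _ _ (hA _ (h.memA a ha) (cE_mem _ _)))
        (L_le_sup_right _ _ (hB _ (h.memB b hb) (cE_mem _ _)))) x hx
  change cE μ V x ∈ L μ (A' ⊔ B') at this
  rwa [cE_of_mem hxV] at this

/-! ### A countable family of unimodular functions dense for every probability measure -/

/-- Radial projection onto the unit circle. -/
noncomputable def pullCirc (z : ℂ) : ℂ := if z = 0 then 1 else z / ‖z‖

lemma pullCirc_meas : Measurable pullCirc :=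
  Measurable.ite (measurableSet_singleton 0) measurable_const
    (measurable_id.div (Complex.measurable_ofReal.comp measurable_norm))

lemma pullCirc_norm (z : ℂ) : ‖pullCirc z‖ = 1 := by
  unfold pullCirc
  split_ifs with h
  · simp
  · simp [h]

lemma pullCirc_dist {w : ℂ} (hw : ‖w‖ = 1) (z : ℂ) : ‖w - pullCirc z‖ ≤ 2 * ‖w - z‖ := by
  have h1 : ‖z - pullCirc z‖ = |‖z‖ - 1| := by
    unfold pullCirc
    split_ifs with h
    · simp [h]
    · have hz : (‖z‖ : ℂ) ≠ 0 := by simpa using h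
      have : z - z / ‖z‖ = ((‖z‖ - 1 : ℝ) : ℂ) * (z / ‖z‖) := by
        push_cast
        field_simp
      rw [this, norm_mul, Complex.norm_real]
      simp [h]
  have h2 : |‖z‖ - 1| ≤ ‖w - z‖ := by
    rw [← hw, norm_sub_rev]
    exact abs_norm_sub_norm_le z w
  have h3 := norm_sub_le_norm_sub_add_norm_sub w z (pullCirc z)
  linarith

lemma pull_int_sq (f : BMF m0) : Integrable (fun ω => ‖(f : X → ℂ) ω‖ ^ 2) μ := by
  obtain ⟨C, hC⟩ := bmf_bound f
  refine Integrable.of_bound ((bmf_meas f).norm.pow_const 2).aestronglyMeasurable (C ^ 2)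
    (ae_of_all _ fun ω => ?_)
  rw [norm_pow, norm_norm]
  exact pow_le_pow_left₀ (norm_nonneg _) (hC ω) 2

lemma exists_dense_unimodular (m : SA m0) [@MeasurableSpace.CountablyGenerated X m.1] :
    ∃ g : ℕ → BMF m0, (∀ n, Measurable[m.1] (g n : X → ℂ)) ∧ (∀ n ω, ‖(g n : X → ℂ) ω‖ = 1) ∧
      ∀ (κ : Measure X) [IsProbabilityMeasure κ], ∀ x ∈ L κ m, x ∈ unitary (LB κ) →
        ∀ ε : ℝ, 0 < ε → ∃ n, ‖x - cls κ (g n)‖ < ε := by
  obtain ⟨h, hm, hd⟩ := pull_exists_dense m
  let g : ℕ → BMF m0 := fun n => ⟨fun ω => pullCirc ((h n : X → ℂ) ω),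
    pullCirc_meas.comp (bmf_meas _), 1, fun ω => (pullCirc_norm _).le⟩
  refine ⟨g, fun n => pullCirc_meas.comp (hm n), fun n ω => pullCirc_norm _,
    fun κ _ x hx hu ε hε => ?_⟩
  obtain ⟨_, ⟨n, rfl⟩, hn⟩ := Metric.mem_closure_iff.1 (hd κ x hx) (ε / 2) (by positivity)
  refine ⟨n, ?_⟩
  obtain ⟨f, rfl⟩ := mk_surj x
  rw [mem_unitary_iff, ← map_star, ← map_mul, ← map_one (cls κ), mk_eq_iff] at hu
  rw [dist_eq_norm, ← map_sub] at hn
  rw [← map_sub]
  have key : ‖cls κ (f - g n)‖ ^ 2 ≤ (2 * ‖cls κ (f - h n)‖) ^ 2 := by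
    rw [mul_pow, norm_sq_mk, norm_sq_mk, ← integral_const_mul]
    refine integral_mono_ae (pull_int_sq _) ((pull_int_sq _).const_mul _) ?_
    filter_upwards [hu] with ω hω
    have h1 : ‖(f : X → ℂ) ω‖ = 1 := by
      have h2 := congrArg norm hω
      have h3 : ‖(f : X → ℂ) ω‖ * ‖(f : X → ℂ) ω‖ = 1 := by simpa using h2
      nlinarith [norm_nonneg ((f : X → ℂ) ω)]
    rw [← mul_pow]
    exact pow_le_pow_left₀ (norm_nonneg _) (pullCirc_dist h1 _) 2
  have := (pow_le_pow_iff_left₀ (norm_nonneg _) (by positivity) two_ne_zero).1 key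
  linarith

end Vale.Agent.P102
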