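import Vale.Agent.P102.BasicA

/-! Basic calculus on the array space. -/

namespace Vale.Agent.P102
open MeasureTheory ProbabilityTheory Filter Topology Set
open scoped InnerProductSpace ComplexConjugate

variable {k : ℕ}

/-! ### Positions -/

@[simp] lemma gmap_snd_apply (σ : ℚ ↪o ℚ) (γ : Gam k) (s : ℚ) : (gmap σ γ).2 (σ s) = γ.2 s :=
  Finsupp.embDomain_apply_self _ _ _

lemma gmap_snd_of_not_mem (σ : ℚ ↪o ℚ) (γ : Gam k) {x : ℚ} (h : x ∉ Set.range σ) :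
    (gmap σ γ).2 x = 0 :=
  Finsupp.embDomain_notin_range _ _ _ h

lemma gmap_add (σ : ℚ ↪o ℚ) (γ γ' : Gam k) : gmap σ (γ + γ') = gmap σ γ + gmap σ γ' := by
  simp only [gmap, Prod.fst_add, Prod.snd_add, Finsupp.embDomain_add, Prod.mk_add_mk]

lemma gmap_sg (σ : ℚ ↪o ℚ) (q : ℚ) (δ : Dig k) : gmap σ (sg q δ) = sg (σ q) δ := by
  simp only [gmap, sg, Finsupp.embDomain_single]
  rfl

lemma gmap_gmap (σ τ : ℚ ↪o ℚ) (γ : Gam k) : gmap σ (gmap τ γ) = gmap (τ.trans σ) γ := by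
  refine Prod.ext rfl ?_
  ext x : 1
  by_cases h : x ∈ Set.range σ
  · obtain ⟨y, rfl⟩ := h
    rw [gmap_snd_apply]
    by_cases h' : y ∈ Set.range τ
    · obtain ⟨z, rfl⟩ := h'
      rw [gmap_snd_apply]
      exact (gmap_snd_apply (τ.trans σ) γ z).symm
    · rw [gmap_snd_of_not_mem τ γ h', gmap_snd_of_not_mem]
      rintro ⟨z, hz⟩
      exact h' ⟨z, σ.injective hz⟩
  · rw [gmap_snd_of_not_mem σ _ h, gmap_snd_of_not_mem]
    rintro ⟨z, hz⟩
    exact h ⟨τ z, hz⟩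

lemma gmap_fix (σ : ℚ ↪o ℚ) {S : Set ℚ} (h : ∀ s ∈ S, σ s = s) {γ : Gam k} (hγ : γ ∈ lev S) :
    gmap σ γ = γ := by
  refine Prod.ext rfl ?_
  ext x : 1
  by_cases hx : γ.2 x = 0
  · rw [hx]
    by_cases h' : x ∈ Set.range σ
    · obtain ⟨y, rfl⟩ := h'
      rw [gmap_snd_apply]
      by_contra hy
      have := h y (hγ y hy)
      rw [this] at hx
      exact hy hx
    · exact gmap_snd_of_not_mem σ γ h'
  · have := h x (hγ x hx)
    conv_lhs => rw [← this]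
    exact gmap_snd_apply σ γ x

lemma gmap_mem_lev (σ : ℚ ↪o ℚ) {S S' : Set ℚ} (h : ∀ s ∈ S, σ s ∈ S') {γ : Gam k}
    (hγ : γ ∈ lev S) : gmap σ γ ∈ lev S' := by
  intro s hs
  by_cases h' : s ∈ Set.range σ
  · obtain ⟨y, rfl⟩ := h'
    rw [gmap_snd_apply] at hs
    exact h y (hγ y hs)
  · exact absurd (gmap_snd_of_not_mem σ γ h') hs

@[simp] lemma add_sg_snd_self (γ : Gam k) (q : ℚ) (δ : Dig k) :
    (γ + sg q δ).2 q = γ.2 q + δ := by
  simp [sg]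

lemma add_sg_snd_of_ne (γ : Gam k) {q s : ℚ} (h : s ≠ q) (δ : Dig k) :
    (γ + sg q δ).2 s = γ.2 s := by
  simp [sg, Finsupp.single_eq_of_ne h]

@[simp] lemma add_tm_snd (γ : Gam k) (m : ℤ) : (γ + tm m).2 = γ.2 := by
  simp [tm]

lemma sg_add (q : ℚ) (δ δ' : Dig k) : sg q (δ + δ') = sg q δ + sg q δ' := by
  simp [sg, Finsupp.single_add]

@[simp] lemma sg_zero (q : ℚ) : sg q (0 : Dig k) = 0 := by
  simp [sg]

lemma tm_add (m m' : ℤ) : (tm (m + m') : Gam k) = tm m + tm m' := by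
  simp [tm]

@[simp] lemma tm_zero : (tm 0 : Gam k) = 0 := rfl

lemma lev_mono {S S' : Set ℚ} (h : S ⊆ S') : (lev S : Set (Gam k)) ⊆ lev S' :=
  fun _ hγ s hs => h (hγ s hs)

lemma mem_lev_empty {γ : Gam k} : γ ∈ lev ∅ ↔ γ.2 = 0 := by
  constructor
  · intro h
    ext s : 1
    by_contra hs
    exact h s hs
  · intro h s hs
    exact hs (by rw [h]; rfl)

lemma ee_sub_inj {i j c : Fin k} (h : ee i - ee c = ee j - ee c) : i = j := by
  have h' : ee i = ee j := sub_left_injective h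
  by_contra hij
  have := congrFun h' i
  simp [ee, Pi.single_eq_of_ne hij] at this

/-! ### Sigma-algebras of coordinates -/

lemma FF_mono {Δ Δ' : Set (Gam k)} (h : Δ ⊆ Δ') : FF Δ ≤ FF Δ' := cylinderEvents_mono h

lemma FF_union (Δ Δ' : Set (Gam k)) : FF (Δ ∪ Δ') = FF Δ ⊔ FF Δ' := by
  refine Subtype.ext ?_
  change cylinderEvents (Δ ∪ Δ') = cylinderEvents Δ ⊔ cylinderEvents Δ'
  unfold cylinderEvents
  exact iSup_union

lemma comap_pl (ρ : Gam k → Gam k) (Δ : Set (Gam k)) :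
    (FF (ρ '' Δ)).1 = (FF Δ).1.comap (pl ρ) := by
  change cylinderEvents (ρ '' Δ) = (cylinderEvents Δ).comap (pl ρ)
  unfold cylinderEvents
  rw [iSup_image]
  simp only [MeasurableSpace.comap_iSup, MeasurableSpace.comap_comp]
  rfl

instance FF_cg (Δ : Set (Gam k)) : @MeasurableSpace.CountablyGenerated (Om k) (FF Δ).1 := by
  refine @MeasurableSpace.CountablyGenerated.mk _ (FF Δ).1
    ⟨Set.range fun p : Δ × (Fin k → Bool) => {ω : Om k | ω p.1.1 = p.2},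
    Set.countable_range _, le_antisymm ?_ (MeasurableSpace.generateFrom_le ?_)⟩
  · refine iSup₂_le fun γ hγ => ?_
    rw [← measurable_iff_comap_le]
    exact @measurable_to_countable' _ _ _ _ (MeasurableSpace.generateFrom _) _
      fun b => MeasurableSpace.measurableSet_generateFrom ⟨(⟨γ, hγ⟩, b), rfl⟩
  · rintro _ ⟨⟨γ, b⟩, rfl⟩
    exact measurable_cylinderEvent_apply (X := fun _ : Gam k => Fin k → Bool) γ.2
      (measurableSet_singleton b)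

lemma dependsOn_of_measurable {Δ : Set (Gam k)} {F : Om k → ℂ} (h : Measurable[(FF Δ).1] F) :
    DependsOn F Δ := by
  intro ω ω' hω
  have key : ∀ s : Set (Om k), MeasurableSet[(FF Δ).1] s → (ω ∈ s ↔ ω' ∈ s) := by
    intro s hs
    rw [basic_FF_eq] at hs
    induction hs with
    | basic t ht =>
      obtain ⟨Δ', h', a, rfl⟩ := ht
      exact (basic_box_dep Δ' a fun γ hγ => hω γ (h' hγ)).to_iff
    | empty => simp
    | compl t _ ih => exact not_congr ih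
    | iUnion f _ ih => simp only [mem_iUnion]; exact exists_congr ih
  exact ((key _ (h (measurableSet_singleton (F ω)))).1 rfl).symm

/-- A function depending on finitely many coordinates is bounded and measurable. -/
lemma mem_BMF_of_dependsOn {Δ : Finset (Gam k)} {F : Om k → ℂ}
    (h : DependsOn F (Δ : Set (Gam k))) :
    F ∈ BMF (inferInstance : MeasurableSpace (Om k)) ∧ Measurable[(FF (Δ : Set (Gam k))).1] F := by
  exact ⟨⟨(basic_measurable h).mono (FF (Δ : Set (Gam k))).2 le_rfl, basic_bounded h⟩,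
    basic_measurable h⟩

namespace Arr

variable (A : Arr k)

lemma LL_mono {Δ Δ' : Set (Gam k)} (h : Δ ⊆ Δ') : A.LL Δ ≤ A.LL Δ' := L_mono (FF_mono h)

lemma sh_mem {Δ Δ' : Set (Gam k)} (γ : Gam k) (h : ∀ x ∈ Δ, x + γ ∈ Δ') {x : LB A.P}
    (hx : x ∈ A.LL Δ) : A.sh γ x ∈ A.LL Δ' := by
  refine pull_mem_L _ ?_ hx
  rw [← comap_pl]
  refine FF_mono ?_
  rintro _ ⟨y, hy, rfl⟩
  exact h y hy

lemma sh_sh (γ γ' : Gam k) (x : LB A.P) : A.sh γ (A.sh γ' x) = A.sh (γ + γ') x := by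
  rw [pull_pull]
  refine pull_congr _ _ ?_ x
  funext ω δ
  simp only [Function.comp_apply, pl]
  congr 1
  abel

@[simp] lemma sh_zero (x : LB A.P) : A.sh 0 x = x := by
  refine pull_id _ ?_ x
  funext ω δ
  simp [pl]

lemma sh_PE (γ : Gam k) {Δ Δ' : Set (Gam k)} (h : ∀ x, x + γ ∈ Δ' ↔ x ∈ Δ) (x : LB A.P) :
    A.sh γ (A.PE Δ x) = A.PE Δ' (A.sh γ x) := by
  refine pull_cE _ ?_ x
  rw [← comap_pl]
  congr 2
  ext y
  constructor
  · intro hy
    refine ⟨y - γ, (h _).1 (by simpa using hy), by simp⟩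
  · rintro ⟨z, hz, rfl⟩
    exact (h z).2 hz

lemma em_mem {Δ Δ' : Set (Gam k)} (σ : ℚ ↪o ℚ) (h : ∀ x ∈ Δ, gmap σ x ∈ Δ') {x : LB A.P}
    (hx : x ∈ A.LL Δ) : A.em σ x ∈ A.LL Δ' := by
  refine pull_mem_L _ ?_ hx
  rw [← comap_pl]
  refine FF_mono ?_
  rintro _ ⟨y, hy, rfl⟩
  exact h y hy

lemma em_fix {Δ : Set (Gam k)} (σ : ℚ ↪o ℚ) (h : ∀ x ∈ Δ, gmap σ x = x) {x : LB A.P}
    (hx : x ∈ A.LL Δ) : A.em σ x = x := by
  obtain ⟨f, hf, rfl⟩ := hx
  rw [pull_mk]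
  congr 1
  refine Subtype.ext (funext fun ω => ?_)
  exact dependsOn_of_measurable hf fun γ hγ => congrArg ω (h γ hγ)

lemma em_std (σ : ℚ ↪o ℚ) {x : LB A.P} (hx : x ∈ A.LL (lev ∅)) : A.em σ x = x :=
  A.em_fix σ (fun _ h => gmap_fix σ (by simp) h) hx

lemma em_em (σ τ : ℚ ↪o ℚ) (x : LB A.P) : A.em σ (A.em τ x) = A.em (τ.trans σ) x := by
  rw [pull_pull]
  refine pull_congr _ _ ?_ x
  funext ω δ
  simp only [Function.comp_apply, pl, gmap_gmap]

lemma em_sh (σ : ℚ ↪o ℚ) (γ : Gam k) (x : LB A.P) :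
    A.em σ (A.sh γ x) = A.sh (gmap σ γ) (A.em σ x) := by
  rw [pull_pull, pull_pull]
  refine pull_congr _ _ ?_ x
  funext ω δ
  simp only [Function.comp_apply, pl, gmap_add]

lemma em_PE (σ : ℚ ↪o ℚ) (Δ : Set (Gam k)) (x : LB A.P) :
    A.em σ (A.PE Δ x) = A.PE (gmap σ '' Δ) (A.em σ x) := by
  exact pull_cE _ (comap_pl _ _) x

/-- Density of cylinder functions. -/
lemma LL_cyl_induction (Δ : Set (Gam k)) (p : Submodule ℂ (LB A.P))
    (hp : IsClosed (p : Set (LB A.P)))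
    (h : ∀ (Δ' : Finset (Gam k)) (f : BMF (inferInstance : MeasurableSpace (Om k))),
      (Δ' : Set (Gam k)) ⊆ Δ → DependsOn (f : Om k → ℂ) (Δ' : Set (Gam k)) → cls A.P f ∈ p) :
    ∀ x ∈ A.LL Δ, x ∈ p := by
  refine L_le_of_piSystem (FF Δ) (basic_pt Δ) (basic_pt_pi Δ) (basic_FF_eq Δ) p hp ?_ ?_
  · rw [← map_one (cls A.P)]
    exact h ∅ 1 (by simp) fun _ _ _ => rfl
  · rintro _ ⟨Δ', h', a, rfl⟩ hs
    exact h Δ' _ h' (basic_box_ind_dep Δ' a)

/-- Density of products over a finite cover, at a finite level. -/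
lemma LL_cover_induction {ι : Type*} [Fintype ι] (Δ : Set (Gam k)) (Δ' : ι → Set (Gam k))
    (hcov : ∀ γ ∈ Δ, ∃ i, γ ∈ Δ' i) (p : Submodule ℂ (LB A.P))
    (hp : IsClosed (p : Set (LB A.P)))
    (h : ∀ (S : Finset ℚ) (x : ι → LB A.P), (∀ i, x i ∈ A.LL (Δ ∩ Δ' i ∩ lev S)) →
      ∏ i, x i ∈ p) : ∀ x ∈ A.LL Δ, x ∈ p := by
  classical
  refine L_le_of_piSystem (FF Δ) (basic_pt Δ) (basic_pt_pi Δ) (basic_FF_eq Δ) p hp ?_ ?_
  · have := h ∅ (fun _ => 1) fun _ => one_mem _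
    rwa [Finset.prod_const_one] at this
  · rintro _ ⟨D, hD, a, rfl⟩ hs
    choose c hc using fun γ : D => hcov γ.1 (hD γ.2)
    let Dd : ι → Finset (Gam k) := fun i => D.filter fun γ => ∃ hγ : γ ∈ D, c ⟨γ, hγ⟩ = i
    have hsub : ∀ i, (Dd i : Set (Gam k)) ⊆ Δ ∩ Δ' i ∩ lev (basic_sc D : Set ℚ) := by
      intro i γ hγ
      obtain ⟨h1, h2, h3⟩ := Finset.mem_filter.1 hγ
      exact ⟨⟨hD h1, h3 ▸ hc ⟨γ, h2⟩⟩, basic_subset_lev_sc D h1⟩
    have := h (basic_sc D) (fun i => ind A.P (basic_box (Dd i) a) (basic_box_meas' _ _))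
      fun i => ind_mem_L (basic_box_meas (hsub i) a)
    rw [prod_ind] at this
    have e : (⋂ i ∈ (Finset.univ : Finset ι), basic_box (Dd i) a) = basic_box D a := by
      ext ω
      simp only [Finset.mem_univ, iInter_true, mem_iInter, basic_box, mem_ofPred_eq]
      constructor
      · intro h' γ hγ
        exact h' (c ⟨γ, hγ⟩) γ (Finset.mem_filter.2 ⟨hγ, hγ, rfl⟩)
      · intro h' i γ hγ
        exact h' γ (Finset.mem_filter.1 hγ).1
    simpa only [e] using this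

lemma LL_lev_induction (Δ : Set (Gam k)) (p : Submodule ℂ (LB A.P))
    (hp : IsClosed (p : Set (LB A.P)))
    (h : ∀ (S : Finset ℚ), ∀ x ∈ A.LL (Δ ∩ lev S), x ∈ p) : ∀ x ∈ A.LL Δ, x ∈ p := by
  refine A.LL_cover_induction (ι := Unit) Δ (fun _ => univ) (fun _ _ => ⟨(), trivial⟩) p hp
    fun S x hx => ?_
  rw [Finset.univ_unique, Finset.prod_singleton]
  refine h S _ ?_
  simpa only [inter_univ] using hx default

/-- (EMB) -/
lemma PE_eq_of_emb (σ : ℚ ↪o ℚ) {Δ Δ' : Set (Gam k)} (h1 : ∀ γ ∈ Δ', gmap σ γ ∈ Δ)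
    (h2 : Δ ⊆ Δ') {x : LB A.P} (hx : A.em σ x = x) : A.PE Δ' x = A.PE Δ x := by
  refine cE_eq_of_norm_le (A.LL_mono h2) ?_
  have e : ‖A.PE Δ' x‖ = ‖A.PE (gmap σ '' Δ') x‖ := by
    rw [← norm_pull (A.em_mp σ) (A.PE Δ' x)]
    change ‖A.em σ (A.PE Δ' x)‖ = _
    rw [A.em_PE, hx]
  rw [e]
  refine norm_cE_mono (A.LL_mono ?_) x
  rintro _ ⟨y, hy, rfl⟩
  exact h1 y hy

end Arr

end Vale.Agent.P102
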