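import Vale.Agent.P102.Defs

/-! Point cylinders and functions of finitely many coordinates. -/

namespace Vale.Agent.P102
open MeasureTheory ProbabilityTheory Filter Topology Set

variable {k : ℕ}

/-- The configurations agreeing with `a` on `Δ`. -/
def basic_box (Δ : Finset (Gam k)) (a : Om k) : Set (Om k) := {ω | ∀ γ ∈ Δ, ω γ = a γ}

/-- Point cylinders with base inside `Δ`. -/
def basic_pt (Δ : Set (Gam k)) : Set (Set (Om k)) :=
  {s | ∃ Δ' : Finset (Gam k), (Δ' : Set (Gam k)) ⊆ Δ ∧ ∃ a, s = basic_box Δ' a}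

lemma basic_pt_pi (Δ : Set (Gam k)) : IsPiSystem (basic_pt Δ) := by
  classical
  rintro _ ⟨Δ₁, h₁, a, rfl⟩ _ ⟨Δ₂, h₂, b, rfl⟩ ⟨ω₀, h0, h0'⟩
  refine ⟨Δ₁ ∪ Δ₂, ?_, ω₀, ?_⟩
  · rw [Finset.coe_union]
    exact union_subset h₁ h₂
  · ext ω
    simp only [basic_box, mem_inter_iff, mem_ofPred_eq, Finset.mem_union]
    constructor
    · rintro ⟨ha, hb⟩ γ (h | h)
      · rw [ha γ h, h0 γ h]
      · rw [hb γ h, h0' γ h]
    · intro h
      exact ⟨fun γ hγ => by rw [h γ (Or.inl hγ), h0 γ hγ],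
        fun γ hγ => by rw [h γ (Or.inr hγ), h0' γ hγ]⟩

lemma basic_factor {β : Type*} {Δ : Finset (Gam k)} {F : Om k → β}
    (h : DependsOn F (Δ : Set (Gam k))) :
    ∃ G : (Δ → Fin k → Bool) → β, F = fun ω => G fun γ => ω γ.1 := by
  classical
  refine ⟨fun g => F fun γ => if hγ : γ ∈ Δ then g ⟨γ, hγ⟩ else default, ?_⟩
  funext ω
  refine h fun γ hγ => ?_
  have hγ' : γ ∈ Δ := hγ
  simp [hγ']

lemma basic_measurable {β : Type*} [MeasurableSpace β] {Δ : Finset (Gam k)} {F : Om k → β}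
    (h : DependsOn F (Δ : Set (Gam k))) : Measurable[(FF (Δ : Set (Gam k))).1] F := by
  obtain ⟨G, rfl⟩ := basic_factor h
  refine (measurable_of_finite G).comp (@measurable_pi_lambda _ _ _ (FF (Δ : Set (Gam k))).1 _ _
    fun γ => ?_)
  exact measurable_cylinderEvent_apply (X := fun _ : Gam k => Fin k → Bool) (Δ := (Δ : Set (Gam k)))
    γ.2

lemma basic_continuous {β : Type*} [TopologicalSpace β] {Δ : Finset (Gam k)} {F : Om k → β}
    (h : DependsOn F (Δ : Set (Gam k))) : Continuous F := by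
  obtain ⟨G, rfl⟩ := basic_factor h
  exact (continuous_of_discreteTopology (f := G)).comp
    (continuous_pi fun γ => continuous_apply γ.1)

lemma basic_bounded {Δ : Finset (Gam k)} {F : Om k → ℂ}
    (h : DependsOn F (Δ : Set (Gam k))) : ∃ C : ℝ, ∀ ω, ‖F ω‖ ≤ C := by
  obtain ⟨G, rfl⟩ := basic_factor h
  obtain ⟨C, hC⟩ := (Set.finite_range fun g => ‖G g‖).bddAbove
  exact ⟨C, fun ω => hC ⟨_, rfl⟩⟩

lemma basic_box_dep (Δ : Finset (Gam k)) (a : Om k) :
    DependsOn (· ∈ basic_box Δ a) (Δ : Set (Gam k)) := by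
  intro ω ω' h
  refine propext ⟨fun h' γ hγ => ?_, fun h' γ hγ => ?_⟩
  · rw [← h γ hγ, h' γ hγ]
  · rw [h γ hγ, h' γ hγ]

lemma basic_box_ind_dep (Δ : Finset (Gam k)) (a : Om k) :
    DependsOn ((basic_box Δ a).indicator fun _ => (1 : ℂ)) (Δ : Set (Gam k)) := by
  intro ω ω' h
  have := basic_box_dep Δ a h
  simp only [eq_iff_iff] at this
  by_cases h1 : ω ∈ basic_box Δ a
  · rw [indicator_of_mem h1, indicator_of_mem (this.1 h1)]
  · rw [indicator_of_notMem h1, indicator_of_notMem (mt this.2 h1)]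

lemma basic_box_meas {Δ : Set (Gam k)} {Δ' : Finset (Gam k)} (h : (Δ' : Set (Gam k)) ⊆ Δ)
    (a : Om k) : MeasurableSet[(FF Δ).1] (basic_box Δ' a) := by
  have h1 := basic_measurable (basic_box_dep Δ' a)
  have h2 : MeasurableSet[(FF (Δ' : Set (Gam k))).1] (basic_box Δ' a) := by
    have := h1 (MeasurableSet.of_discrete (s := {True}))
    simpa [Set.preimage] using this
  exact cylinderEvents_mono h _ h2

lemma basic_box_meas' (Δ' : Finset (Gam k)) (a : Om k) : MeasurableSet (basic_box Δ' a) :=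
  (FF (Δ' : Set (Gam k))).2 _ (basic_box_meas subset_rfl a)

lemma basic_FF_eq (Δ : Set (Gam k)) : (FF Δ).1 = MeasurableSpace.generateFrom (basic_pt Δ) := by
  refine le_antisymm ?_ (MeasurableSpace.generateFrom_le ?_)
  · refine iSup₂_le fun γ hγ => ?_
    rw [← measurable_iff_comap_le]
    refine @measurable_to_countable' _ _ _ _ (MeasurableSpace.generateFrom (basic_pt Δ)) _
      fun b => MeasurableSpace.measurableSet_generateFrom ⟨{γ}, by simpa using hγ, fun _ => b, ?_⟩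
    ext ω
    simp [basic_box]
  · rintro _ ⟨Δ', h, a, rfl⟩
    exact basic_box_meas h a

lemma basic_pi_eq : (inferInstance : MeasurableSpace (Om k)) =
    MeasurableSpace.generateFrom (basic_pt univ) := by
  rw [← basic_FF_eq]
  exact cylinderEvents_univ.symm

/-- The scales used by a finite set of positions. -/
noncomputable def basic_sc (Δ : Finset (Gam k)) : Finset ℚ := by
  classical exact Δ.biUnion fun γ => γ.2.support

lemma basic_mem_sc {Δ : Finset (Gam k)} {s : ℚ} :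
    s ∈ basic_sc Δ ↔ ∃ γ ∈ Δ, γ.2 s ≠ 0 := by
  simp [basic_sc]

lemma basic_subset_lev_sc (Δ : Finset (Gam k)) :
    (Δ : Set (Gam k)) ⊆ lev (basic_sc Δ : Set ℚ) :=
  fun γ hγ _ hs => basic_mem_sc.2 ⟨γ, hγ, hs⟩

lemma basic_sc_subset {Δ : Finset (Gam k)} {S : Set ℚ} (h : (Δ : Set (Gam k)) ⊆ lev S) :
    (basic_sc Δ : Set ℚ) ⊆ S := by
  intro s hs
  obtain ⟨γ, hγ, h'⟩ := basic_mem_sc.1 hs
  exact h hγ s h'

end Vale.Agent.P102
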