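import Vale.Agent.P102.Konig

/-! Mixing excludes polynomial sequences of characters. -/

namespace Vale.Agent.P102
open MeasureTheory ProbabilityTheory Filter Topology
open scoped InnerProductSpace ComplexConjugate

/-- Polynomial sequences of degree less than `e`. -/
def PolySeq {H : Type*} [AddCommGroup H] : ℕ → (ℕ → H) → Prop
  | 0, x => ∀ j, x j = 0
  | e + 1, x => ∀ a a', PolySeq e fun j => x (j + a) - x (j + a')

lemma PolySeq.map {G H : Type*} [AddCommGroup G] [AddCommGroup H] (f : G →+ H) {e : ℕ}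
    {x : ℕ → G} (h : PolySeq e x) : PolySeq e fun j => f (x j) := by
  induction e generalizing x with
  | zero => exact fun j => (congrArg f (h j)).trans (map_zero f)
  | succ e ih =>
    intro a a'
    simpa only [map_sub] using ih (h a a')

lemma polySeq_of_nilp {G : Type*} [AddCommGroup G] (φ : Module.End ℤ G) (e : ℕ) (s : G)
    (h : ((φ - 1) ^ e) s = 0) : PolySeq e fun j => (φ ^ j) s := by
  induction e generalizing s with
  | zero =>
    intro j
    rw [pow_zero, Module.End.one_apply] at h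
    rw [h]
    exact map_zero _
  | succ e ih =>
    intro a a'
    have key : ∀ a, ((φ - 1) ^ e) ((φ ^ a) s - s) = 0 := fun a => by
      have h1 : (φ - 1) ^ e * (φ ^ a - 1) = (∑ i ∈ Finset.range a, φ ^ i) * (φ - 1) ^ (e + 1) := by
        have h2 : Commute ((φ - 1) ^ e) (∑ i ∈ Finset.range a, φ ^ i) :=
          Commute.sum_right _ _ _ fun i _ =>
            ((Commute.refl φ).sub_left (Commute.one_left φ)).pow_pow e i
        rw [← geom_sum_mul, ← mul_assoc, h2.eq, mul_assoc, pow_succ]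
      have h2 := LinearMap.congr_fun h1 s
      rw [Module.End.mul_apply, Module.End.mul_apply, h, map_zero] at h2
      exact h2
    have h1 := ih ((φ ^ a) s - (φ ^ a') s) (by
      rw [← sub_sub_sub_cancel_right _ _ s, map_sub, key, key, sub_zero])
    simpa only [map_sub, pow_add, Module.End.mul_apply] using h1

variable {X : Type*} {m0 : MeasurableSpace X} {μ : Measure X} [IsProbabilityMeasure μ]

/-- The Cauchy-Schwarz step. -/
lemma sum_norm_sq_E_le {ι : Type*} [Fintype ι] (g : ι → LB μ) :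
    (∑ a, ‖E μ (g a)‖ ^ 2) ^ 2 ≤ ∑ a, ∑ a', ‖E μ (g a * star (g a'))‖ ^ 2 := by
  set S := ∑ a, ‖E μ (g a)‖ ^ 2 with hS
  have hS0 : 0 ≤ S := Finset.sum_nonneg fun a _ => sq_nonneg _
  set u := ∑ a, star (E μ (g a)) • g a with hu
  have h1 : E μ u = (S : ℂ) := by
    rw [hu, hS, map_sum, Complex.ofReal_sum]
    refine Finset.sum_congr rfl fun a _ => ?_
    rw [map_smul, smul_eq_mul, Complex.star_def, Complex.conj_mul']
    norm_cast
  have h2 : S ≤ ‖u‖ := by
    have := norm_E_le u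
    rwa [h1, Complex.norm_real, Real.norm_of_nonneg hS0] at this
  have h3 : ‖u‖ ^ 2 ≤ ∑ p : ι × ι, ‖E μ (g p.1)‖ * ‖E μ (g p.2)‖ * ‖E μ (g p.1 * star (g p.2))‖ := by
    have h4 : ‖u‖ ^ 2 = ‖E μ (u * star u)‖ := by
      rw [mul_comm, ← norm_sq_eq, Complex.norm_real, Real.norm_of_nonneg (sq_nonneg _)]
    rw [h4, hu, star_sum, Finset.sum_mul_sum, ← Fintype.sum_prod_type', map_sum]
    refine (norm_sum_le _ _).trans (le_of_eq (Finset.sum_congr rfl fun p _ => ?_))
    rw [star_smul, smul_mul_smul_comm, map_smul, smul_eq_mul, norm_mul, norm_mul, norm_star,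
      norm_star, norm_star]
  have h4 := Finset.sum_mul_sq_le_sq_mul_sq Finset.univ
    (fun p : ι × ι => ‖E μ (g p.1)‖ * ‖E μ (g p.2)‖) fun p => ‖E μ (g p.1 * star (g p.2))‖
  have h5 : ∑ p : ι × ι, (‖E μ (g p.1)‖ * ‖E μ (g p.2)‖) ^ 2 = S ^ 2 := by
    rw [sq S, hS, Finset.sum_mul_sum, ← Fintype.sum_prod_type']
    exact Finset.sum_congr rfl fun p _ => mul_pow _ _ _
  rw [h5] at h4
  rw [← Fintype.sum_prod_type']
  have h6 : S ^ 2 ≤ _ := (pow_le_pow_left₀ hS0 h2 2).trans h3
  have h7 := (pow_le_pow_left₀ (sq_nonneg S) h6 2).trans h4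
  rcases (sq_nonneg S).eq_or_lt with h8 | h8
  · rw [← h8]
    exact Finset.sum_nonneg fun p _ => sq_nonneg _
  · rw [sq (S ^ 2)] at h7
    exact le_of_mul_le_mul_left h7 h8

/-- The conjugate monomial. -/
def boxConj {k : ℕ} (s : Multiset (Fin k × ℕ × Bool)) : Multiset (Fin k × ℕ × Bool) :=
  s.map fun p => (p.1, p.2.1, !p.2.2)

lemma box_mon_add {R : Type*} [CommMonoid R] [Star R] {k : ℕ} (v : Fin k → ℕ → R)
    (s t : Multiset (Fin k × ℕ × Bool)) : mon v (s + t) = mon v s * mon v t := by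
  rw [mon, mon, mon, Multiset.map_add, Multiset.prod_add]

lemma box_shift_add {k : ℕ} (m : ℕ) (s t : Multiset (Fin k × ℕ × Bool)) :
    monShift m (s + t) = monShift m s + monShift m t := Multiset.map_add _ _ _

lemma box_shift_shift {k : ℕ} (m n : ℕ) (s : Multiset (Fin k × ℕ × Bool)) :
    monShift m (monShift n s) = monShift (n + m) s := by
  simp only [monShift, Multiset.map_map, Function.comp_def, add_assoc]

lemma box_shift_conj {k : ℕ} (m : ℕ) (s : Multiset (Fin k × ℕ × Bool)) :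
    monShift m (boxConj s) = boxConj (monShift m s) := by
  simp only [monShift, boxConj, Multiset.map_map, Function.comp_def]

omit [IsProbabilityMeasure μ] in
lemma box_mon_conj {k : ℕ} (v : Fin k → ℕ → LB μ) (s : Multiset (Fin k × ℕ × Bool)) :
    mon v (boxConj s) = star (mon v s) := by
  induction s using Multiset.induction_on with
  | empty => simp [mon, boxConj]
  | cons p s ih =>
    simp only [mon, boxConj, Multiset.map_cons, Multiset.prod_cons] at ih ⊢
    rw [ih, star_mul']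
    cases p.2.2 <;> simp

omit [IsProbabilityMeasure μ] in
lemma box_bd_mon {k : ℕ} {v : Fin k → ℕ → LB μ} (hb : ∀ i j, Bd (v i j) 1)
    (s : Multiset (Fin k × ℕ × Bool)) : Bd (mon v s) 1 := by
  induction s using Multiset.induction_on with
  | empty => exact bd_one
  | cons p s ih =>
    rw [mon, Multiset.map_cons, Multiset.prod_cons, ← mul_one (1 : ℝ)]
    refine Bd.mul ?_ ih
    split_ifs
    exacts [hb _ _, (hb _ _).star]

lemma box_corr {k : ℕ} (v : Fin k → ℕ → LB μ)
    (hinv : ∀ s m, E μ (mon v (monShift m s)) = E μ (mon v s))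
    (hmix : ∀ s t, Tendsto (fun m => E μ (mon v s * mon v (monShift m t))) atTop
      (𝓝 (E μ (mon v s) * E μ (mon v t)))) (W : Finset (Multiset (Fin k × ℕ × Bool))) {η : ℝ}
    (hη : 0 < η) : ∃ N : ℕ, ∀ s ∈ W, ∀ a a', a + N ≤ a' ∨ a' + N ≤ a →
      ‖E μ (mon v (monShift a s + boxConj (monShift a' s)))‖ ≤ ‖E μ (mon v s)‖ ^ 2 + η := by
  have h1 : ∀ᶠ m in atTop, ∀ s ∈ W,
      ‖E μ (mon v s * mon v (monShift m (boxConj s)))‖ < ‖E μ (mon v s)‖ ^ 2 + η := by
    refine (eventually_all_finset W).2 fun s _ => (hmix s (boxConj s)).norm.eventually_lt_const ?_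
    rw [box_mon_conj, E_star, norm_mul, RCLike.norm_conj, ← sq]
    linarith
  obtain ⟨N, hN⟩ := eventually_atTop.1 h1
  have h2 : ∀ s ∈ W, ∀ a a', a + N ≤ a' →
      ‖E μ (mon v (monShift a s + boxConj (monShift a' s)))‖ ≤ ‖E μ (mon v s)‖ ^ 2 + η := by
    intro s hs a a' h
    obtain ⟨m, rfl⟩ := Nat.exists_eq_add_of_le' (show a ≤ a' by omega)
    rw [← box_shift_shift, ← box_shift_conj, ← box_shift_add, hinv, box_mon_add, ← box_shift_conj]
    exact (hN m (by omega) s hs).le
  refine ⟨N, fun s hs a a' h => h.elim (h2 s hs a a') fun h => le_trans (le_of_eq ?_) (h2 s hs a' a h)⟩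
  rw [← RCLike.norm_conj, ← E_star, box_mon_add, box_mon_add, box_mon_conj, box_mon_conj,
    star_mul, star_star]

lemma box_step {H : Type*} [AddCommGroup H] (C : CharSys μ H) {k : ℕ} (v : Fin k → ℕ → LB μ)
    {ι : Type*} [Fintype ι] (y : ι → H) (a : ι → ℕ) (m : ℕ) (s : Multiset (Fin k × ℕ × Bool)) :
    (∑ l, ‖⟪C.ρ (y l), mon v (monShift (a l + m) s)⟫_ℂ‖ ^ 2) ^ 2 ≤ ∑ l, ∑ l',
      ‖⟪C.ρ (y l - y l'), mon v (monShift m (monShift (a l) s + boxConj (monShift (a l') s)))⟫_ℂ‖
        ^ 2 := by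
  refine (sum_norm_sq_E_le fun l => star (C.ρ (y l)) * mon v (monShift (a l + m) s)).trans
    (le_of_eq (Finset.sum_congr rfl fun l _ => Finset.sum_congr rfl fun l' _ => ?_))
  obtain ⟨c, h1, h2⟩ := C.sub (y l) (y l')
  rw [← chars_norm_inner_smul _ _ h1, ← h2, inner_def, box_shift_add, box_shift_conj,
    box_shift_shift, box_shift_shift, box_mon_add, box_mon_conj, star_mul', star_mul']
  exact congrArg (fun t => ‖E μ t‖ ^ 2) (by ring)

theorem box_aux {H : Type*} [AddCommGroup H] (C : CharSys μ H) {k : ℕ} (v : Fin k → ℕ → LB μ)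
    (hb : ∀ i j, Bd (v i j) 1) (hinv : ∀ s m, E μ (mon v (monShift m s)) = E μ (mon v s))
    (hmix : ∀ s t, Tendsto (fun m => E μ (mon v s * mon v (monShift m t))) atTop
      (𝓝 (E μ (mon v s) * E μ (mon v t)))) {M : ℕ} (hM : 0 < M) (e : ℕ) :
    ∀ (W : Finset (Multiset (Fin k × ℕ × Bool))) (ε : ℝ), 0 < ε →
      ∃ (J : Type) (_ : Fintype J) (_ : Nonempty J) (ν : J → ℕ), ∀ s ∈ W, ∀ x : ℕ → H,
        PolySeq e x → ∑ j, ‖⟪C.ρ (x (ν j)), mon v (monShift (M * ν j) s)⟫_ℂ‖ ^ 2 ≤
          Fintype.card J * (‖E μ (mon v s)‖ ^ 2 + ε) := by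
  classical
  induction e with
  | zero =>
    intro W ε hε
    refine ⟨Unit, inferInstance, inferInstance, fun _ => 0, fun s _ x hx => ?_⟩
    obtain ⟨c, h1, h2⟩ := C.zero
    rw [Fintype.sum_unique, hx, h2, Algebra.algebraMap_eq_smul_one, chars_norm_inner_smul _ _ h1,
      ← E_eq_inner, hinv, Fintype.card_unique, Nat.cast_one, one_mul]
    linarith
  | succ e ih =>
    intro W ε hε
    obtain ⟨N, hN⟩ := box_corr v hinv hmix W (half_pos hε)
    obtain ⟨p, hp⟩ := exists_nat_gt (4 / ε ^ 2)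
    have hp0 : (0 : ℝ) < p := lt_trans (by positivity) hp
    have : Nonempty (Fin p) := ⟨⟨0, by exact_mod_cast hp0⟩⟩
    obtain ⟨J, _, _, ν, hν⟩ := ih ((W ×ˢ (Finset.univ : Finset (Fin p × Fin p))).image fun z =>
      monShift (M * (z.2.1 * N)) z.1 + boxConj (monShift (M * (z.2.2 * N)) z.1)) (ε ^ 2 / 4)
      (by positivity)
    refine ⟨J × Fin p, inferInstance, inferInstance, fun z => ν z.1 + z.2 * N, fun s hs x hx => ?_⟩
    set α := ‖E μ (mon v s)‖ ^ 2 with hα
    have hα0 : 0 ≤ α := sq_nonneg _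
    have h1 : ∀ l l' : Fin p,
        ‖E μ (mon v (monShift (M * (l * N)) s + boxConj (monShift (M * (l' * N)) s)))‖ ^ 2 ≤
          (if l = l' then 1 else 0) + (α + ε / 2) ^ 2 := by
      intro l l'
      split_ifs with h
      · refine le_trans (pow_le_one₀ (norm_nonneg _) ((norm_E_le _).trans
          (box_bd_mon hb _).norm_le)) (le_add_of_nonneg_right (sq_nonneg _))
      · rw [zero_add]
        refine pow_le_pow_left₀ (norm_nonneg _) (hN s hs _ _ ?_) 2
        have key : ∀ b b' : ℕ, b < b' → M * (b * N) + N ≤ M * (b' * N) := fun b b' hbb =>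
          calc M * (b * N) + N ≤ M * (b * N) + M * N :=
                Nat.add_le_add_left (Nat.le_mul_of_pos_left N hM) _
            _ = M * ((b + 1) * N) := by ring
            _ ≤ M * (b' * N) := Nat.mul_le_mul_left M (Nat.mul_le_mul_right N hbb)
        exact (lt_or_gt_of_ne (Fin.val_ne_of_ne h)).imp (key _ _) (key _ _)
    have h2 : ∑ j : J, (∑ l : Fin p, ‖⟪C.ρ (x (ν j + l * N)),
        mon v (monShift (M * (ν j + l * N)) s)⟫_ℂ‖ ^ 2) ^ 2 ≤
        Fintype.card J * (p * (α + ε)) ^ 2 := by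
      have h3 := fun j : J => box_step C v (fun l : Fin p => x (ν j + l * N))
        (fun l => M * (l * N)) (M * ν j) s
      simp only [← mul_add, add_comm _ (ν _)] at h3
      refine (Finset.sum_le_sum fun j _ => h3 j).trans ?_
      rw [Finset.sum_comm]
      simp only [fun l : Fin p => Finset.sum_comm (s := (Finset.univ : Finset J))
        (t := (Finset.univ : Finset (Fin p))) (f := fun j l' => ‖⟪C.ρ (x (ν j + l * N) -
          x (ν j + l' * N)), mon v (monShift (M * ν j) (monShift (M * (l * N)) s +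
            boxConj (monShift (M * (l' * N)) s)))⟫_ℂ‖ ^ 2)]
      refine (Finset.sum_le_sum fun l _ => Finset.sum_le_sum fun l' _ =>
        (hν _ (Finset.mem_image.2 ⟨(s, l, l'), Finset.mem_product.2 ⟨hs, Finset.mem_univ _⟩, rfl⟩)
          _ (hx (l * N) (l' * N))).trans (mul_le_mul_of_nonneg_left
            (add_le_add_left (h1 l l') _) (Nat.cast_nonneg _))).trans ?_
      simp only [← Finset.mul_sum, Finset.sum_add_distrib, Finset.sum_ite_eq, Finset.mem_univ,
        if_true, Finset.sum_const, Finset.card_univ, Fintype.card_fin, nsmul_eq_mul]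
      refine mul_le_mul_of_nonneg_left ?_ (Nat.cast_nonneg _)
      have h4 : 4 < p * ε ^ 2 := (div_lt_iff₀ (by positivity)).1 hp
      have h5 := mul_nonneg (mul_nonneg hα0 hε.le) (sq_nonneg (p : ℝ))
      have h6 := mul_lt_mul_of_pos_left h4 hp0
      nlinarith
    rw [Fintype.sum_prod_type, Fintype.card_prod, Fintype.card_fin, Nat.cast_mul, mul_assoc]
    refine le_of_sq_le_sq (sq_sum_le_card_mul_sum_sq.trans ?_) (by positivity)
    rw [Finset.card_univ, mul_pow, sq (Fintype.card J : ℝ), mul_assoc]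
    exact mul_le_mul_of_nonneg_left h2 (Nat.cast_nonneg _)

theorem box_small {H : Type*} [AddCommGroup H] (C : CharSys μ H) {k : ℕ} (v : Fin k → ℕ → LB μ)
    (hb : ∀ i j, Bd (v i j) 1) (hinv : ∀ s m, E μ (mon v (monShift m s)) = E μ (mon v s))
    (hmix : ∀ s t, Tendsto (fun m => E μ (mon v s * mon v (monShift m t))) atTop
      (𝓝 (E μ (mon v s) * E μ (mon v t)))) {M : ℕ} (hM : 0 < M) {e : ℕ} {i : Fin k}
    (h0 : E μ (v i 0) = 0) {x : ℕ → H} (hx : PolySeq e x) {δ : ℝ} (hδ : 0 < δ) :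
    ∃ j, ‖⟪C.ρ (x j), v i (M * j)⟫_ℂ‖ ≤ δ := by
  obtain ⟨J, _, _, ν, hν⟩ := box_aux C v hb hinv hmix hM e {{(i, 0, true)}} (δ ^ 2) (by positivity)
  have h1 := hν _ (Finset.mem_singleton_self _) x hx
  have h2 : ∀ m, mon v (monShift m {(i, 0, true)}) = v i m := fun m => by simp [mon, monShift]
  have h3 : mon v {(i, 0, true)} = v i 0 := by simp [mon]
  simp only [h2, h3, h0, norm_zero] at h1
  obtain ⟨j, -, hj⟩ := Finset.exists_le_of_sum_le (s := Finset.univ) (g := fun _ => δ ^ 2)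
    Finset.univ_nonempty (h1.trans (by simp))
  exact ⟨ν j, le_of_sq_le_sq hj hδ.le⟩

end Vale.Agent.P102
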