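import Vale.Agent.P102.ApiPull

/-! Groups of characters, Fourier expansions, queries, cubes (definitions and soft facts). -/

namespace Vale.Agent.P102
open MeasureTheory ProbabilityTheory Filter Topology
open scoped InnerProductSpace ComplexConjugate

variable {X : Type*} {m0 : MeasurableSpace X} {μ : Measure X}

/-- Characters for the triple `R, A, B`. -/
def Chr (μ : Measure X) (R A B : SA m0) : Set (LB μ) :=
  {χ | χ ∈ L μ R ∧ ∃ g ∈ L μ A, ∃ h ∈ L μ B,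
    g ∈ unitary (LB μ) ∧ h ∈ unitary (LB μ) ∧ χ = g * h}

/-- Monomials in a family and its conjugate. -/
def mon {R : Type*} [CommMonoid R] [Star R] {k : ℕ} (v : Fin k → ℕ → R)
    (s : Multiset (Fin k × ℕ × Bool)) : R :=
  (s.map fun p => if p.2.2 then v p.1 p.2.1 else star (v p.1 p.2.1)).prod

/-- Time shift of monomials. -/
def monShift {k : ℕ} (m : ℕ) (s : Multiset (Fin k × ℕ × Bool)) : Multiset (Fin k × ℕ × Bool) :=
  s.map fun p => (p.1, p.2.1 + m, p.2.2)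

/-- Queries: labels, thresholds, relations required to hold and relations required to fail. -/
abbrev Query (k : ℕ) : Type :=
  Σ n : ℕ, (Fin n → Fin k × ℕ) × (Fin n → {r : ℚ // 0 < r}) ×
    Finset ((Fin n → ℕ) × (Fin n → ℕ)) × Finset ((Fin n → ℕ) × (Fin n → ℕ))

/-- The time shifted query. -/
def Query.shift {k : ℕ} (q : Query k) : Query k :=
  ⟨q.1, fun l => ((q.2.1 l).1, (q.2.1 l).2 + 1), q.2.2⟩

variable [IsProbabilityMeasure μ]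

/-- A query is realised by characters in `K`. -/
def Qry {k : ℕ} (K : Set (LB μ)) (v : Fin k → ℕ → LB μ) (q : Query k) : Prop :=
  ∃ χ : Fin q.1 → LB μ, (∀ l, χ l ∈ K) ∧
    (∀ l, ((q.2.2.1 l : ℚ) : ℝ) < ‖⟪χ l, v (q.2.1 l).1 (q.2.1 l).2⟫_ℂ‖) ∧
    (∀ z ∈ q.2.2.2.1, ⟪∏ l, χ l ^ z.1 l, ∏ l, χ l ^ z.2 l⟫_ℂ ≠ 0) ∧
    ∀ z ∈ q.2.2.2.2, ⟪∏ l, χ l ^ z.1 l, ∏ l, χ l ^ z.2 l⟫_ℂ = 0

lemma qry_shift {k : ℕ} (K : Set (LB μ)) (v : Fin k → ℕ → LB μ) (q : Query k) :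
    Qry K v q.shift ↔ Qry K (fun i j => v i (j + 1)) q := Iff.rfl

/-- A group of unimodular functions satisfying the zero-one law. -/
structure IsCharSet (K : Set (LB μ)) : Prop where
  uni : ∀ χ ∈ K, χ ∈ unitary (LB μ)
  one_mem : (1 : LB μ) ∈ K
  mul_mem : ∀ χ ∈ K, ∀ χ' ∈ K, χ * χ' ∈ K
  star_mem : ∀ χ ∈ K, star χ ∈ K
  zero_one : ∀ χ ∈ K, E μ χ = 0 ∨ ‖E μ χ‖ = 1

lemma isCharSet_Chr {R A B : SA m0} (hRA : Ind μ R A) (hRB : Ind μ R B) (hAB : Ind μ A B) :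
    IsCharSet (Chr μ R A B) := by
  refine ⟨?_, ⟨one_mem _, 1, one_mem _, 1, one_mem _, one_mem _, one_mem _, (mul_one _).symm⟩,
    ?_, ?_, ?_⟩
  · rintro _ ⟨-, g, -, h, -, ug, uh, rfl⟩
    exact mul_mem ug uh
  · rintro _ ⟨h1, g, hg, h, hh, ug, uh, rfl⟩ _ ⟨h2, g', hg', h', hh', ug', uh', rfl⟩
    exact ⟨mul_mem h1 h2, g * g', mul_mem hg hg', h * h', mul_mem hh hh', mul_mem ug ug',
      mul_mem uh uh', by ring⟩
  · rintro _ ⟨h1, g, hg, h, hh, ug, uh, rfl⟩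
    exact ⟨star_mem h1, star g, star_mem hg, star h, star_mem hh, Unitary.star_mem ug,
      Unitary.star_mem uh, star_mul' _ _⟩
  · rintro _ ⟨h1, g, hg, h, hh, ug, uh, rfl⟩
    exact zero_one hRA hRB hAB hg hh h1 ug uh

lemma IsCharSet.of_subset {K K' : Set (LB μ)} (h : IsCharSet K) (hs : K' ⊆ K)
    (h1 : (1 : LB μ) ∈ K') (hm : ∀ χ ∈ K', ∀ χ' ∈ K', χ * χ' ∈ K') (hst : ∀ χ ∈ K', star χ ∈ K') :
    IsCharSet K' :=
  ⟨fun χ hχ => h.uni χ (hs hχ), h1, hm, hst, fun χ hχ => h.zero_one χ (hs hχ)⟩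

lemma IsCharSet.prod_pow_mem {K : Set (LB μ)} (h : IsCharSet K) {ι : Type*} (J : Finset ι)
    (χ : ι → LB μ) (hχ : ∀ l, χ l ∈ K) (z : ι → ℕ) : ∏ l ∈ J, χ l ^ z l ∈ K := by
  classical
  have hp : ∀ l n, χ l ^ n ∈ K := fun l n => by
    induction n with
    | zero => rw [pow_zero]; exact h.one_mem
    | succ n ih => rw [pow_succ]; exact h.mul_mem _ ih _ (hχ l)
  exact Finset.prod_induction _ (· ∈ K) (fun a b ha hb => h.mul_mem a ha b hb) h.one_mem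
    fun l _ => hp l _

/-- Two characters are orthogonal or proportional. -/
lemma IsCharSet.prop {K : Set (LB μ)} (h : IsCharSet K) {χ χ' : LB μ} (hχ : χ ∈ K)
    (hχ' : χ' ∈ K) (hne : ⟪χ, χ'⟫_ℂ ≠ 0) : ∃ c : ℂ, ‖c‖ = 1 ∧ χ' = c • χ := by
  have h1 := h.mul_mem _ (h.star_mem χ hχ) _ hχ'
  have h2 := (h.zero_one _ h1).resolve_left hne
  refine ⟨_, h2, ?_⟩
  rw [Algebra.smul_def, ← unitary_eq_const (h.uni _ h1) h2, mul_right_comm,
    mem_unitary_iff.1 (h.uni χ hχ), one_mul]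

lemma IsCharSet.norm_inner {K : Set (LB μ)} (h : IsCharSet K) {χ χ' : LB μ} (hχ : χ ∈ K)
    (hχ' : χ' ∈ K) : ⟪χ, χ'⟫_ℂ = 0 ∨ ‖⟪χ, χ'⟫_ℂ‖ = 1 := by
  exact h.zero_one _ (h.mul_mem _ (h.star_mem χ hχ) _ hχ')

lemma chars_inner_self {χ : LB μ} (h : χ ∈ unitary (LB μ)) : ⟪χ, χ⟫_ℂ = 1 := by
  rw [inner_def, mem_unitary_iff.1 h, E_one]

lemma chars_inner_rem {s : Finset (LB μ)} (hu : ∀ χ ∈ s, χ ∈ unitary (LB μ))
    (ho : ∀ χ ∈ s, ∀ χ' ∈ s, χ ≠ χ' → ⟪χ, χ'⟫_ℂ = 0) (x : LB μ) {χ : LB μ} (hχ : χ ∈ s) :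
    ⟪χ, x - ∑ χ' ∈ s, ⟪χ', x⟫_ℂ • χ'⟫_ℂ = 0 := by
  rw [inner_sub_right, inner_sum, Finset.sum_eq_single_of_mem χ hχ fun χ' h1 h2 => by
    rw [inner_smul_right, ho χ hχ χ' h1 h2.symm, mul_zero]]
  rw [inner_smul_right, chars_inner_self (hu χ hχ), mul_one, sub_self]

lemma chars_card_le {s : Finset (LB μ)} (hu : ∀ χ ∈ s, χ ∈ unitary (LB μ))
    (ho : ∀ χ ∈ s, ∀ χ' ∈ s, χ ≠ χ' → ⟪χ, χ'⟫_ℂ = 0) (x : LB μ) {δ : ℝ} (hδ : 0 < δ)
    (hx : ∀ χ ∈ s, δ < ‖⟪χ, x⟫_ℂ‖) : (s.card : ℝ) ≤ ‖x‖ ^ 2 / δ ^ 2 := by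
  have hon : Orthonormal ℂ (fun χ : s => (χ : LB μ)) :=
    ⟨fun χ => norm_unitary (hu _ χ.2), fun χ χ' hne => ho _ χ.2 _ χ'.2 fun e => hne (Subtype.ext e)⟩
  have h1 := hon.sum_inner_products_le (s := Finset.univ) x
  rw [le_div_iff₀ (by positivity)]
  refine le_trans ?_ h1
  have h2 := Finset.card_nsmul_le_sum (Finset.univ : Finset s)
    (fun χ => ‖⟪(χ : LB μ), x⟫_ℂ‖ ^ 2) (δ ^ 2)
    fun χ _ => pow_le_pow_left₀ hδ.le (hx _ χ.2).le 2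
  simpa using h2

/-- A maximal orthonormal family of characters with large coefficient. -/
lemma IsCharSet.exists_maxfam {K : Set (LB μ)} (h : IsCharSet K) (x : LB μ) {δ : ℝ}
    (hδ : 0 < δ) : ∃ s : Finset (LB μ), (∀ χ ∈ s, χ ∈ K) ∧
      (∀ χ ∈ s, ∀ χ' ∈ s, χ ≠ χ' → ⟪χ, χ'⟫_ℂ = 0) ∧
      ∀ χ ∈ K, ‖⟪χ, x - ∑ χ' ∈ s, ⟪χ', x⟫_ℂ • χ'⟫_ℂ‖ ≤ δ := by
  classical
  let P : Finset (LB μ) → Prop := fun s => (∀ χ ∈ s, χ ∈ K) ∧
    (∀ χ ∈ s, ∀ χ' ∈ s, χ ≠ χ' → ⟪χ, χ'⟫_ℂ = 0) ∧ ∀ χ ∈ s, δ < ‖⟪χ, x⟫_ℂ‖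
  have hb : BddAbove {n | ∃ s, P s ∧ s.card = n} := by
    refine ⟨⌈‖x‖ ^ 2 / δ ^ 2⌉₊, ?_⟩
    rintro _ ⟨s, hs, rfl⟩
    have := (chars_card_le (fun χ hχ => h.uni χ (hs.1 χ hχ)) hs.2.1 x hδ hs.2.2).trans
      (Nat.le_ceil _)
    exact_mod_cast this
  obtain ⟨s, hs, hc⟩ := Nat.sSup_mem (s := {n | ∃ s, P s ∧ s.card = n}) ⟨0, ∅, by simp [P], rfl⟩ hb
  refine ⟨s, hs.1, hs.2.1, fun χ hχ => ?_⟩
  by_cases h1 : ∃ χ' ∈ s, ⟪χ', χ⟫_ℂ ≠ 0
  · obtain ⟨χ', h2, h3⟩ := h1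
    obtain ⟨c, -, rfl⟩ := h.prop (hs.1 χ' h2) hχ h3
    rw [inner_smul_left, chars_inner_rem (fun χ hχ => h.uni χ (hs.1 χ hχ)) hs.2.1 x h2, mul_zero,
      norm_zero]
    exact hδ.le
  · push Not at h1
    have h2 : ∀ χ' ∈ s, ⟪χ, χ'⟫_ℂ = 0 := fun χ' h' => inner_eq_zero_symm.1 (h1 χ' h')
    rw [inner_sub_right, inner_sum, Finset.sum_eq_zero fun χ' h' => by
      rw [inner_smul_right, h2 χ' h', mul_zero], sub_zero]
    by_contra h3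
    have h4 : χ ∉ s := fun h' => by
      have := h2 χ h'
      rw [chars_inner_self (h.uni χ hχ)] at this
      exact one_ne_zero this
    have h5 : P (insert χ s) := by
      refine ⟨fun a ha => ?_, fun a ha b hb hab => ?_, fun a ha => ?_⟩
      · rcases Finset.mem_insert.1 ha with rfl | ha
        exacts [hχ, hs.1 a ha]
      · rcases Finset.mem_insert.1 ha with rfl | ha1
        · exact h2 b ((Finset.mem_insert.1 hb).resolve_left hab.symm)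
        · rcases Finset.mem_insert.1 hb with rfl | hb1
          exacts [h1 a ha1, hs.2.1 a ha1 b hb1 hab]
      · rcases Finset.mem_insert.1 ha with rfl | ha
        exacts [not_le.1 h3, hs.2.2 a ha]
    have h6 := le_csSup hb ⟨_, h5, rfl⟩
    rw [Finset.card_insert_of_notMem h4, ← hc] at h6
    omega

/-- Fourier completeness from a bound on test functions. -/
lemma IsCharSet.mem_closure_span {K : Set (LB μ)} (h : IsCharSet K) (Z : Submodule ℂ (LB μ))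
    (hKZ : K ⊆ Z) {a b : SA m0} (hZ : ∀ F ∈ Z, F ∈ L μ (a ⊔ b))
    (hb : ∀ F ∈ Z, ∀ δ : ℝ, 0 ≤ δ → (∀ χ ∈ K, ‖⟪χ, F⟫_ℂ‖ ≤ δ) → ∀ x ∈ L μ a, ∀ y ∈ L μ b,
      ‖E μ (F * (x * y))‖ ≤ δ * ‖x‖ * ‖y‖) {F : LB μ} (hF : F ∈ Z) :
    F ∈ closure (Submodule.span ℂ K : Set (LB μ)) := by
  refine Metric.mem_closure_iff.2 fun ε hε => ?_
  obtain ⟨n, a', b', ha, hb', ht⟩ := exists_sum_approx a b (StarMemClass.star_mem (hZ F hF))
    (show 0 < ε / 3 by positivity)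
  set C := ∑ i, ‖a' i‖ * ‖b' i‖ with hC
  have hC0 : 0 ≤ C := Finset.sum_nonneg fun i _ => by positivity
  obtain ⟨s, hs, ho, hr⟩ := h.exists_maxfam F (show 0 < (ε / 3) ^ 2 / (C + 1) from
    div_pos (by positivity) (by linarith))
  have hsum : ∑ χ' ∈ s, ⟪χ', F⟫_ℂ • χ' ∈ Submodule.span ℂ K :=
    Submodule.sum_mem _ fun χ hχ => Submodule.smul_mem _ _ (Submodule.subset_span (hs χ hχ))
  refine ⟨_, hsum, ?_⟩
  rw [dist_eq_norm]
  have h0 := fun χ hχ => chars_inner_rem (fun χ hχ => h.uni χ (hs χ hχ)) ho F (χ := χ) hχ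
  set r := F - ∑ χ' ∈ s, ⟪χ', F⟫_ℂ • χ' with hr'
  have hrZ : r ∈ Z := Z.sub_mem hF ((Submodule.span_le.2 hKZ) hsum)
  have h1 : ⟪r, r⟫_ℂ = ⟪F, r⟫_ℂ := by
    conv_lhs => enter [2]; rw [hr']
    rw [inner_sub_left, sum_inner, Finset.sum_eq_zero fun χ hχ => by
      rw [inner_smul_left, h0 χ hχ, mul_zero], sub_zero]
  have h2 : ⟪F, r⟫_ℂ = E μ ((star F - ∑ i, a' i * b' i) * r) + ∑ i, E μ (r * (a' i * b' i)) := by
    rw [inner_def, ← map_sum, ← map_add, ← Finset.mul_sum]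
    exact congrArg _ (by ring)
  have h3 : ‖r‖ ^ 2 ≤ ε / 3 * ‖r‖ + (ε / 3) ^ 2 / (C + 1) * C := by
    have h4 : ‖r‖ ^ 2 = ‖⟪r, r⟫_ℂ‖ := by
      rw [inner_self_eq_norm_sq_to_K]
      simp
    rw [h4, h1, h2]
    refine (norm_add_le _ _).trans (add_le_add ((norm_E_mul_le _ _).trans
      (mul_le_mul_of_nonneg_right ht.le (norm_nonneg _))) ((norm_sum_le _ _).trans ?_))
    rw [hC, Finset.mul_sum]
    refine Finset.sum_le_sum fun i _ => ?_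
    rw [← mul_assoc ((ε / 3) ^ 2 / _)]
    exact hb r hrZ _ (by positivity) hr _ (ha i) _ (hb' i)
  have h5 : (ε / 3) ^ 2 / (C + 1) * C ≤ (ε / 3) ^ 2 := by
    rw [div_mul_eq_mul_div, div_le_iff₀ (by positivity)]
    nlinarith [sq_nonneg (ε / 3)]
  by_contra h6
  have h7 := not_lt.1 h6
  nlinarith

lemma chars_inner_prod_smul {ι : Type*} [Fintype ι] (χ : ι → LB μ) (c : ι → ℂ)
    (hc : ∀ l, ‖c l‖ = 1) (z z' : ι → ℕ) :
    ⟪∏ l, (c l • χ l) ^ z l, ∏ l, (c l • χ l) ^ z' l⟫_ℂ = 0 ↔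
      ⟪∏ l, χ l ^ z l, ∏ l, χ l ^ z' l⟫_ℂ = 0 := by
  have h0 : ∀ z : ι → ℕ, ∏ l, c l ^ z l ≠ 0 := fun z => Finset.prod_ne_zero_iff.2 fun l _ =>
    pow_ne_zero _ (norm_ne_zero_iff.1 (by rw [hc l]; exact one_ne_zero))
  simp only [smul_pow, Finset.prod_smul]
  rw [inner_smul_left, inner_smul_right, mul_eq_zero, mul_eq_zero, map_eq_zero,
    or_iff_right (h0 z), or_iff_right (h0 z')]

lemma chars_norm_inner_smul (χ x : LB μ) {c : ℂ} (hc : ‖c‖ = 1) :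
    ‖⟪c • χ, x⟫_ℂ‖ = ‖⟪χ, x⟫_ℂ‖ := by
  rw [inner_smul_left, norm_mul, RCLike.norm_conj, hc, one_mul]

/-- Queries only see the characters of the spectrum. -/
lemma qry_of_inter {k : ℕ} {K K' : Set (LB μ)} (h : IsCharSet K) {v : Fin k → ℕ → LB μ}
    (hv : ∀ i j, v i j ∈ closure (Submodule.span ℂ (K ∩ K') : Set (LB μ))) (q : Query k)
    (hq : Qry K v q) : Qry K' v q := by
  obtain ⟨χ, h1, h2, h3, h4⟩ := hq
  have key : ∀ l, ∃ c : ℂ, ‖c‖ = 1 ∧ c • χ l ∈ K' := by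
    intro l
    by_contra hc
    have h5 : K ∩ K' ⊆ LinearMap.ker (innerSL ℂ (χ l)).toLinearMap := fun χ' hχ' => by
      by_contra h6
      obtain ⟨c, h7, rfl⟩ := h.prop (h1 l) hχ'.1 h6
      exact hc ⟨c, h7, hχ'.2⟩
    have h6 : ⟪χ l, v (q.2.1 l).1 (q.2.1 l).2⟫_ℂ = 0 :=
      closure_minimal (Submodule.span_le.2 h5) (innerSL ℂ (χ l)).isClosed_ker (hv _ _)
    have h7 := h2 l
    rw [h6, norm_zero] at h7
    have h8 : (0 : ℝ) < ((q.2.2.1 l : ℚ) : ℝ) := by exact_mod_cast (q.2.2.1 l).2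
    exact absurd h7 h8.not_gt
  choose c hc hK using key
  refine ⟨fun l => c l • χ l, hK, fun l => ?_, fun z hz => ?_, fun z hz => ?_⟩
  · rw [chars_norm_inner_smul _ _ (hc l)]
    exact h2 l
  · exact fun h5 => h3 z hz ((chars_inner_prod_smul χ c hc _ _).1 h5)
  · exact (chars_inner_prod_smul χ c hc _ _).2 (h4 z hz)

/-- Transport of queries along measure preserving maps. -/
lemma qry_pull {k : ℕ} {Y : Type*} {m1 : MeasurableSpace Y} {ν : Measure Y}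
    [IsProbabilityMeasure ν] {φ : X → Y} (h : MeasurePreserving φ μ ν) {R A B : SA m1}
    {R' A' B' : SA m0} (hR : R.1.comap φ ≤ R'.1) (hA : A.1.comap φ ≤ A'.1)
    (hB : B.1.comap φ ≤ B'.1) (v : Fin k → ℕ → LB ν) (q : Query k)
    (hq : Qry (Chr ν R A B) v q) : Qry (Chr μ R' A' B') (fun i j => pull h (v i j)) q := by
  obtain ⟨χ, h1, h2, h3, h4⟩ := hq
  have hp : ∀ z : Fin q.1 → ℕ, ∏ l, pull h (χ l) ^ z l = pull h (∏ l, χ l ^ z l) := fun z => by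
    simp only [map_prod, map_pow]
  refine ⟨fun l => pull h (χ l), fun l => ?_, fun l => ?_, fun z hz => ?_, fun z hz => ?_⟩
  · obtain ⟨h5, g, hg, g', hg', ug, ug', h6⟩ := h1 l
    exact ⟨pull_mem_L h hR h5, _, pull_mem_L h hA hg, _, pull_mem_L h hB hg',
      pull_mem_unitary h ug, pull_mem_unitary h ug', by rw [← map_mul, ← h6]⟩
  · rw [inner_pull]
    exact h2 l
  · rw [hp, hp, inner_pull]
    exact h3 z hz
  · rw [hp, hp, inner_pull]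
    exact h4 z hz

/-- Data of a cube. -/
structure CubeData (m0 : MeasurableSpace X) where
  /-- row zero -/
  R : Fin 3 → SA m0
  /-- row one -/
  A : Fin 3 → SA m0
  /-- the other rows -/
  B : Fin 3 → SA m0
  /-- the cells -/
  C : (Fin 3 → Option Bool) → SA m0

/-- The inclusions between the cells. -/
structure CubeLe (μ : Measure X) (D : CubeData m0) : Prop where
  leR : ∀ w a, w a = none → L μ (D.C w) ≤ L μ (D.R a)
  leA : ∀ w a, w a = some true → L μ (D.C w) ≤ L μ (D.A a)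
  leB : ∀ w a, w a = some false → L μ (D.C w) ≤ L μ (D.B a)
  split : ∀ w a, w a = none → L μ (D.C w) ≤
    L μ (D.C (Function.update w a (some true)) ⊔ D.C (Function.update w a (some false)))

/-- A cube. -/
structure IsCube (μ : Measure X) [IsProbabilityMeasure μ] (D : CubeData m0) : Prop where
  le : CubeLe μ D
  iRA : ∀ a, Ind μ (D.R a) (D.A a)
  iRB : ∀ a, Ind μ (D.R a) (D.B a)
  iAB : ∀ a, Ind μ (D.A a) (D.B a)

end Vale.Agent.P102
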