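import Vale.Agent.P102.Univ
import Vale.Agent.P102.Chars

/-! The cells of the array space. -/

namespace Vale.Agent.P102
open MeasureTheory ProbabilityTheory Filter Topology Set
open scoped InnerProductSpace ComplexConjugate

variable {n : ℕ}

namespace Arr

variable (A : Arr (n + 3))

lemma goodAt_RR {q Q : ℚ} (hq : Free (n + 3) q) (hQ : Q ≠ q) (K : Finset (Fin (n + 3))) :
    GoodAt A.P (FF (RR q {1})) (FF (RR q (J2 n))) (FF (RR Q K)) :=
  ⟨fun _ hx => A.PE_mem_row hq hQ K 1 hx,
    fun _ hx => A.PE_mem_rows hq hQ K (e := 0) (by simp [J2]) hx,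
    A.cind_rows hq hQ K (e := 0) (by simp) (by simp [J2]) (by simp [J2])⟩

lemma cind_RA {q : ℚ} (hq : Free (n + 3) q) :
    CInd A.P (FF (DN (n + 3))) (FF (RR q {0})) (FF (RR q {1})) := by
  rw [← RR_empty (q + 1)]
  exact A.cind_rows hq (by simp) ∅ (e := ⟨2, by omega⟩) (by simp [Fin.ext_iff]) (by simp)
    (by simp [Fin.ext_iff])

lemma cind_RB {q : ℚ} (hq : Free (n + 3) q) :
    CInd A.P (FF (DN (n + 3))) (FF (RR q {0})) (FF (RR q (J2 n))) := by
  rw [← RR_empty (q + 1)]
  exact A.cind_rows hq (by simp) ∅ (e := 1) (by simp) (by simp [J2]) (by simp [J2])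

lemma cind_AB {q : ℚ} (hq : Free (n + 3) q) :
    CInd A.P (FF (DN (n + 3))) (FF (RR q {1})) (FF (RR q (J2 n))) := by
  rw [← RR_empty (q + 1)]
  exact A.cind_rows hq (by simp) ∅ (e := 0) (by simp) (by simp [J2]) (by simp [J2])

/-- The two sets of rows attached to a state of a direction. -/
def cellsFam (n : ℕ) : Option Bool → Bool → Finset (Fin (n + 3))
  | none, true => {0}
  | none, false => J1 n
  | some true, _ => {1}
  | some false, _ => J2 n

lemma cells_J1 : J1 n = {1} ∪ J2 n := by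
  ext j
  simp only [J1, J2, Finset.mem_erase, Finset.mem_univ, and_true, Finset.mem_union,
    Finset.mem_singleton]
  constructor
  · intro h
    by_cases h1 : j = 1
    · exact Or.inl h1
    · exact Or.inr ⟨h1, h⟩
  · rintro (rfl | h)
    · simp
    · exact h.2

theorem exists_cells (Q : Fin 3 → ℚ) (hQ : Function.Injective Q) (hf : ∀ a, Free (n + 3) (Q a)) :
    ∃ C : (Fin 3 → Option Bool) → SA (inferInstance : MeasurableSpace (Om (n + 3))),
      (∀ w, @MeasurableSpace.CountablyGenerated _ (C w).1) ∧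
      CubeLe A.P ⟨fun a => FF (RR (Q a) {0}), fun a => FF (RR (Q a) {1}),
        fun a => FF (RR (Q a) (J2 n)), C⟩ ∧
      ∀ x, (∀ a, x ∈ A.LL (RR (Q a) {0}) ∧ x ∈ A.LL (RR (Q a) (J1 n))) →
        x ∈ L A.P (C fun _ => none) := by
  choose C hC1 hC2 using fun w : Fin 3 → Option Bool => exists_cg_iInf (μ := A.P)
    (fun p : Fin 3 × Bool => FF (RR (Q p.1) (cellsFam n (w p.1) p.2)))
  refine ⟨C, hC1, ⟨fun w a h x hx => ?_, fun w a h x hx => ?_, fun w a h x hx => ?_,
    fun w a h x hx => ?_⟩, fun x hx => (hC2 _ _).2 fun p => ?_⟩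
  · have := (hC2 _ _).1 hx (a, true)
    rwa [h] at this
  · have := (hC2 _ _).1 hx (a, true)
    rwa [h] at this
  · have := (hC2 _ _).1 hx (a, true)
    rwa [h] at this
  · obtain ⟨V, -, hV⟩ := exists_cg_iInf (μ := A.P)
      (fun p : {b : Fin 3 // b ≠ a} × Bool => FF (RR (Q p.1) (cellsFam n (w p.1) p.2)))
    have : Nonempty {b : Fin 3 // b ≠ a} := ⟨⟨a + 1, by simp⟩⟩
    have hG := GoodAt.iInf (fun p : {b : Fin 3 // b ≠ a} × Bool =>
      A.goodAt_RR (hf a) (hQ.ne p.1.2) (cellsFam n (w p.1) p.2)) hV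
    have key : ∀ (c : Bool) (y : LB A.P), y ∈ A.LL (RR (Q a) (cellsFam n (some c) true)) →
        y ∈ L A.P V → y ∈ L A.P (C (Function.update w a (some c))) := fun c y hy hyV =>
      (hC2 _ _).2 fun p => by
        by_cases hp : p.1 = a
        · rw [hp, Function.update_self]
          cases c <;> exact hy
        · rw [Function.update_of_ne hp]
          exact (hV y).1 hyV (⟨p.1, hp⟩, p.2)
    refine hG.split (key true) (key false) ?_ ((hV x).2 fun p => (hC2 _ _).1 hx (p.1, p.2))
    have := (hC2 _ _).1 hx (a, false)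
    rw [h] at this
    rw [← FF_union, ← RR_union, ← cells_J1]
    exact this
  · obtain ⟨a, b⟩ := p
    cases b
    · exact (hx a).2
    · exact (hx a).1

end Arr

end Vale.Agent.P102
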