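import Vale.Agent.P102.ThmS
import Vale.Agent.P102.Chars

/-! Fourier expansion of the functions of the central cell of a cube. -/

namespace Vale.Agent.P102
open MeasureTheory ProbabilityTheory Filter Topology
open scoped InnerProductSpace ComplexConjugate

variable {X : Type*} {m0 : MeasurableSpace X} {μ : Measure X} [IsProbabilityMeasure μ]

/-- The square of a cube with centre `w` in the free directions `a ≠ b`. -/
lemma IsCube.exists_sq {D : CubeData m0} (h : IsCube μ D) (w : Fin 3 → Option Bool) {a b : Fin 3}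
    (hab : a ≠ b) (ha : w a = none) (hb : w b = none) :
    ∃ S : Sq μ, (∀ x ∈ L μ (D.C w), S.Z x) ∧
      S.S12 = D.C (Function.update w a (some true)) ∧
      S.S34 = D.C (Function.update w a (some false)) ∧
      S.S13 = D.C (Function.update w b (some true)) ∧
      S.S24 = D.C (Function.update w b (some false)) ∧
      S.U1 = D.C (Function.update (Function.update w a (some true)) b (some true)) ∧
      S.U2 = D.C (Function.update (Function.update w a (some true)) b (some false)) ∧
      S.U3 = D.C (Function.update (Function.update w a (some false)) b (some true)) ∧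
      S.U4 = D.C (Function.update (Function.update w a (some false)) b (some false)) := by
  have hA : ∀ (v : Fin 3 → Option Bool) c, v c = some true → L μ (D.C v) ≤ L μ (D.A c) :=
    h.le.leA
  have hB : ∀ (v : Fin 3 → Option Bool) c, v c = some false → L μ (D.C v) ≤ L μ (D.B c) :=
    h.le.leB
  have hR : ∀ (v : Fin 3 → Option Bool) c, v c = none → L μ (D.C v) ≤ L μ (D.R c) := h.le.leR
  have cm : ∀ x y, Function.update (Function.update w b x) a y =
      Function.update (Function.update w a y) b x := fun x y => Function.update_comm hab.symm _ _ _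
  have e1 : ∀ x, Function.update w a x b = none := fun x => by
    rw [Function.update_of_ne hab.symm, hb]
  have e2 : ∀ x, Function.update w b x a = none := fun x => by rw [Function.update_of_ne hab, ha]
  have e3 : ∀ x y, Function.update (Function.update w a x) b y a = x := fun x y => by
    rw [Function.update_of_ne hab, Function.update_self]
  have e4 : ∀ x y, Function.update (Function.update w a x) b y b = y := fun x y =>
    Function.update_self _ _ _
  refine ⟨
    { U1 := D.C (Function.update (Function.update w a (some true)) b (some true))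
      U2 := D.C (Function.update (Function.update w a (some true)) b (some false))
      U3 := D.C (Function.update (Function.update w a (some false)) b (some true))
      U4 := D.C (Function.update (Function.update w a (some false)) b (some false))
      S12 := D.C (Function.update w a (some true))
      S34 := D.C (Function.update w a (some false))
      S13 := D.C (Function.update w b (some true))
      S24 := D.C (Function.update w b (some false))
      le12 := h.le.split _ b (e1 _)
      le34 := h.le.split _ b (e1 _)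
      le13 := by simpa only [cm] using h.le.split _ a (e2 (some true))
      le24 := by simpa only [cm] using h.le.split _ a (e2 (some false))
      indRow := (h.iAB a).mono (L_sup_le (hA _ _ (e3 _ _)) (hA _ _ (e3 _ _)))
        (L_sup_le (hB _ _ (e3 _ _)) (hB _ _ (e3 _ _)))
      indCol := (h.iAB b).mono (L_sup_le (hA _ _ (e4 _ _)) (hA _ _ (e4 _ _)))
        (L_sup_le (hB _ _ (e4 _ _)) (hB _ _ (e4 _ _)))
      i12a := (h.iRA b).mono (hR _ _ (e1 _)) (hA _ _ (e4 _ _))
      i12b := (h.iRB b).mono (hR _ _ (e1 _)) (hB _ _ (e4 _ _))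
      i34a := (h.iRA b).mono (hR _ _ (e1 _)) (hA _ _ (e4 _ _))
      i34b := (h.iRB b).mono (hR _ _ (e1 _)) (hB _ _ (e4 _ _))
      i13a := (h.iRA a).mono (hR _ _ (e2 _)) (hA _ _ (e3 _ _))
      i13b := (h.iRB a).mono (hR _ _ (e2 _)) (hB _ _ (e3 _ _))
      i24a := (h.iRA a).mono (hR _ _ (e2 _)) (hA _ _ (e3 _ _))
      i24b := (h.iRB a).mono (hR _ _ (e2 _)) (hB _ _ (e3 _ _)) },
    fun x hx => ⟨h.le.split w a ha hx, h.le.split w b hb hx⟩, rfl, rfl, rfl, rfl, rfl, rfl, rfl,
    rfl⟩

theorem IsCube.fourier {D : CubeData m0} (h : IsCube μ D) {x : LB μ}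
    (hx : x ∈ L μ (D.C fun _ => none)) :
    x ∈ closure (Submodule.span ℂ
      (Chr μ (D.R 0) (D.A 0) (D.B 0) ∩ Chr μ (D.R 1) (D.A 1) (D.B 1)) : Set (LB μ)) := by
  obtain ⟨S, hZ, s12, s34, s13, s24, u1, u2, u3, u4⟩ :=
    h.exists_sq (fun _ => none) (a := 0) (b := 1) (by decide) rfl rfl
  obtain ⟨S1, hZ1, t12, t34, -, -, v1, v2, -, -⟩ :=
    h.exists_sq (Function.update (fun _ => none) 0 (some true)) (a := 1) (b := 2) (by decide)
      rfl rfl
  obtain ⟨S2, hZ2, r12, r34, -, -, w1, w2, -, -⟩ :=
    h.exists_sq (Function.update (fun _ => none) 1 (some true)) (a := 0) (b := 2) (by decide)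
      rfl rfl
  have cm : ∀ x y : Option Bool, Function.update (Function.update (fun _ : Fin 3 => none) 1 x) 0 y =
      Function.update (Function.update (fun _ => none) 0 y) 1 x := fun x y =>
    Function.update_comm (by decide) _ _ _
  rw [cm] at r12 r34 w1 w2
  have hsub : S.Chr2 ⊆ Chr μ (D.R 0) (D.A 0) (D.B 0) ∩ Chr μ (D.R 1) (D.A 1) (D.B 1) := by
    rintro χ ⟨G, hG, H, hH, G', hG', H', hH', uG, uH, uG', uH', e, e'⟩
    rw [s12] at hG
    rw [s34] at hH
    rw [s13] at hG'
    rw [s24] at hH'
    exact ⟨⟨e' ▸ mul_mem (h.le.leR _ 0 rfl hG') (h.le.leR _ 0 rfl hH'), G, h.le.leA _ 0 rfl hG, H,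
      h.le.leB _ 0 rfl hH, uG, uH, e⟩, ⟨e ▸ mul_mem (h.le.leR _ 1 rfl hG) (h.le.leR _ 1 rfl hH),
      G', h.le.leA _ 1 rfl hG', H', h.le.leB _ 1 rfl hH', uG', uH', e'⟩⟩
  have hK : IsCharSet S.Chr2 := by
    refine (isCharSet_Chr (h.iRA 0) (h.iRB 0) (h.iAB 0)).of_subset
      (hsub.trans Set.inter_subset_left) ⟨1, one_mem _, 1, one_mem _, 1, one_mem _, 1, one_mem _,
        one_mem _, one_mem _, one_mem _, one_mem _, (mul_one _).symm, (mul_one _).symm⟩ ?_ ?_
    · rintro χ ⟨G, hG, H, hH, G', hG', H', hH', uG, uH, uG', uH', e, e'⟩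
        χ2 ⟨G2, hG2, H2, hH2, G2', hG2', H2', hH2', uG2, uH2, uG2', uH2', e2, e2'⟩
      exact ⟨_, mul_mem hG hG2, _, mul_mem hH hH2, _, mul_mem hG' hG2', _, mul_mem hH' hH2',
        mul_mem uG uG2, mul_mem uH uH2, mul_mem uG' uG2', mul_mem uH' uH2',
        by rw [e, e2]; ring, by rw [e', e2']; ring⟩
    · rintro χ ⟨G, hG, H, hH, G', hG', H', hH', uG, uH, uG', uH', e, e'⟩
      exact ⟨_, star_mem hG, _, star_mem hH, _, star_mem hG', _, star_mem hH',
        Unitary.star_mem uG, Unitary.star_mem uH, Unitary.star_mem uG', Unitary.star_mem uH',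
        by rw [e, star_mul, mul_comm], by rw [e', star_mul, mul_comm]⟩
  refine closure_mono (Submodule.span_mono hsub) (hK.mem_closure_span
    (LS μ (S.S12 ⊔ S.S34) ⊓ LS μ (S.S13 ⊔ S.S24)) ?_ (a := S.S12) (b := S.S34) (fun F hF => hF.1)
    (fun F hF δ hδ hb x hx y hy => S.thmS S1 S2 (t12.trans u1.symm) (t34.trans u2.symm)
      (s12 ▸ hZ1) (r12.trans u1.symm) (r34.trans u3.symm) (s13 ▸ hZ2) (w1.trans v1.symm)
      (w2.trans v2.symm) hF hδ hb hx hy) (hZ x hx))
  rintro χ ⟨G, hG, H, hH, G', hG', H', hH', -, -, -, -, e, e'⟩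
  exact ⟨e ▸ (L μ _).mul_mem (L_le_sup_left _ _ hG) (L_le_sup_right _ _ hH),
    e' ▸ (L μ _).mul_mem (L_le_sup_left _ _ hG') (L_le_sup_right _ _ hH')⟩

end Vale.Agent.P102
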