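import Mathlib

/-! Dense colourings of the rationals and order embeddings with prescribed behaviour. -/

namespace Vale.Agent.P102

/-- A colouring with dense colour classes, invariant under `x ↦ x + 1`. -/
lemma exists_col (C : Type*) [Finite C] [Nonempty C] :
    ∃ col : ℚ → C, (∀ c a b, a < b → ∃ x, a < x ∧ x < b ∧ col x = c) ∧
      ∀ x, col (x + 1) = col x := by
  obtain ⟨s, hs⟩ := exists_surjective_nat C
  refine ⟨fun x => s (Nat.log 2 x.den).unpair.1, fun c a b h => ?_,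
    fun x => by simp only [show (x + 1).den = x.den from Rat.add_natCast_den x 1]⟩
  obtain ⟨i, rfl⟩ := hs c
  obtain ⟨k, hk⟩ := pow_unbounded_of_one_lt (2 / (b - a)) (one_lt_two (α := ℚ))
  have h1 : 2 < (b - a) * 2 ^ i.pair k := by
    rw [div_lt_iff₀' (sub_pos.2 h)] at hk
    exact hk.trans_le (mul_le_mul_of_nonneg_left
      (pow_le_pow_right₀ one_le_two (Nat.right_le_pair i k)) (sub_pos.2 h).le)
  obtain ⟨m, hm⟩ : ∃ m, m = ⌊(a * 2 ^ i.pair k + 1) / 2⌋ := ⟨_, rfl⟩
  have h2 := hm ▸ Int.floor_le ((a * 2 ^ i.pair k + 1) / 2)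
  have h3 := hm ▸ Int.lt_floor_add_one ((a * 2 ^ i.pair k + 1) / 2)
  have h4 := Rat.den_div_eq_of_coprime (a := 2 * m + 1) (b := 2 ^ i.pair k) (by positivity) (by
    rw [Int.natAbs_pow]
    exact Nat.Coprime.pow_right _ (Nat.coprime_two_right.2 (Int.natAbs_odd.2 ⟨m, rfl⟩)))
  refine ⟨(2 * m + 1 : ℤ) / (2 ^ i.pair k : ℤ), ?_, ?_, ?_⟩
  · push_cast
    rw [lt_div_iff₀ (by positivity)]
    linarith
  · push_cast
    rw [div_lt_iff₀ (by positivity)]
    linarith
  · simp only [show (((2 * m + 1 : ℤ) : ℚ) / (2 ^ i.pair k : ℤ)).den = 2 ^ i.pair k by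
      exact_mod_cast h4, Nat.log_pow one_lt_two, Nat.unpair_pair]

lemma embed_step (S : Set ℚ) (hS : ∀ a c, a < c → ∃ y ∈ S, a < y ∧ y < c)
    {T : Finset ℚ} {f : ℚ → ℚ} (hf : StrictMonoOn f T) {b : ℚ} (hb : ∀ x ∈ T, f x < b) {x : ℚ}
    (hx : x ∉ T) : ∃ y ∈ S, y < b ∧
      StrictMonoOn (Function.update f x y) (insert x T : Finset ℚ) := by
  have h1 : ∀ u ∈ (T.filter (· < x)).image f, ∀ v ∈ insert b ((T.filter (x < ·)).image f),
      u < v := by
    simp only [Finset.mem_image, Finset.mem_filter, Finset.mem_insert]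
    rintro _ ⟨u, hu, rfl⟩ _ (rfl | ⟨v, hv, rfl⟩)
    exacts [hb u hu.1, hf hu.1 hv.1 (hu.2.trans hv.2)]
  obtain ⟨m, h2, h3⟩ := Order.exists_between_finsets _ _ h1
  obtain ⟨m', h4, h5⟩ := Order.exists_between_finsets {m} _ fun _ h => Finset.mem_singleton.1 h ▸ h3
  obtain ⟨y, hy, h6, h7⟩ := hS m m' (h4 m (by simp))
  simp only [Finset.mem_image, Finset.mem_filter, Finset.mem_insert, forall_eq_or_imp,
    forall_exists_index, and_imp] at h2 h5
  have hn : ∀ u ∈ T, Function.update f x y u = f u := fun u hu =>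
    Function.update_of_ne (fun e : u = x => hx (e ▸ hu)) _ _
  refine ⟨y, hy, h7.trans h5.1, fun u hu v hv huv => ?_⟩
  rcases Finset.mem_insert.1 hu with rfl | a <;> rcases Finset.mem_insert.1 hv with rfl | e
  · exact absurd huv (lt_irrefl _)
  · rw [Function.update_self, hn v e]
    exact h7.trans (h5.2 _ v e huv rfl)
  · rw [Function.update_self, hn u a]
    exact (h2 _ u a huv rfl).trans h6
  · rw [hn u a, hn v e]
    exact hf a e huv

/-- A finite increasing map extends to an order embedding with values in prescribed dense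
sets and below a prescribed bound. -/
lemma exists_orderEmb (S : ℚ → Set ℚ) (hS : ∀ x a c, a < c → ∃ y ∈ S x, a < y ∧ y < c)
    (F : Finset ℚ) (g : ℚ → ℚ) (hg : StrictMonoOn g F) (b : ℚ) (hb : ∀ x ∈ F, g x < b) :
    ∃ σ : ℚ ↪o ℚ, (∀ x ∈ F, σ x = g x) ∧ (∀ x, x ∉ F → σ x ∈ S x) ∧ ∀ x, σ x < b := by
  let A := {p : Finset ℚ × (ℚ → ℚ) // StrictMonoOn p.2 p.1 ∧ (∀ x ∈ p.1, p.2 x < b) ∧
    ∀ x ∈ p.1, x ∉ F → p.2 x ∈ S x}
  have step : ∀ (p : A) (x : ℚ), ∃ p' : A, x ∈ p'.1.1 ∧ ∀ y ∈ p.1.1, y ∈ p'.1.1 ∧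
      p'.1.2 y = p.1.2 y := by
    rintro ⟨⟨T, f⟩, h1, h2, h3⟩ x
    by_cases hx : x ∈ T
    · exact ⟨⟨(T, f), h1, h2, h3⟩, hx, fun y hy => ⟨hy, rfl⟩⟩
    obtain ⟨y, h4, h5, h6⟩ := embed_step (S x) (hS x) h1 h2 hx
    have hn : ∀ u ∈ T, Function.update f x y u = f u := fun u hu =>
      Function.update_of_ne (fun e : u = x => hx (e ▸ hu)) _ _
    refine ⟨⟨(insert x T, Function.update f x y), h6, fun u hu => ?_, fun u hu h => ?_⟩,
      Finset.mem_insert_self _ _, fun u hu => ⟨Finset.mem_insert_of_mem hu, hn u hu⟩⟩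
    · rcases Finset.mem_insert.1 hu with rfl | hu
      · simpa using h5
      · simpa only [hn u hu] using h2 u hu
    · rcases Finset.mem_insert.1 hu with rfl | hu
      · simpa using h4
      · simpa only [hn u hu] using h3 u hu h
  choose nx h1 h2 using step
  obtain ⟨e, he⟩ := exists_surjective_nat ℚ
  choose r hr using he
  obtain ⟨q, q0, qs⟩ : ∃ q : ℕ → A, (q 0).1 = (F, g) ∧ ∀ n, q (n + 1) = nx (q n) (e n) :=
    ⟨fun n => n.rec ⟨(F, g), hg, hb, fun x hx h => (h hx).elim⟩ fun n p => nx p (e n), rfl,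
      fun _ => rfl⟩
  have h3 : ∀ n m, n ≤ m → ∀ y ∈ (q n).1.1, y ∈ (q m).1.1 ∧ (q m).1.2 y = (q n).1.2 y := by
    intro n m h y hy
    induction h with
    | refl => exact ⟨hy, rfl⟩
    | step _ ih => rw [qs]; exact ⟨(h2 _ _ y ih.1).1, (h2 _ _ y ih.1).2.trans ih.2⟩
  have h4 : ∀ x, x ∈ (q (r x + 1)).1.1 := fun x => by rw [qs, hr]; exact h1 _ _
  refine ⟨OrderEmbedding.ofStrictMono (fun x => (q (r x + 1)).1.2 x) fun x y hxy => ?_,
    fun x hx => (h3 0 _ (Nat.zero_le _) x (by rwa [q0])).2.trans (by rw [q0]),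
    fun x hx => (q _).2.2.2 x (h4 x) hx, fun x => (q _).2.2.1 x (h4 x)⟩
  have a := h3 _ _ (le_max_left _ (r y + 1)) x (h4 x)
  have c := h3 _ _ (le_max_right (r x + 1) _) y (h4 y)
  exact a.2.symm.trans_lt (((q _).2.1 a.1 c.1 hxy).trans_eq c.2)

/-- Infinitely many points in the gap of a finite set `F` around `v`, and embeddings moving `v`
to them while fixing the rest of `F`. -/
lemma exists_copies (F : Finset ℚ) (v : ℚ) :
    ∃ (w : ℕ → ℚ) (σ : ℕ → ℚ ↪o ℚ), Function.Injective w ∧ (∀ n, w n ∉ F) ∧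
      (∀ n, σ n v = w n) ∧ ∀ n, ∀ x ∈ F, x ≠ v → σ n x = x := by
  obtain ⟨c, h1, h2⟩ := Order.exists_between_finsets {v} (F.filter (v < ·)) (by simp)
  simp only [Finset.mem_singleton, forall_eq, Finset.mem_filter, and_imp] at h1 h2
  obtain ⟨w, hw, h3⟩ : ∃ w : ℕ → ℚ, Function.Injective w ∧ ∀ n, w n ∈ Set.Ioo v c :=
    ⟨fun n => (Set.Ioo_infinite h1).natEmbedding _ n, Subtype.val_injective.comp
      ((Set.Ioo_infinite h1).natEmbedding _).injective, fun n => Subtype.prop _⟩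
  have : ∀ n, ∃ σ : ℚ ↪o ℚ, ∀ x ∈ insert v F, σ x = Function.update id v (w n) x := fun n => by
    obtain ⟨b, hb, -⟩ := Order.exists_between_finsets
      ((insert v F).image (Function.update id v (w n))) ∅ (by simp)
    refine (exists_orderEmb (fun _ => Set.univ) (fun _ a c h => by simpa using exists_between h)
      (insert v F) _ (fun x hx y hy h => ?_) b fun x hx =>
        hb _ (Finset.mem_image_of_mem _ hx)).imp fun _ h => h.1
    rcases eq_or_ne x v with rfl | a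
    · rw [Function.update_self, Function.update_of_ne h.ne']
      exact (h3 n).2.trans (h2 y ((Finset.mem_insert.1 hy).resolve_left h.ne') h)
    rcases eq_or_ne y v with rfl | e
    · rw [Function.update_self, Function.update_of_ne a]
      exact h.trans (h3 n).1
    · rwa [Function.update_of_ne a, Function.update_of_ne e]
  choose σ hσ using this
  exact ⟨w, σ, hw, fun n h => (h2 _ h (h3 n).1).asymm (h3 n).2, fun n => by simp [hσ],
    fun n x hx h => by simp [hσ n x (Finset.mem_insert_of_mem hx), h]⟩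

end Vale.Agent.P102
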