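import Vale.Agent.P102.ApiPull
import Vale.Agent.P102.Embed

/-! The array space. -/

namespace Vale.Agent.P102
open MeasureTheory ProbabilityTheory Filter Topology Set
open scoped InnerProductSpace ComplexConjugate

/-- Digits. -/
abbrev Dig (k : ℕ) : Type := Fin k → ℤ

/-- Positions: an ordinary time and one digit for every scale. -/
abbrev Gam (k : ℕ) : Type := ℤ × (ℚ →₀ Dig k)

/-- Configurations. -/
abbrev Om (k : ℕ) : Type := Gam k → Fin k → Bool

variable {k : ℕ}

/-- Basis digits. -/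
def ee (i : Fin k) : Dig k := Pi.single i 1

/-- The position with the single digit `δ` at scale `q`. -/
noncomputable def sg (q : ℚ) (δ : Dig k) : Gam k := (0, Finsupp.single q δ)

/-- The position with ordinary time `m`. -/
def tm (m : ℤ) : Gam k := (m, 0)

/-- Action of an order embedding of scales on positions. -/
noncomputable def gmap (σ : ℚ ↪o ℚ) (γ : Gam k) : Gam k :=
  (γ.1, Finsupp.embDomain σ.toEmbedding γ.2)

/-- Freezing the scale `q` at the value `n`. -/
noncomputable def gfrz (d : Fin k → ℕ → ℤ) (q : ℚ) (n : ℕ) (γ : Gam k) : Gam k :=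
  (γ.1 + ∑ i, γ.2 q i * d i n, γ.2.erase q)

/-- Map on configurations induced by a map on positions. -/
def pl (ρ : Gam k → Gam k) (ω : Om k) : Om k := fun γ => ω (ρ γ)

lemma measurable_pl (ρ : Gam k → Gam k) : Measurable (pl ρ) :=
  measurable_pi_lambda _ fun γ => measurable_pi_apply (ρ γ)

/-- The sigma-algebra generated by the coordinates in `Δ`. -/
def FF (Δ : Set (Gam k)) : SA (inferInstance : MeasurableSpace (Om k)) :=
  ⟨cylinderEvents Δ, cylinderEvents_le_pi⟩

/-- Positions all of whose scales lie in `S`. -/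
def lev (S : Set ℚ) : Set (Gam k) := {γ | ∀ s, γ.2 s ≠ 0 → s ∈ S}

/-- Positions with digit `δ` at scale `q`. -/
def Row (q : ℚ) (δ : Dig k) : Set (Gam k) := {γ | γ.2 q = δ}

/-- The colouring of the scales. -/
noncomputable def col (k : ℕ) : ℚ → Option (Fin k × Fin k) :=
  (exists_col (Option (Fin k × Fin k))).choose

lemma col_dense (c : Option (Fin k × Fin k)) {a b : ℚ} (h : a < b) :
    ∃ x, a < x ∧ x < b ∧ col k x = c :=
  (exists_col (Option (Fin k × Fin k))).choose_spec.1 c a b h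

lemma col_add_one (x : ℚ) : col k (x + 1) = col k x :=
  (exists_col (Option (Fin k × Fin k))).choose_spec.2 x

/-- Free scales. -/
def Free (k : ℕ) (q : ℚ) : Prop := col k q = none

/-- The noise positions. -/
def DN (k : ℕ) : Set (Gam k) :=
  {γ | ∃ s i e j, col k s = some (i, e) ∧ i ≠ e ∧ j ≠ i ∧ j ≠ e ∧ γ.2 s = ee j - ee i}

/-- The noise together with the rows `j ∈ J` at scale `q`. -/
def RR [NeZero k] (q : ℚ) (J : Finset (Fin k)) : Set (Gam k) :=
  DN k ∪ {γ | ∃ j ∈ J, γ.2 q = ee j - ee 0}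

/-- The shift of scales. -/
def piE : ℚ ↪o ℚ := (OrderIso.addRight (1 : ℚ)).toOrderEmbedding

/-- The inverse shift of scales. -/
def piE' : ℚ ↪o ℚ := (OrderIso.addRight (-1 : ℚ)).toOrderEmbedding

/-- The array space: a limit of the laws of a mixing system along iterated ultrafilters. -/
structure Arr (k : ℕ) where
  /-- the times -/
  d : Fin k → ℕ → ℤ
  /-- the ultrafilter -/
  U : Ultrafilter ℕ
  gap : ∀ i j, i < j → Tendsto (fun n => d j n - d i n) U atTop
  /-- the law -/
  P : Measure (Om k)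
  prob : IsProbabilityMeasure P
  sh_mp : ∀ γ : Gam k, MeasurePreserving (pl (· + γ)) P P
  em_mp : ∀ σ : ℚ ↪o ℚ, MeasurePreserving (pl (gmap σ)) P P
  freeze : ∀ (q : ℚ) (Δ : Finset (Gam k)) (F : Om k → ℂ), DependsOn F (Δ : Set (Gam k)) →
    (Δ : Set (Gam k)) ⊆ lev (Ici q) →
    Tendsto (fun n => ∫ ω, F (pl (gfrz d q n) ω) ∂P) U (𝓝 (∫ ω, F ω ∂P))
  mixJ : ∀ J : Finset (Fin k), J ≠ Finset.univ → ∀ s : Fin k → Set (Om k),
    (∀ j, MeasurableSet[(FF (lev ∅)).1] (s j)) →
    Tendsto (fun n => P.real (⋂ j ∈ J, pl (· + tm (d j n)) ⁻¹' s j)) U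
      (𝓝 (∏ j ∈ J, P.real (s j)))
  mix2 : ∀ s t : Set (Om k), MeasurableSet[(FF (lev ∅)).1] s → MeasurableSet[(FF (lev ∅)).1] t →
    Tendsto (fun m : ℕ => P.real (s ∩ pl (· + tm m) ⁻¹' t)) atTop (𝓝 (P.real s * P.real t))

namespace Arr

variable (A : Arr k)

instance : IsProbabilityMeasure A.P := A.prob

/-- Bounded functions depending on the coordinates in `Δ`. -/
noncomputable abbrev LL (Δ : Set (Gam k)) : StarSubalgebra ℂ (LB A.P) := L A.P (FF Δ)

/-- Conditional expectation given the coordinates in `Δ`. -/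
noncomputable abbrev PE (Δ : Set (Gam k)) : LB A.P →L[ℂ] LB A.P := cE A.P (FF Δ)

/-- Shift. -/
noncomputable abbrev sh (γ : Gam k) : LB A.P →⋆ₐ[ℂ] LB A.P := pull (A.sh_mp γ)

/-- Embedding of scales. -/
noncomputable abbrev em (σ : ℚ ↪o ℚ) : LB A.P →⋆ₐ[ℂ] LB A.P := pull (A.em_mp σ)

/-- The multilinear form at scale `q`. -/
noncomputable def Lam [NeZero k] (q : ℚ) (x : Fin k → LB A.P) : ℂ :=
  E A.P (∏ i, A.sh (sg q (ee i - ee 0)) (x i))

end Arr

end Vale.Agent.P102
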