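import Vale.Agent.P102.Box
import Vale.Agent.P102.Alg

/-! The deterministic contradiction on one fibre. -/

namespace Vale.Agent.P102
open MeasureTheory ProbabilityTheory Filter Topology
open scoped InnerProductSpace ComplexConjugate

variable {X : Type*} {m0 : MeasurableSpace X} {μ : Measure X} [IsProbabilityMeasure μ]

lemma det_pyth {ι V : Type*} [NormedAddCommGroup V] [InnerProductSpace ℂ V] {ρ : ι → V}
    (hρ : Orthonormal ℂ ρ) (s : Finset ι) (a : ι → ℂ) (x : V) :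
    ‖x - ∑ h ∈ s, a h • ρ h‖ ^ 2 =
      ‖x‖ ^ 2 + ∑ h ∈ s, (‖a h - ⟪ρ h, x⟫_ℂ‖ ^ 2 - ‖⟪ρ h, x⟫_ℂ‖ ^ 2) := by
  rw [norm_sub_sq (𝕜 := ℂ), ← inner_self_eq_norm_sq (𝕜 := ℂ) (∑ h ∈ s, a h • ρ h),
    hρ.inner_sum, inner_sum, map_sum, map_sum, Finset.mul_sum, sub_add, ← Finset.sum_sub_distrib,
    sub_eq_add_neg, ← Finset.sum_neg_distrib]
  congr 1
  refine Finset.sum_congr rfl fun h _ => ?_
  rw [inner_smul_right, ← inner_conj_symm x (ρ h)]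
  generalize ⟪ρ h, x⟫_ℂ = c
  simp only [Complex.sq_norm, Complex.normSq_apply, RCLike.re_to_complex, Complex.mul_re,
    Complex.conj_re, Complex.conj_im, Complex.sub_re, Complex.sub_im]
  ring

lemma det_rat {n : ℕ} (c : Fin n → ℝ) (hc : ∀ l, 0 < c l) {B : ℝ} (hB : B < ∑ l, c l ^ 2) :
    ∃ r : Fin n → {r : ℚ // 0 < r}, (∀ l, ((r l : ℚ) : ℝ) < c l) ∧ B < ∑ l, ((r l : ℚ) : ℝ) ^ 2 := by
  have h1 : ∀ᶠ t in 𝓝 (1 : ℝ), B < t ^ 2 * ∑ l, c l ^ 2 :=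
    ContinuousAt.eventually_lt continuousAt_const (by fun_prop) (by simpa using hB)
  obtain ⟨t, ⟨h2, h3⟩, h4⟩ := (((h1.and (lt_mem_nhds one_pos)).filter_mono
    (nhdsWithin_le_nhds (s := Set.Iio 1))).and self_mem_nhdsWithin).exists
  have h5 : ∀ l, ∃ q : ℚ, t * c l < q ∧ (q : ℝ) < c l := fun l =>
    exists_rat_btwn (mul_lt_of_lt_one_left (hc l) h4)
  choose q hq hq' using h5
  have h6 : ∀ l, 0 < t * c l := fun l => mul_pos h3 (hc l)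
  refine ⟨fun l => ⟨q l, by exact_mod_cast (h6 l).trans (hq l)⟩, hq', h2.trans_le ?_⟩
  rw [Finset.mul_sum]
  refine Finset.sum_le_sum fun l _ => ?_
  rw [← mul_pow]
  exact pow_le_pow_left₀ (h6 l).le (hq l).le 2

namespace CharSys

variable {H : Type*} [AddCommGroup H] (C : CharSys μ H)

lemma finite_large (x : LB μ) {δ : ℝ} (hδ : 0 < δ) : {h | δ < ‖⟪C.ρ h, x⟫_ℂ‖}.Finite := by
  have h1 := (C.orthonormal.inner_products_summable x).tendsto_cofinite_zero.eventually_lt_const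
    (pow_pos hδ 2)
  refine (eventually_cofinite.1 h1).subset fun h hh => not_lt.2 ?_
  exact pow_le_pow_left₀ hδ.le (le_of_lt hh) 2

/-- The truncated Fourier series. -/
noncomputable def trunc (x : LB μ) (δ : ℝ) : LB μ :=
  ∑ᶠ h ∈ {h | δ < ‖⟪C.ρ h, x⟫_ℂ‖}, ⟪C.ρ h, x⟫_ℂ • C.ρ h

lemma det_trunc (x : LB μ) {δ : ℝ} (hδ : 0 < δ) :
    C.trunc x δ = ∑ h ∈ (C.finite_large x hδ).toFinset, ⟪C.ρ h, x⟫_ℂ • C.ρ h :=
  finsum_mem_eq_finite_toFinset_sum _ _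

lemma bd_trunc {x : LB μ} (hx : ‖x‖ ≤ 1) {δ : ℝ} (hδ : 0 < δ) : Bd (C.trunc x δ) (1 / δ ^ 2) := by
  rw [C.det_trunc x hδ]
  refine (bd_sum _ _ _ fun h _ => (bd_of_unitary (C.uni h)).smul _).mono ?_
  rw [le_div_iff₀ (pow_pos hδ 2), Finset.sum_mul]
  refine le_trans (Finset.sum_le_sum fun h hh => ?_)
    ((C.orthonormal.sum_inner_products_le x).trans (pow_le_one₀ (norm_nonneg _) hx))
  have h1 : δ < ‖⟪C.ρ h, x⟫_ℂ‖ := (C.finite_large x hδ).mem_toFinset.1 hh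
  have h2 : ‖⟪C.ρ h, x⟫_ℂ‖ ≤ 1 := (norm_inner_le_norm _ _).trans (by
    rw [C.orthonormal.1 h, one_mul]; exact hx)
  calc ‖⟪C.ρ h, x⟫_ℂ‖ * 1 * δ ^ 2 ≤ 1 * 1 * δ ^ 2 := by gcongr
    _ = δ ^ 2 := by ring
    _ ≤ _ := by gcongr

/-- Uniform approximation by truncations along a shift invariant family. -/
lemma exists_trunc {k : ℕ} (v : Fin k → ℕ → LB μ)
    (hspan : ∀ i j, v i j ∈ closure (Submodule.span ℂ (Set.range C.ρ) : Set (LB μ)))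
    (hnorm : ∀ i j, ‖v i j‖ = ‖v i 0‖)
    (hq : ∀ q, HQry (fun i j x => ‖⟪C.ρ x, v i j⟫_ℂ‖) q ↔
      HQry (fun i j x => ‖⟪C.ρ x, v i j⟫_ℂ‖) q.shift) (i : Fin k) {ε : ℝ} (hε : 0 < ε) :
    ∃ δ : {r : ℚ // 0 < r}, ∀ j, ‖v i j - C.trunc (v i j) (δ : ℚ)‖ ≤ ε := by
  classical
  obtain ⟨y, hy, hd⟩ := Metric.mem_closure_iff.1 (hspan i 0) ε hε
  obtain ⟨a, rfl⟩ := Finsupp.mem_span_range_iff_exists_finsupp.1 hy
  let t := a.support.filter fun h => ⟪C.ρ h, v i 0⟫_ℂ ≠ 0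
  let e : Fin t.card → H := fun l => (t.equivFin.symm l : H)
  have he : Function.Injective e := Subtype.val_injective.comp t.equivFin.symm.injective
  have h1 : ‖v i 0‖ ^ 2 - ε ^ 2 < ∑ l, ‖⟪C.ρ (e l), v i 0⟫_ℂ‖ ^ 2 := by
    have h2 := det_pyth C.orthonormal a.support a (v i 0)
    have h3 : ‖v i 0 - ∑ h ∈ a.support, a h • C.ρ h‖ ^ 2 < ε ^ 2 :=
      pow_lt_pow_left₀ (by rwa [dist_eq_norm] at hd) (norm_nonneg _) two_ne_zero
    have h4 : ∑ l, ‖⟪C.ρ (e l), v i 0⟫_ℂ‖ ^ 2 = ∑ h ∈ a.support, ‖⟪C.ρ h, v i 0⟫_ℂ‖ ^ 2 := by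
      rw [t.equivFin.symm.sum_comp fun h : t => ‖⟪C.ρ h, v i 0⟫_ℂ‖ ^ 2,
        Finset.sum_coe_sort t fun h => ‖⟪C.ρ h, v i 0⟫_ℂ‖ ^ 2]
      exact Finset.sum_filter_of_ne fun h _ hh h0 => hh (by simp [h0])
    have h5 : 0 ≤ ∑ h ∈ a.support, ‖a h - ⟪C.ρ h, v i 0⟫_ℂ‖ ^ 2 := by positivity
    rw [Finset.sum_sub_distrib] at h2
    linarith
  obtain ⟨r, hr, hr'⟩ := det_rat (fun l => ‖⟪C.ρ (e l), v i 0⟫_ℂ‖)
    (fun l => norm_pos_iff.2 (Finset.mem_filter.1 (t.equivFin.symm l).2).2) h1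
  have : Nonempty {r : ℚ // 0 < r} := ⟨⟨1, one_pos⟩⟩
  obtain ⟨δ, hδ⟩ := Finite.exists_ge r
  let Z : Finset ((Fin t.card → ℕ) × (Fin t.card → ℕ)) :=
    (Finset.univ.offDiag (α := Fin t.card)).image fun p => (Pi.single p.1 1, Pi.single p.2 1)
  have hs : ∀ (x : Fin t.card → H) (l : Fin t.card),
      ∑ l', (Pi.single l 1 : Fin t.card → ℕ) l' • x l' = x l := fun x l => by
    simp [Pi.single_apply]
  have hall : ∀ j, HQry (fun i j x => ‖⟪C.ρ x, v i j⟫_ℂ‖) ⟨t.card, fun _ => (i, j), r, ∅, Z⟩ := by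
    intro j
    induction j with
    | zero =>
      refine ⟨e, hr, by simp, fun z hz => ?_⟩
      obtain ⟨p, hp, rfl⟩ := Finset.mem_image.1 hz
      rw [hs, hs]
      exact he.ne (Finset.mem_offDiag.1 hp).2.2
    | succ j ih => exact (hq _).1 ih
  refine ⟨δ, fun j => ?_⟩
  obtain ⟨x, hx, -, hx'⟩ := hall j
  have hinj : Function.Injective x := fun l l' hl => by
    by_contra hne
    refine hx' _ (Finset.mem_image.2 ⟨(l, l'), Finset.mem_offDiag.2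
      ⟨Finset.mem_univ _, Finset.mem_univ _, hne⟩, rfl⟩) ?_
    rw [hs, hs, hl]
  have hδ0 : (0 : ℝ) < ((δ : ℚ) : ℝ) := by exact_mod_cast δ.2
  have h2 := det_pyth C.orthonormal (C.finite_large (v i j) hδ0).toFinset
    (fun h => ⟪C.ρ h, v i j⟫_ℂ) (v i j)
  have h3 : ∑ l, ((r l : ℚ) : ℝ) ^ 2 ≤
      ∑ h ∈ (C.finite_large (v i j) hδ0).toFinset, ‖⟪C.ρ h, v i j⟫_ℂ‖ ^ 2 := by
    calc ∑ l, ((r l : ℚ) : ℝ) ^ 2 ≤ ∑ l, ‖⟪C.ρ (x l), v i j⟫_ℂ‖ ^ 2 :=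
          Finset.sum_le_sum fun l _ => pow_le_pow_left₀ (by exact_mod_cast (r l).2.le) (hx l).le 2
      _ = ∑ h ∈ Finset.univ.image x, ‖⟪C.ρ h, v i j⟫_ℂ‖ ^ 2 :=
          (Finset.sum_image (f := fun h => ‖⟪C.ρ h, v i j⟫_ℂ‖ ^ 2) fun _ _ _ _ h => hinj h).symm
      _ ≤ _ := by
          refine Finset.sum_le_sum_of_subset_of_nonneg (fun h hh => ?_) fun _ _ _ => by positivity
          obtain ⟨l, -, rfl⟩ := Finset.mem_image.1 hh
          refine (Set.Finite.mem_toFinset _).2 (lt_of_le_of_lt ?_ (hx l))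
          exact_mod_cast (show (δ : ℚ) ≤ r l from hδ l)
  rw [C.det_trunc _ hδ0]
  refine (pow_le_pow_iff_left₀ (norm_nonneg _) hε.le two_ne_zero).1 ?_
  simp only [sub_self, norm_zero, Finset.sum_sub_distrib] at h2
  rw [h2, hnorm]
  simp only [ne_eq, OfNat.ofNat_ne_zero, not_false_eq_true, zero_pow, Finset.sum_const_zero]
  linarith

lemma det_tele {k : ℕ} (v : Fin k → ℕ → LB μ) (hb : ∀ i j, Bd (v i j) 1)
    (ht : ∀ i, ∀ ε : ℝ, 0 < ε →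
      ∃ δ : {r : ℚ // 0 < r}, ∀ j, ‖v i j - C.trunc (v i j) (δ : ℚ)‖ ≤ ε) (s : Finset (Fin k)) :
    ∀ η : ℝ, 0 < η → ∃ δ : Fin k → {r : ℚ // 0 < r}, ∀ j : Fin k → ℕ,
      ‖∏ i ∈ s, v i (j i) - ∏ i ∈ s, C.trunc (v i (j i)) (δ i : ℚ)‖ ≤ η := by
  induction s using Finset.induction_on with
  | empty => exact fun η hη => ⟨fun _ => ⟨1, one_pos⟩, fun j => by simpa using hη.le⟩
  | insert a s ha ih =>
    intro η hη
    obtain ⟨δ, hδ⟩ := ih (η / 2) (half_pos hη)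
    have hpos : ∀ i, (0 : ℝ) < ((δ i : ℚ) : ℝ) := fun i => by exact_mod_cast (δ i).2
    have hB : 0 < ∏ i ∈ s, 1 / ((δ i : ℚ) : ℝ) ^ 2 :=
      Finset.prod_pos fun i _ => one_div_pos.2 (pow_pos (hpos i) 2)
    obtain ⟨d, hd⟩ := ht a _ (div_pos (half_pos hη) hB)
    refine ⟨Function.update δ a d, fun j => ?_⟩
    have h1 : ∏ i ∈ s, C.trunc (v i (j i)) (Function.update δ a d i : ℚ) =
        ∏ i ∈ s, C.trunc (v i (j i)) (δ i : ℚ) :=
      Finset.prod_congr rfl fun i hi => by rw [Function.update_of_ne (ne_of_mem_of_not_mem hi ha)]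
    have h2 := (bd_prod s _ _ fun i _ => C.bd_trunc (hb i (j i)).norm_le (hpos i)).norm_mul_le
      (v a (j a) - C.trunc (v a (j a)) (d : ℚ))
    have h3 := (hb a (j a)).norm_mul_le
      (∏ i ∈ s, v i (j i) - ∏ i ∈ s, C.trunc (v i (j i)) (δ i : ℚ))
    have h4 := (le_div_iff₀' hB).1 (le_refl (η / 2 / ∏ i ∈ s, 1 / ((δ i : ℚ) : ℝ) ^ 2))
    have h5 := mul_le_mul_of_nonneg_left (hd (j a)) hB.le
    rw [Finset.prod_insert ha, Finset.prod_insert ha, Function.update_self, h1]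
    refine le_trans (le_of_eq (congrArg _ ?_)) ((norm_add_le _ _).trans
      ((add_le_add h3 h2).trans (by linarith [hδ j])))
    ring

/-- Telescoping. -/
lemma exists_relation {k : ℕ} (v : Fin k → ℕ → LB μ) (hb : ∀ i j, Bd (v i j) 1)
    (ht : ∀ i, ∀ ε : ℝ, 0 < ε →
      ∃ δ : {r : ℚ // 0 < r}, ∀ j, ‖v i j - C.trunc (v i j) (δ : ℚ)‖ ≤ ε)
    {η : ℝ} (hη : 0 < η) : ∃ δ : Fin k → {r : ℚ // 0 < r}, ∀ j : Fin k → ℕ,
      η < ‖E μ (∏ i, v i (j i))‖ →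
        ∃ x : Fin k → H, (∀ i, ((δ i : ℚ) : ℝ) < ‖⟪C.ρ (x i), v i (j i)⟫_ℂ‖) ∧ ∑ i, x i = 0 := by
  classical
  obtain ⟨δ, hδ⟩ := C.det_tele v hb ht Finset.univ η hη
  refine ⟨δ, fun j hj => ?_⟩
  have hpos : ∀ i, (0 : ℝ) < ((δ i : ℚ) : ℝ) := fun i => by exact_mod_cast (δ i).2
  have h1 : E μ (∏ i, C.trunc (v i (j i)) (δ i : ℚ)) ≠ 0 := fun h => by
    have := (norm_E_le _).trans (hδ j)
    rw [map_sub, h, sub_zero] at this
    linarith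
  rw [Finset.prod_congr rfl fun i _ => C.det_trunc _ (hpos i), Finset.prod_univ_sum, map_sum] at h1
  obtain ⟨x, hx, h2⟩ := Finset.exists_ne_zero_of_sum_ne_zero h1
  refine ⟨x, fun i =>
    (C.finite_large _ (hpos i)).mem_toFinset.1 (Fintype.mem_piFinset.1 hx i), ?_⟩
  by_contra h0
  obtain ⟨c, -, hc⟩ := C.prod Finset.univ x
  rw [Finset.prod_smul, hc, map_smul, map_smul, C.E_eq_zero h0, smul_zero, smul_zero] at h2
  exact h2 rfl

end CharSys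

theorem det_false {K : Set (LB μ)} (hK : IsCharSet K) {k : ℕ} (v : Fin k → ℕ → LB μ)
    (hb : ∀ i j, Bd (v i j) 1)
    (hspan : ∀ i j, v i j ∈ closure (Submodule.span ℂ K : Set (LB μ)))
    (hq : ∀ q, Qry K v q ↔ Qry K v q.shift)
    (hinv : ∀ s m, E μ (mon v (monShift m s)) = E μ (mon v s))
    (hmix : ∀ s t, Tendsto (fun m => E μ (mon v s * mon v (monShift m t))) atTop
      (𝓝 (E μ (mon v s) * E μ (mon v t))))
    (i0 : Fin k) (h0 : E μ (v i0 0) = 0) (D : Fin k → ℕ → ℕ) (U : Ultrafilter ℕ)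
    (hgap : ∀ i j, i < j → Tendsto (fun n => (D j n : ℤ) - D i n) U atTop)
    {c : ℂ} (hc : c ≠ 0) (hlim : Tendsto (fun n => E μ (∏ i, v i (D i n))) U (𝓝 c)) : False := by
  obtain ⟨H, _, C, h1, h2⟩ := hK.exists_charSys
  have hq' : ∀ q, HQry (fun i j x => ‖⟪C.ρ x, v i j⟫_ℂ‖) q ↔
      HQry (fun i j x => ‖⟪C.ρ x, v i j⟫_ℂ‖) q.shift := fun q => by
    rw [← qry_iff_hqry C h1 h2, ← qry_iff_hqry C h1 h2, hq]
  have hle : Submodule.span ℂ K ≤ Submodule.span ℂ (Set.range C.ρ) := Submodule.span_le.2 (by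
    intro χ hχ
    obtain ⟨x, a, -, rfl⟩ := h2 χ hχ
    exact Submodule.smul_mem _ _ (Submodule.subset_span ⟨x, rfl⟩))
  have hnorm : ∀ i j, ‖v i j‖ = ‖v i 0‖ := fun i j => by
    have h3 := hinv {(i, 0, false), (i, 0, true)} j
    simp only [mon, monShift, Multiset.insert_eq_cons, Multiset.map_cons, Multiset.map_singleton,
      Multiset.prod_cons, Multiset.prod_singleton, zero_add, if_true, Bool.false_eq_true,
      if_false, ← norm_sq_eq, Complex.ofReal_inj] at h3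
    exact (pow_left_inj₀ (norm_nonneg _) (norm_nonneg _) two_ne_zero).1 h3
  have hc' : 0 < ‖c‖ := norm_pos_iff.2 hc
  obtain ⟨δ, hδ⟩ := C.exists_relation v hb (fun i ε hε =>
    C.exists_trunc v (fun i j => closure_mono hle (hspan i j)) hnorm hq' i hε) (half_pos hc')
  have hpos : ∀ i, (0 : ℝ) < ((δ i : ℚ) : ℝ) := fun i => by exact_mod_cast (δ i).2
  obtain ⟨G, θ, hθ, hs, hf⟩ := exists_shift (fun i j x => ‖⟪C.ρ x, v i j⟫_ℂ‖) δ
    (fun i j => C.finite_large _ (hpos i)) hq'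
  have hfin : {s : Fin k → G | ∀ i, ((δ i : ℚ) : ℝ) < ‖⟪C.ρ (s i), v i 0⟫_ℂ‖}.Finite :=
    Set.Finite.pi' fun i =>
      (C.finite_large (v i 0) (hpos i)).preimage Subtype.val_injective.injOn
  obtain ⟨s, hs', hrel⟩ := (Ultrafilter.eventually_exists_mem_iff (f := U)
    (P := fun s n => ∑ i, (θ ^ D i n) (s i) = 0) hfin).1 (by
      filter_upwards [hlim.norm.eventually_const_lt (half_lt_self hc')] with n hn
      obtain ⟨x, hx, hx0⟩ := hδ (fun i => D i n) hn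
      choose s hs1 hs2 using fun i => hs i (D i n) (x i) (hx i)
      refine ⟨s, hs1, Subtype.ext ?_⟩
      rw [AddSubgroup.val_finsetSum, Finset.sum_congr rfl fun i _ => hs2 i, hx0]
      rfl)
  refine alg_false θ hθ s i0 D U hgap hrel fun M e hM hz => ?_
  obtain ⟨j, hj⟩ := box_small C v hb hinv hmix hM h0
    ((polySeq_of_nilp (θ ^ M) e (s i0) hz).map G.subtype) (hpos i0)
  have := hf i0 (M * j) (s i0) (hs' i0)
  rw [pow_mul] at this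
  exact absurd hj (not_le.2 this)

end Vale.Agent.P102
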