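import Vale.Agent.P102.ApiPull

/-! Singular vectors of a bounded kernel, and the product structure of eigenspaces. -/

namespace Vale.Agent.P102
open MeasureTheory ProbabilityTheory Filter Topology
open scoped InnerProductSpace ComplexConjugate

variable {X : Type*} {m0 : MeasurableSpace X} {μ : Measure X} [IsProbabilityMeasure μ]

/-- The eigenspace of `m(F) m(F)^*` for the eigenvalue `t`. -/
noncomputable def Vsp (a b : SA m0) (F : LB μ) (t : ℝ) : Submodule ℂ (LB μ) where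
  carrier := {g | g ∈ L μ a ∧ cE μ a (F * cE μ b (star F * g)) = (t : ℂ) • g}
  add_mem' := by
    rintro g g' ⟨h1, h2⟩ ⟨h3, h4⟩
    refine ⟨add_mem h1 h3, ?_⟩
    rw [mul_add, map_add, mul_add, map_add, h2, h4, smul_add]
  zero_mem' := ⟨zero_mem _, by simp⟩
  smul_mem' := by
    rintro c g ⟨h1, h2⟩
    refine ⟨(L μ a).smul_mem h1 c, ?_⟩
    rw [mul_smul_comm, map_smul, mul_smul_comm, map_smul, h2, smul_comm]

lemma eigen_inner {a b : SA m0} (G G' x : LB μ) {d : LB μ} (hd : d ∈ L μ a) :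
    ⟪cE μ a (G * cE μ b (star G' * x)), d⟫_ℂ = ⟪cE μ b (star G' * x), cE μ b (star G * d)⟫_ℂ := by
  rw [inner_cE_left, cE_of_mem hd, inner_mul_left, inner_cE_of_mem (cE_mem _ _)]

lemma eigen_norm_star (b : SA m0) (x y : LB μ) :
    ‖cE μ b (star x * y)‖ = ‖cE μ b (star y * x)‖ := by
  rw [← norm_star', ← cE_star, star_mul, star_star]

lemma norm_sq_of_mem_Vsp {a b : SA m0} {F g : LB μ} {t : ℝ} (hg : g ∈ Vsp a b F t) :
    ‖cE μ b (star F * g)‖ ^ 2 = t * ‖g‖ ^ 2 := by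
  have h := eigen_inner (b := b) F F g hg.1
  rw [hg.2, inner_smul_left, inner_self_eq_norm_sq_to_K, inner_self_eq_norm_sq_to_K,
    Complex.conj_ofReal] at h
  have h2 : ((t * ‖g‖ ^ 2 : ℝ) : ℂ) = ((‖cE μ b (star F * g)‖ ^ 2 : ℝ) : ℂ) := by
    push_cast
    exact h
  exact (Complex.ofReal_injective h2).symm

lemma finiteDimensional_Vsp {a b : SA m0} (h : Ind μ a b) (F : LB μ) {t : ℝ} (ht : 0 < t) :
    FiniteDimensional ℂ (Vsp a b F t) := by
  refine finiteDimensional_of_orthonormal_le _ (‖F‖ ^ 2 / t) fun n g hg hon => ?_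
  have h1 := h.bessel Finset.univ g (fun i => (hg i).1) hon F
  rw [Finset.sum_congr rfl fun i _ => by
    rw [eigen_norm_star, norm_sq_of_mem_Vsp (hg i), hon.1 i, one_pow, mul_one]] at h1
  rw [le_div_iff₀ ht]
  simpa using h1

/-- Compactness of `m(F)`. -/
lemma totallyBounded_kernel {a b : SA m0} (h : Ind μ a b) {F : LB μ} (hF : F ∈ L μ (a ⊔ b))
    (C : ℝ) : TotallyBounded {x | ∃ y ∈ L μ b, ‖y‖ ≤ C ∧ x = cE μ a (F * y)} := by
  refine Metric.totallyBounded_iff.2 fun ε hε => ?_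
  obtain ⟨n, p, q, hp, hq, hd⟩ := exists_sum_approx a b hF (ε := ε / 2 / (|C| + 1)) (by positivity)
  have hK : IsCompact ((fun c : Fin n → ℂ => ∑ i, c i • p i) ''
      Set.univ.pi fun i => Metric.closedBall 0 (‖q i‖ * C)) :=
    (isCompact_univ_pi fun i => isCompact_closedBall _ _).image (by fun_prop)
  obtain ⟨t, ht, hcov⟩ := Metric.totallyBounded_iff.1 hK.totallyBounded (ε / 2) (by positivity)
  refine ⟨t, ht, ?_⟩
  rintro _ ⟨y, hy, hyC, rfl⟩
  obtain ⟨z, hz, hz'⟩ := Set.mem_iUnion₂.1 (hcov ⟨fun i => E μ (q i * y), fun i _ => by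
    simpa using (norm_E_mul_le _ _).trans (mul_le_mul_of_nonneg_left hyC (norm_nonneg _)), rfl⟩)
  refine Set.mem_iUnion₂.2 ⟨z, hz, ?_⟩
  have h1 : cE μ a (F * y) - ∑ i, E μ (q i * y) • p i = cE μ a ((F - ∑ i, p i * q i) * y) := by
    rw [sub_mul, map_sub, Finset.sum_mul, map_sum]
    exact congrArg _ (Finset.sum_congr rfl fun i _ => by
      rw [mul_assoc, h.cE_mul (hp i) (mul_mem (hq i) hy)])
  have h2 := h.norm_cE_mul_le (F - ∑ i, p i * q i) hy
  rw [← h1, ← dist_eq_norm] at h2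
  rw [lt_div_iff₀ (by positivity)] at hd
  have h3 : ‖F - ∑ i, p i * q i‖ * ‖y‖ ≤ ‖F - ∑ i, p i * q i‖ * (|C| + 1) :=
    mul_le_mul_of_nonneg_left (by linarith [le_abs_self C]) (norm_nonneg _)
  have h4 := dist_triangle (cE μ a (F * y)) (∑ i, E μ (q i * y) • p i) z
  rw [Metric.mem_ball] at hz' ⊢
  linarith

/-- The top singular value is attained. -/
lemma exists_top_eigen {a b : SA m0} (h : Ind μ a b) {F : LB μ} (hF : F ∈ L μ (a ⊔ b))
    {x y : LB μ} (hx : x ∈ L μ a) (hy : y ∈ L μ b) {δ : ℝ} (hδ : 0 ≤ δ)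
    (hlt : δ * ‖x‖ * ‖y‖ < ‖E μ (F * (x * y))‖) :
    ∃ t : ℝ, δ ^ 2 < t ∧ ∃ g ∈ Vsp a b F t, g ≠ 0 := by
  set T : LB μ →L[ℂ] LB μ := (cE μ b).comp ((mulL (star F)).comp (cE μ a)) with hT
  have hTg : ∀ g ∈ L μ a, T g = cE μ b (star F * g) := fun g hg => by
    simp only [hT, ContinuousLinearMap.comp_apply, mulL_apply, cE_of_mem hg]
  set S : LB μ →L[ℂ] LB μ := (cE μ a).comp ((mulL F).comp T) with hS
  have hSg : ∀ g, S g = cE μ a (F * T g) := fun g => rfl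
  have hTb : ∀ g, T g ∈ L μ b := fun g => cE_mem _ _
  have h1 : δ < ‖T‖ := by
    have h2 : ‖E μ (F * (x * y))‖ ≤ ‖T‖ * ‖x‖ * ‖y‖ := by
      rw [← mul_assoc, ← E_cE_mul' hy]
      refine (norm_E_mul_le _ _).trans (mul_le_mul_of_nonneg_right ?_ (norm_nonneg _))
      rw [← norm_star', ← cE_star, star_mul, mul_comm, ← hTg _ (star_mem hx), ← norm_star' x]
      exact T.le_opNorm _
    by_contra! h3
    have h4 : ‖T‖ * ‖x‖ * ‖y‖ ≤ δ * ‖x‖ * ‖y‖ := by gcongr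
    linarith
  have h0 : 0 < ‖T‖ := hδ.trans_lt h1
  have h2 : ∀ z ∈ L μ b, ‖cE μ a (F * z)‖ ≤ ‖T‖ * ‖z‖ := fun z hz => by
    refine apiind_cancel (by positivity) ?_
    rw [apiind_sq_le, inner_cE_of_mem (cE_mem _ _), inner_mul_right, ← cE_of_mem hz,
      ← inner_cE_left, ← hTg _ (cE_mem _ _), cE_of_mem hz]
    refine (norm_inner_le_norm _ _).trans ?_
    nlinarith [T.le_opNorm (cE μ a (F * z)), norm_nonneg z]
  have h3 : ∀ n : ℕ, ∃ g ∈ L μ a, ‖g‖ ≤ 1 ∧ ‖T‖ - 1 / (n + 1 : ℝ) < ‖T g‖ := fun n => by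
    obtain ⟨z, hz, hz'⟩ := T.exists_lt_apply_of_lt_opNorm
      (sub_lt_self ‖T‖ (Nat.one_div_pos_of_nat (n := n)))
    refine ⟨cE μ a z, cE_mem _ _, (norm_cE_le _ _).trans hz.le, ?_⟩
    rwa [hTg _ (cE_mem _ _)]
  choose g hg hg1 hg2 using h3
  have hle : ∀ n, ‖T (g n)‖ ≤ ‖T‖ := fun n => T.unit_le_opNorm _ (hg1 n)
  have h4 : Tendsto (fun n => ‖T (g n)‖) atTop (𝓝 ‖T‖) :=
    tendsto_of_tendsto_of_tendsto_of_le_of_le
      (by simpa using (tendsto_one_div_add_atTop_nhds_zero_nat (𝕜 := ℝ)).const_sub ‖T‖)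
      tendsto_const_nhds (fun n => (hg2 n).le) hle
  have h5 : Tendsto (fun n => S (g n) - ((‖T‖ ^ 2 : ℝ) : ℂ) • g n) atTop (𝓝 0) := by
    have h6 : Tendsto (fun n => ‖S (g n) - ((‖T‖ ^ 2 : ℝ) : ℂ) • g n‖ ^ 2) atTop (𝓝 0) := by
      have h7 := ((h4.pow 2).const_sub (‖T‖ ^ 2)).const_mul (‖T‖ ^ 2)
      rw [sub_self, mul_zero] at h7
      refine squeeze_zero (fun n => sq_nonneg _) (fun n => ?_) h7
      have e1 : ⟪S (g n), g n⟫_ℂ = ((‖T (g n)‖ ^ 2 : ℝ) : ℂ) := by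
        rw [hSg, hTg _ (hg n), eigen_inner F F _ (hg n), inner_self_eq_norm_sq_to_K]
        simp
      have e2 := pow_le_pow_left₀ (norm_nonneg _) (h2 _ (hTb (g n))) 2
      have e3 := pow_le_one₀ (n := 2) (norm_nonneg _) (hg1 n)
      rw [@norm_sub_sq ℂ, inner_smul_right, e1, ← Complex.ofReal_mul, RCLike.re_to_complex,
        Complex.ofReal_re, norm_smul, Complex.norm_real, Real.norm_of_nonneg (sq_nonneg _), hSg]
      nlinarith [mul_le_mul_of_nonneg_left e3 (sq_nonneg (‖T‖ ^ 2))]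
    rw [tendsto_zero_iff_norm_tendsto_zero]
    simpa using h6.sqrt
  obtain ⟨C, -, hC⟩ := exists_bd F
  obtain ⟨z, -, hz⟩ := isComplete_bd (μ := μ) (C * ‖T‖) _
    ((totallyBounded_iff_ultrafilter.1 (totallyBounded_kernel h hF ‖T‖))
      ((hyperfilter ℕ).map fun n => S (g n)) (by
        rw [Ultrafilter.coe_map, le_principal_iff, mem_map]
        exact Eventually.of_forall fun n => ⟨_, hTb _, hle n, rfl⟩)) (by
      rw [Ultrafilter.coe_map, le_principal_iff, mem_map]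
      exact Eventually.of_forall fun n => (h.bd_cE_mul hC (hTb _)).mono
        (mul_le_mul_of_nonneg_left (hle n) hC.nonneg))
  replace hz : Tendsto (fun n => S (g n)) (hyperfilter ℕ) (𝓝 z) := hz
  have hne : ((‖T‖ ^ 2 : ℝ) : ℂ) ≠ 0 := by exact_mod_cast (pow_pos h0 2).ne'
  have h6 : Tendsto g (hyperfilter ℕ) (𝓝 (((‖T‖ ^ 2 : ℝ) : ℂ)⁻¹ • z)) := by
    have := (hz.sub (h5.mono_left Nat.hyperfilter_le_atTop)).const_smul ((‖T‖ ^ 2 : ℝ) : ℂ)⁻¹
    simpa only [sub_sub_cancel, inv_smul_smul₀ hne, sub_zero] using this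
  have h7 := (isClosed_L a).mem_of_tendsto h6 (Eventually.of_forall hg)
  refine ⟨‖T‖ ^ 2, pow_lt_pow_left₀ h1 hδ two_ne_zero, _, ⟨h7, ?_⟩, fun h8 => ?_⟩
  · rw [← hTg _ h7, ← hSg, smul_inv_smul₀ hne]
    exact tendsto_nhds_unique ((S.continuous.tendsto _).comp h6) hz
  · have h9 := tendsto_nhds_unique ((T.continuous.tendsto _).comp h6).norm
      (h4.mono_left Nat.hyperfilter_le_atTop)
    rw [h8, map_zero, norm_zero] at h9
    exact h0.ne h9

/-- The span of the products of elements of `V` with elements of `L μ u`. -/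
noncomputable def mulSpan (V : Submodule ℂ (LB μ)) (u : SA m0) : Submodule ℂ (LB μ) :=
  Submodule.span ℂ {z | ∃ g ∈ V, ∃ η ∈ L μ u, z = g * η}

/-- Expansion along an orthonormal basis of `V`. -/
lemma expand_mulSpan {a u : SA m0} (h : Ind μ a u) {V : Submodule ℂ (LB μ)}
    (hV : ∀ g ∈ V, g ∈ L μ a) {ι : Type*} [Fintype ι] (e : OrthonormalBasis ι ℂ V)
    {y : LB μ} (hy : y ∈ mulSpan V u) :
    y = ∑ i, (e i : LB μ) * cE μ u (star (e i : LB μ) * y) := by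
  induction hy using Submodule.span_induction with
  | mem z hz =>
    obtain ⟨g, hg, η, hη, rfl⟩ := hz
    have h1 := congrArg Subtype.val (e.sum_repr' ⟨g, hg⟩)
    rw [Submodule.coe_sum] at h1
    rw [Finset.sum_congr rfl fun i _ => by
      rw [← mul_assoc, mul_comm _ η, h.symm.cE_mul hη (mul_mem (star_mem (hV _ (e i).2)) (hV g hg)),
        mul_smul_comm, ← smul_mul_assoc], ← Finset.sum_mul]
    exact congrArg (· * η) h1.symm
  | zero => simp
  | add x y _ _ hx hy =>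
    simp only [mul_add, map_add, Finset.sum_add_distrib]
    rw [← hx, ← hy]
  | smul c x _ hx =>
    simp only [mul_smul_comm, map_smul, ← Finset.smul_sum]
    rw [← hx]

lemma eigen_fd {a u u' : SA m0} (hau' : Ind μ a u') (huu' : Ind μ u u')
    (V W : Submodule ℂ (LB μ)) [FiniteDimensional ℂ V] (hV : ∀ g ∈ V, g ∈ L μ a)
    (hW : ∀ c ∈ W, c ∈ L μ u) (hb : W ≤ mulSpan V u') : FiniteDimensional ℂ W := by
  set e := stdOrthonormalBasis ℂ V
  have he : Orthonormal ℂ fun i => (e i : LB μ) := e.orthonormal.comp_linearIsometry V.subtypeₗᵢ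
  refine finiteDimensional_of_orthonormal_le _ (Module.finrank ℂ V) fun n c hc hon => ?_
  have h1 : ∀ l, ∑ i, ‖cE μ u' (star (c l) * e i)‖ ^ 2 = 1 := fun l => by
    have h2 := apiind_sum_sq Finset.univ (fun i => (e i : LB μ) * cE μ u' (star (e i : LB μ) * c l))
      fun i _ j _ hij => by
        rw [hau'.inner_mul_mul (hV _ (e i).2) (hV _ (e j).2) (cE_mem _ _) (cE_mem _ _), he.2 hij,
          zero_mul]
    rw [← expand_mulSpan hau' hV e (hb (hc l)), hon.1 l, one_pow] at h2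
    rw [h2]
    exact Finset.sum_congr rfl fun i _ => by
      rw [hau'.norm_mul (hV _ (e i).2) (cE_mem _ _), he.1 i, one_mul, eigen_norm_star]
  have h2 := Finset.sum_le_sum fun i (_ : i ∈ Finset.univ) =>
    huu'.bessel Finset.univ c (fun l => hW _ (hc l)) hon (e i)
  rw [Finset.sum_comm] at h2
  simpa only [h1, he.1, one_pow, Finset.sum_const, Finset.card_univ, Fintype.card_fin,
    nsmul_eq_mul, mul_one] using h2

lemma eigen_polar {u u' : SA m0} {V p : Submodule ℂ (LB μ)} {c : LB μ}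
    (h : ∀ G ∈ V, cE μ u (G * cE μ u' (star G * c)) ∈ p) {G G' : LB μ} (hG : G ∈ V)
    (hG' : G' ∈ V) : cE μ u (G * cE μ u' (star G' * c)) ∈ p := by
  have h1 := h _ (add_mem hG hG')
  have h2 := h _ (add_mem hG (V.smul_mem Complex.I hG'))
  have h3 := p.smul_mem (1 / 2 : ℂ) (add_mem (sub_mem (sub_mem h1 (h G hG)) (h G' hG'))
    (p.smul_mem Complex.I (sub_mem (sub_mem h2 (h G hG)) (h G' hG'))))
  simp only [star_add, star_smul, add_mul, mul_add, smul_mul_assoc, mul_smul_comm, map_add,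
    map_smul, Complex.star_def, Complex.conj_I] at h3
  refine (congrArg (· ∈ p) ?_).mp h3
  match_scalars <;> grind [Complex.I_mul_I]

lemma eigen_unit {a u u' : SA m0} (hau : Ind μ a u) (hau' : Ind μ a u') (huu' : Ind μ u u')
    {V W' : Submodule ℂ (LB μ)} [FiniteDimensional ℂ V] (hV : ∀ g ∈ V, g ∈ L μ a)
    (ha' : ∀ g ∈ V, ∀ ξ ∈ L μ u, cE μ u' (g * ξ) ∈ W') (hb' : W' ≤ mulSpan V u) {c : LB μ}
    (hc : c ∈ L μ u) (hc' : c ∈ mulSpan V u') (h0 : c ≠ 0)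
    (h : ∀ G ∈ V, cE μ u (G * cE μ u' (star G * c)) ∈ Submodule.span ℂ {c}) :
    ((‖c‖⁻¹ : ℝ) : ℂ) • c ∈ unitary (LB μ) ∧
      ∃ c' ∈ L μ u', c' ∈ unitary (LB μ) ∧ c * c' ∈ V := by
  set e := stdOrthonormalBasis ℂ V
  obtain ⟨j, hj⟩ : ∃ j, cE μ u' (star (e j : LB μ) * c) ≠ 0 := by
    by_contra! h1
    exact h0 (by simpa [h1] using expand_mulSpan hau' hV e hc')
  obtain ⟨y, hy⟩ : ∃ y, y = cE μ u' ((e j : LB μ) * star c) := ⟨_, rfl⟩
  have hyu : y ∈ L μ u' := hy ▸ cE_mem _ _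
  have hyW : y ∈ W' := hy ▸ ha' _ (e j).2 _ (star_mem hc)
  have hy' : star y = cE μ u' (star (e j : LB μ) * c) := by
    rw [hy, ← cE_star, star_mul, star_star, mul_comm]
  have hy0 : y ≠ 0 := fun h1 => hj (by rw [← hy', h1, star_zero])
  choose l hl using fun i => Submodule.mem_span_singleton.1 (eigen_polar h (e i).2 (e j).2)
  obtain ⟨G, hG, hyG⟩ : ∃ G ∈ V, y = G * star c := by
    refine ⟨∑ i, star (l i) • (e i : LB μ), V.sum_mem fun i _ => V.smul_mem _ (e i).2, ?_⟩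
    rw [Finset.sum_mul]
    refine (expand_mulSpan hau hV e (hb' hyW)).trans (Finset.sum_congr rfl fun i _ => ?_)
    rw [smul_mul_assoc, ← mul_smul_comm, ← star_smul, hl, ← cE_star, star_mul, ← hy', star_star,
      mul_comm y]
  have hyL : star y * y ∈ L μ u' := mul_mem (star_mem hyu) hyu
  have hGL : star G * G ∈ L μ a := mul_mem (star_mem (hV G hG)) (hV G hG)
  have h1 : star y * y = star c * c * (star G * G) := by
    rw [hyG, star_mul, star_star]; ring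
  have h2 := huu'.cE_eq hyL
  rw [congrArg (cE μ u) h1, hau.symm.cE_mul (mul_mem (star_mem hc) hc) hGL] at h2
  have h3 : E μ (star G * G) ≠ 0 := fun h3 => by
    rw [h3, zero_smul] at h2
    have h4 := congrArg (E μ) h2
    rw [map_zero, E_algebraMap, ← inner_def, eq_comm, inner_self_eq_zero] at h4
    exact hy0 h4
  have h4 : star c * c = algebraMap ℂ (LB μ) ((E μ (star G * G))⁻¹ * E μ (star y * y)) := by
    rw [map_mul, ← Algebra.smul_def, ← h2, inv_smul_smul₀ h3]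
  refine ⟨unitary_of_const_modulus h4 h0, _, (L μ u').smul_mem hyu _,
    unitary_of_const_modulus (hau'.eq_const ?_ hyL) hy0, ?_⟩
  · rw [h1, h4]
    exact mul_mem ((L μ a).algebraMap_mem _) hGL
  · rw [mul_smul_comm]
    refine V.smul_mem _ ?_
    rw [hyG, mul_left_comm, mul_comm c, h4, mul_comm, ← Algebra.smul_def]
    exact V.smul_mem _ hG

/-- The product structure of the eigenspaces. -/
theorem prod_span {a u u' : SA m0} (hau : Ind μ a u) (hau' : Ind μ a u') (huu' : Ind μ u u')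
    (V W W' : Submodule ℂ (LB μ)) [FiniteDimensional ℂ V] (hV : ∀ g ∈ V, g ∈ L μ a)
    (hW : ∀ c ∈ W, c ∈ L μ u) (hW' : ∀ c ∈ W', c ∈ L μ u')
    (ha : ∀ g ∈ V, ∀ η ∈ L μ u', cE μ u (g * η) ∈ W)
    (ha' : ∀ g ∈ V, ∀ ξ ∈ L μ u, cE μ u' (g * ξ) ∈ W')
    (hb : W ≤ mulSpan V u') (hb' : W' ≤ mulSpan V u)
    (heap : ∀ G ∈ L μ a, ∀ G' ∈ L μ a, ∀ G'' ∈ L μ a, ∀ η ∈ L μ u',
      cE μ u (G * cE μ u' (G' * cE μ u (G'' * η))) = cE μ u (G'' * cE μ u' (G' * cE μ u (G * η))))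
    (heap' : ∀ G ∈ L μ a, ∀ G' ∈ L μ a, ∀ G'' ∈ L μ a, ∀ ξ ∈ L μ u,
      cE μ u' (G * cE μ u (G' * cE μ u' (G'' * ξ))) =
        cE μ u' (G'' * cE μ u (G' * cE μ u' (G * ξ)))) :
    W ≤ Submodule.span ℂ {c | c ∈ W ∧ c ∈ unitary (LB μ) ∧
      ∃ c' ∈ L μ u', c' ∈ unitary (LB μ) ∧ c * c' ∈ V} := by
  have := eigen_fd hau' huu' V W hV hW hb
  have _ := hW'
  let N : V → W →ₗ[ℂ] W := fun G => LinearMap.codRestrict W
    (((cE μ u).comp ((mulL G.1).comp ((cE μ u').comp (mulL (star G.1))))).toLinearMap ∘ₗ W.subtype)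
    fun c => ha _ G.2 _ (cE_mem _ _)
  have hN : ∀ G c, (N G c : LB μ) = cE μ u (G.1 * cE μ u' (star G.1 * c.1)) := fun _ _ => rfl
  have h1 := LinearMap.IsSymmetric.iSup_iInf_eq_top_of_commute (T := N) (fun G c d => by
    rw [Submodule.coe_inner, Submodule.coe_inner, hN, hN, eigen_inner _ _ _ (hW _ d.2),
      ← inner_conj_symm c.1, eigen_inner _ _ _ (hW _ c.2), inner_conj_symm])
    fun G G' _ => LinearMap.ext fun c => Subtype.ext (by
      rw [Module.End.mul_apply, Module.End.mul_apply, hN, hN, hN, hN,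
        heap _ (hV _ G.2) _ (star_mem (hV _ G.2)) _ (hV _ G'.2) _ (cE_mem _ _),
        heap' _ (star_mem (hV _ G.2)) _ (hV _ G.2) _ (star_mem (hV _ G'.2)) _ (hW _ c.2)])
  intro c hc
  refine Submodule.mem_comap (f := W.subtype) (x := ⟨c, hc⟩) |>.1
    ((eq_top_iff.1 h1).trans (iSup_le fun χ d hd => ?_) Submodule.mem_top)
  rw [Submodule.mem_comap, Submodule.subtype_apply]
  by_cases h0 : d.1 = 0
  · rw [h0]
    exact zero_mem _
  obtain ⟨h2, c', h3, h4, h5⟩ := eigen_unit hau hau' huu' hV ha' hb' (hW _ d.2) (hb d.2) h0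
    fun G hG => Submodule.mem_span_singleton.2 ⟨χ ⟨G, hG⟩, (congrArg Subtype.val
      (Module.End.mem_eigenspace_iff.1 ((Submodule.mem_iInf _).1 hd ⟨G, hG⟩))).symm⟩
  have h6 : ((‖d.1‖⁻¹ : ℝ) : ℂ) ≠ 0 := by simpa using h0
  rw [← inv_smul_smul₀ h6 d.1]
  exact Submodule.smul_mem _ _ (Submodule.subset_span ⟨W.smul_mem _ d.2, h2, c', h3, h4, by
    rw [smul_mul_assoc]; exact V.smul_mem _ h5⟩)

end Vale.Agent.P102
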