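import Vale.Agent.P102.Chars

/-! Disintegration over a sub-sigma-algebra. -/

namespace Vale.Agent.P102
open MeasureTheory ProbabilityTheory Filter Topology
open scoped InnerProductSpace ComplexConjugate

variable {X : Type*} {m0 : MeasurableSpace X} [@StandardBorelSpace X m0]

/-- The conditional measures. -/
noncomputable def fib (μ : Measure X) [IsProbabilityMeasure μ] (n : SA m0) (ω : X) : Measure X :=
  condExpKernel μ n.1 ω

variable {μ : Measure X} [IsProbabilityMeasure μ] (n : SA m0)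

instance (ω : X) : IsProbabilityMeasure (fib μ n ω) := by
  unfold fib
  infer_instance

lemma fib_ae {p : X → Prop} (h : ∀ᵐ x ∂μ, p x) : ∀ᵐ ω ∂μ, ∀ᵐ x ∂fib μ n ω, p x := by
  rw [← condExpKernel_comp_trim (μ := μ) n.2] at h
  exact ae_of_ae_trim n.2 (Measure.ae_ae_of_ae_comp h)

lemma measurable_E_fib (f : BMF m0) :
    Measurable[n.1] fun ω => E (fib μ n ω) (cls (fib μ n ω) f) := by
  simp only [E_mk]
  exact (bmf_meas f).stronglyMeasurable.integral_condExpKernel.measurable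

lemma E_fib_ae (f : BMF m0) :
    (fun ω => E (fib μ n ω) (cls (fib μ n ω) f)) =ᵐ[μ] ((cE μ n (cls μ f)).rep : X → ℂ) := by
  simp only [E_mk]
  exact ((cE_mk_rep n f).trans (condExp_ae_eq_integral_condExpKernel n.2 (bmf_int f μ))).symm

lemma E_fib_const {f : BMF m0} {c : ℂ} (h : cE μ n (cls μ f) = algebraMap ℂ (LB μ) c) :
    ∀ᵐ ω ∂μ, E (fib μ n ω) (cls (fib μ n ω) f) = c := by
  have h2 : cls μ (cE μ n (cls μ f)).rep = cls μ (algebraMap ℂ (BMF m0) c) := by
    rw [mk_rep, h, AlgHomClass.commutes]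
  filter_upwards [E_fib_ae (μ := μ) n f, mk_eq_iff.1 h2] with ω h3 h4
  exact h3.trans h4

lemma fib_mem {m : SA m0} {f : BMF m0} (h : cls μ f ∈ L μ m) :
    ∀ᵐ ω ∂μ, cls (fib μ n ω) f ∈ L (fib μ n ω) m := by
  obtain ⟨g, hg, e⟩ := h
  filter_upwards [fib_ae n (mk_eq_iff.1 e)] with ω hω
  exact ⟨g, hg, mk_eq_iff.2 hω⟩

omit [@StandardBorelSpace X m0] in
lemma fiber_pi (m : MeasurableSpace X) [@MeasurableSpace.CountablyGenerated X m] :
    ∃ C : Set (Set X), C.Countable ∧ IsPiSystem C ∧ m = MeasurableSpace.generateFrom C :=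
  ⟨generateSetAlgebra (MeasurableSpace.countableGeneratingSet X),
    countable_generateSetAlgebra MeasurableSpace.countable_countableGeneratingSet,
    isSetAlgebra_generateSetAlgebra.isSetRing.isSetSemiring.isPiSystem, by
    rw [generateFrom_generateSetAlgebra_eq, MeasurableSpace.generateFrom_countableGeneratingSet]⟩

lemma fib_le {m m' : SA m0} [@MeasurableSpace.CountablyGenerated X m.1] (h : L μ m ≤ L μ m') :
    ∀ᵐ ω ∂μ, L (fib μ n ω) m ≤ L (fib μ n ω) m' := by
  obtain ⟨C, hc, hp, hm⟩ := fiber_pi m.1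
  have hC : ∀ s ∈ C, MeasurableSet[m.1] s := fun s hs =>
    hm ▸ MeasurableSpace.measurableSet_generateFrom hs
  have key : ∀ᵐ ω ∂μ, ∀ s (hs : s ∈ C), ind (fib μ n ω) s (m.2 s (hC s hs)) ∈ L (fib μ n ω) m' :=
    (ae_ball_iff hc).2 fun s hs => fib_mem n (h (ind_mem_L (hC s hs)))
  filter_upwards [key] with ω hω
  exact L_le_of_piSystem m C hp hm (LS _ m') (isClosed_LS m') (one_mem (L _ m'))
    fun s hs _ => hω s hs

lemma fib_ind {m m' : SA m0} [@MeasurableSpace.CountablyGenerated X m.1]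
    [@MeasurableSpace.CountablyGenerated X m'.1] (h : CInd μ n m m') :
    ∀ᵐ ω ∂μ, Ind (fib μ n ω) m m' := by
  obtain ⟨C, hc, hp, hm⟩ := fiber_pi m.1
  obtain ⟨C', hc', hp', hm'⟩ := fiber_pi m'.1
  have hC : ∀ s ∈ C, MeasurableSet[m.1] s := fun s hs =>
    hm ▸ MeasurableSpace.measurableSet_generateFrom hs
  have hC' : ∀ s ∈ C', MeasurableSet[m'.1] s := fun s hs =>
    hm' ▸ MeasurableSpace.measurableSet_generateFrom hs
  have key : ∀ᵐ ω ∂μ, ∀ s ∈ C, ∀ t ∈ C',
      (fib μ n ω).real (s ∩ t) = (fib μ n ω).real s * (fib μ n ω).real t := by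
    refine (ae_ball_iff hc).2 fun s hs => (ae_ball_iff hc').2 fun t ht => ?_
    have ms := m.2 s (hC s hs)
    have mt := m'.2 t (hC' t ht)
    have e := h _ (ind_mem_L (hC s hs)) _ (ind_mem_L (hC' t ht))
    rw [ind_mul_ind] at e
    have e2 : cls μ (cE μ n (ind μ _ (ms.inter mt))).rep =
        cls μ ((cE μ n (ind μ s ms)).rep * (cE μ n (ind μ t mt)).rep) := by
      rw [map_mul, mk_rep, mk_rep, mk_rep, e]
    filter_upwards [E_fib_ae (μ := μ) n (bmfInd _ (ms.inter mt)), E_fib_ae (μ := μ) n (bmfInd s ms),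
      E_fib_ae (μ := μ) n (bmfInd t mt), mk_eq_iff.1 e2] with ω h1 h2 h3 h4
    have h5 : E (fib μ n ω) (ind _ _ (ms.inter mt)) =
        E (fib μ n ω) (ind _ s ms) * E (fib μ n ω) (ind _ t mt) :=
      h1.trans (h4.trans (congrArg₂ (· * ·) h2.symm h3.symm))
    rw [E_ind, E_ind, E_ind] at h5
    exact_mod_cast h5
  filter_upwards [key] with ω hω
  exact ind_of_sets C C' hp hp' hm hm' hω

/-- Equivariance of the conditional measures. -/
lemma fib_equivariant {φ : X → X} (hφ : MeasurePreserving φ μ μ) (hn : n.1 = n.1.comap φ) :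
    ∀ᵐ ω ∂μ, MeasurePreserving φ (fib μ n ω) (fib μ n (φ ω)) := by
  obtain ⟨C, hc, hp, hm⟩ := fiber_pi m0
  have hC : ∀ s ∈ C, MeasurableSet s := fun s hs =>
    hm ▸ MeasurableSpace.measurableSet_generateFrom hs
  have key : ∀ᵐ ω ∂μ, ∀ s ∈ C, (fib μ n ω).real (φ ⁻¹' s) = (fib μ n (φ ω)).real s := by
    refine (ae_ball_iff hc).2 fun s hs => ?_
    have ms := hC s hs
    have e := pull_cE hφ hn (ind μ s ms)
    rw [pull_ind] at e
    have e2 : cls μ (cE μ n (ind μ _ (hφ.measurable ms))).rep =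
        cls μ (bmfComp φ hφ.measurable (cE μ n (ind μ s ms)).rep) := by
      rw [mk_rep, ← e]
      rfl
    filter_upwards [E_fib_ae (μ := μ) n (bmfInd _ (hφ.measurable ms)), mk_eq_iff.1 e2,
      hφ.quasiMeasurePreserving.ae (E_fib_ae (μ := μ) n (bmfInd s ms))] with ω h1 h2 h3
    have h5 : E (fib μ n ω) (ind _ _ (hφ.measurable ms)) = E (fib μ n (φ ω)) (ind _ s ms) :=
      h1.trans (h2.trans h3.symm)
    rw [E_ind, E_ind] at h5
    exact_mod_cast h5
  filter_upwards [key] with ω hω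
  refine ⟨hφ.measurable, ext_of_generate_finite C hm hp (fun s hs => ?_) ?_⟩
  · rw [Measure.map_apply hφ.measurable (hC s hs), ← measureReal_eq_measureReal_iff]
    exact hω s hs
  · rw [Measure.map_apply hφ.measurable MeasurableSet.univ, Set.preimage_univ, measure_univ,
      measure_univ]

lemma fib_cube (D : CubeData m0) (hR : ∀ a, @MeasurableSpace.CountablyGenerated X (D.R a).1)
    (hA : ∀ a, @MeasurableSpace.CountablyGenerated X (D.A a).1)
    (hB : ∀ a, @MeasurableSpace.CountablyGenerated X (D.B a).1)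
    (hC : ∀ w, @MeasurableSpace.CountablyGenerated X (D.C w).1) (hle : CubeLe μ D)
    (iRA : ∀ a, CInd μ n (D.R a) (D.A a)) (iRB : ∀ a, CInd μ n (D.R a) (D.B a))
    (iAB : ∀ a, CInd μ n (D.A a) (D.B a)) : ∀ᵐ ω ∂μ, IsCube (fib μ n ω) D := by
  have aux : ∀ (w : Fin 3 → Option Bool) (q : Prop) (m' : SA m0), (q → L μ (D.C w) ≤ L μ m') →
      ∀ᵐ ω ∂μ, q → L (fib μ n ω) (D.C w) ≤ L (fib μ n ω) m' := by
    intro w q m' h
    by_cases hq : q
    · exact (fib_le n (h hq)).mono fun ω hω _ => hω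
    · exact ae_of_all _ fun ω h' => absurd h' hq
  filter_upwards [ae_all_iff.2 fun w => ae_all_iff.2 fun a => aux w _ _ (hle.leR w a),
    ae_all_iff.2 fun w => ae_all_iff.2 fun a => aux w _ _ (hle.leA w a),
    ae_all_iff.2 fun w => ae_all_iff.2 fun a => aux w _ _ (hle.leB w a),
    ae_all_iff.2 fun w => ae_all_iff.2 fun a => aux w _ _ (hle.split w a),
    ae_all_iff.2 fun a => fib_ind n (iRA a), ae_all_iff.2 fun a => fib_ind n (iRB a),
    ae_all_iff.2 fun a => fib_ind n (iAB a)] with ω h1 h2 h3 h4 h5 h6 h7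
  exact ⟨⟨h1, h2, h3, h4⟩, h5, h6, h7⟩

end Vale.Agent.P102
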