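import Vale.Agent.P102.FreezeA

/-! Consequences of freezing: (W), (M), mixing for standard functions. -/

namespace Vale.Agent.P102
open MeasureTheory ProbabilityTheory Filter Topology Set
open scoped InnerProductSpace ComplexConjugate

variable {k : ℕ}

namespace Arr

variable (A : Arr k)

lemma freeze_slow_cyl (q : ℚ) {f : freeze_B k} (hf : freeze_Cyl (lev (Ici q)) f) (C : ℝ)
    (S : Finset ℚ) : (S : Set ℚ) ⊆ Iio q → ∀ g : freeze_B k, freeze_Cyl (lev (S : Set ℚ)) g →
      (∀ ω, ‖(g : Om k → ℂ) ω‖ ≤ C) →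
      ‖E A.P (cls A.P f * cls A.P g)‖ ≤ C * ‖A.PE (lev ∅) (cls A.P f)‖ := by
  induction S using Finset.induction_on_min with
  | empty =>
    intro _ g hg hC
    rw [Finset.coe_empty] at hg
    rw [← E_cE_mul' (A.freeze_mem hg), mul_comm C]
    exact (norm_E_mul_le _ _).trans (mul_le_mul_of_nonneg_left
      (Bd.norm_le (bd_mk_iff.2 (ae_of_all _ hC))) (norm_nonneg _))
  | insert s S hs ih =>
    intro hS g hg hC
    have hsq : s < q := hS (Finset.mem_insert_self s S)
    have h1 : freeze_Cyl (lev (Ici s)) (f * g) := by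
      refine (hf.mono (lev_mono (Ici_subset_Ici.2 hsq.le))).mul (hg.mono (lev_mono fun t ht => ?_))
      rcases Finset.mem_insert.1 ht with rfl | h
      · exact self_mem_Ici
      · exact (hs t h).le
    rw [← map_mul]
    refine le_of_tendsto' (A.freeze_E s h1).norm fun n => ?_
    have e : freeze_c (gfrz A.d s n) f = f := by
      rw [hf.congr (ρ' := fun γ => γ) fun γ hγ => freeze_gfrz_of_zero A.d n ?_, freeze_c_id]
      by_contra h
      exact absurd (hγ s h) (not_le.2 hsq)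
    rw [map_mul, e, map_mul]
    exact ih (fun t ht => hS (Finset.mem_insert_of_mem ht)) _
      (hg.comp _ fun γ hγ => freeze_gfrz_mem A.d n hγ) fun ω => hC _

/-- (W): given the slower scales, only the standard part matters. -/
lemma E_mul_slow (q : ℚ) {x y : LB A.P} (hx : x ∈ A.LL (lev (Ici q)))
    (hy : y ∈ A.LL (lev (Iio q))) : E A.P (x * y) = E A.P (A.PE (lev ∅) x * y) := by
  have h1 : ∀ g, freeze_Cyl (lev (Iio q)) g → ∀ x ∈ A.LL (lev (Ici q)), A.PE (lev ∅) x = 0 →
      E A.P (x * cls A.P g) = 0 := by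
    intro g hg x hx h0
    obtain ⟨S, hS, hg'⟩ := hg.exists_sc
    obtain ⟨C, hC⟩ := bmf_bound g
    have := A.freeze_dense (lev (Ici q))
      (K := {x | ‖E A.P (x * cls A.P g)‖ ≤ C * ‖A.PE (lev ∅) x‖})
      (isClosed_le (continuous_E.comp (continuous_mul_right' _)).norm
        (continuous_const.mul (A.PE (lev ∅)).continuous.norm))
      (fun f hf => A.freeze_slow_cyl q hf C S hS g hg' hC) x hx
    simpa [h0] using this
  have h2 : x - A.PE (lev ∅) x ∈ A.LL (lev (Ici q)) :=
    sub_mem hx (A.LL_mono (lev_mono (empty_subset _)) (cE_mem _ _))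
  have h3 := A.freeze_dense (lev (Iio q)) (K := {y | E A.P ((x - A.PE (lev ∅) x) * y) = 0})
    (isClosed_eq (continuous_E.comp (continuous_mul_left' _)) continuous_const)
    (fun g hg => h1 g hg _ h2 (by rw [map_sub, cE_cE, sub_self])) y hy
  rw [mem_ofPred_eq, sub_mul, map_sub, sub_eq_zero] at h3
  exact h3

/-- Mixing of the orders below `k` for standard functions. -/
lemma mixJ_std (J : Finset (Fin k)) (hJ : J ≠ Finset.univ) (x : Fin k → LB A.P)
    (hx : ∀ j, x j ∈ A.LL (lev ∅)) :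
    Tendsto (fun n => E A.P (∏ j ∈ J, A.sh (tm (A.d j n)) (x j))) A.U
      (𝓝 (∏ j ∈ J, E A.P (x j))) := by
  refine freeze_slots (A.U : Filter ℕ) J (fun n j => A.sh_mp (tm (A.d j n)))
    (fun x => ∏ j ∈ J, E A.P (x j)) (freeze_G_prod J) (fun _ => A.LL (lev ∅))
    (fun _ => {y | ∃ s : {s // MeasurableSet[(FF (lev ∅ : Set (Gam k))).1] s},
      y = ind A.P s.1 ((FF (lev ∅)).2 _ s.2)})
    (fun _ p hp h => L_ind_induction _ p hp fun s hs => h ⟨⟨s, hs⟩, rfl⟩) (fun x hx => ?_) x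
    fun j _ => hx j
  have : Nonempty {s // MeasurableSet[(FF (lev ∅ : Set (Gam k))).1] s} :=
    ⟨⟨∅, @MeasurableSet.empty _ (FF (lev ∅)).1⟩⟩
  choose! s hs using hx
  have e1 : ∀ n, E A.P (∏ j ∈ J, pull (A.sh_mp (tm (A.d j n))) (x j)) =
      (A.P.real (⋂ j ∈ J, pl (· + tm (A.d j n)) ⁻¹' (s j).1) : ℂ) := by
    intro n
    rw [Finset.prod_congr rfl fun j hj => by rw [hs j hj, pull_ind], prod_ind, E_ind]
  have e2 : ∏ j ∈ J, E A.P (x j) = ((∏ j ∈ J, A.P.real (s j).1 : ℝ) : ℂ) := by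
    rw [Complex.ofReal_prod]
    exact Finset.prod_congr rfl fun j hj => by rw [hs j hj, E_ind]
  simp only [e1, e2]
  exact (Complex.continuous_ofReal.tendsto _).comp (A.mixJ J hJ (fun j => (s j).1) fun j => (s j).2)

/-- Mixing for standard functions. -/
lemma mix2_std {x y : LB A.P} (hx : x ∈ A.LL (lev ∅)) (hy : y ∈ A.LL (lev ∅)) :
    Tendsto (fun m : ℕ => E A.P (x * A.sh (tm m) y)) atTop (𝓝 (E A.P x * E A.P y)) := by
  have h1 : ∀ (s : Set (Om k)) (hs : MeasurableSet[(FF (lev ∅)).1] s),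
      Tendsto (fun m : ℕ => E A.P (ind A.P s ((FF (lev ∅)).2 _ hs) * A.sh (tm m) y)) atTop
        (𝓝 (E A.P (ind A.P s ((FF (lev ∅)).2 _ hs)) * E A.P y)) := by
    intro s hs
    obtain ⟨p, hp, hp'⟩ := freeze_sub (atTop : Filter ℕ)
      (fun m => (EL A.P).comp ((mulL (ind A.P s ((FF (lev ∅)).2 _ hs))).comp
        (pullL (A.sh_mp (tm m)))))
      (E A.P (ind A.P s ((FF (lev ∅)).2 _ hs)) • EL A.P) 1 (fun m y => by
        simp only [ContinuousLinearMap.comp_apply, EL_apply, mulL_apply, pullL_apply]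
        refine (norm_E_le _).trans ?_
        have := (bd_ind (μ := A.P) s ((FF (lev ∅)).2 _ hs)).norm_mul_le (pull (A.sh_mp (tm m)) y)
        rwa [norm_pull] at this)
    refine (hp' y).1 (L_ind_induction _ p hp (fun t ht => (hp' _).2 ?_) y hy)
    simp only [ContinuousLinearMap.comp_apply, EL_apply, mulL_apply, pullL_apply,
      smul_apply, pull_ind, ind_mul_ind, E_ind, smul_eq_mul]
    rw [← Complex.ofReal_mul]
    exact (Complex.continuous_ofReal.tendsto _).comp (A.mix2 s t hs ht)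
  obtain ⟨C, -, hC⟩ := exists_bd y
  obtain ⟨p, hp, hp'⟩ := freeze_sub (atTop : Filter ℕ)
    (fun m => (EL A.P).comp (mulL (A.sh (tm m) y))) (E A.P y • EL A.P) C (fun m x => by
      simp only [ContinuousLinearMap.comp_apply, EL_apply, mulL_apply]
      exact (norm_E_le _).trans ((hC.pull (A.sh_mp (tm m))).norm_mul_le x))
  have := (hp' x).1 (L_ind_induction _ p hp (fun s hs => (hp' _).2 ?_) x hx)
  · simpa only [ContinuousLinearMap.comp_apply, EL_apply, mulL_apply,
      smul_apply, smul_eq_mul, mul_comm] using this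
  · simpa only [ContinuousLinearMap.comp_apply, EL_apply, mulL_apply,
      smul_apply, smul_eq_mul, mul_comm] using h1 s hs

lemma freeze_prod_sh {κ : Type*} (J : Finset κ) (γ : κ → Gam k) (g : κ → freeze_B k) :
    ∏ j ∈ J, A.sh (γ j) (cls A.P (g j)) = cls A.P (∏ j ∈ J, freeze_c (· + γ j) (g j)) := by
  rw [map_prod]
  exact Finset.prod_congr rfl fun j _ => A.freeze_sh _ _

/-- Freezing for standard functions. -/
lemma freeze_std (J : Finset (Fin k)) (q : ℚ) (x : Fin k → LB A.P)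
    (hx : ∀ j, x j ∈ A.LL (lev ∅)) :
    Tendsto (fun n => E A.P (∏ j ∈ J, A.sh (tm (A.d j n)) (x j))) A.U
      (𝓝 (E A.P (∏ j ∈ J, A.sh (sg q (ee j)) (x j)))) := by
  refine freeze_slots (A.U : Filter ℕ) J (fun n j => A.sh_mp (tm (A.d j n)))
    (fun x => E A.P (∏ j ∈ J, A.sh (sg q (ee j)) (x j)))
    (freeze_G_pull J fun j => A.sh_mp (sg q (ee j))) (fun _ => A.LL (lev ∅))
    (fun _ => A.freeze_D (lev ∅)) (fun _ => A.freeze_hdense _) (fun x hx => ?_) x
    fun j _ => hx j
  choose! g hg hg' using hx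
  have e1 : ∀ γ : Fin k → Gam k, ∏ j ∈ J, A.sh (γ j) (x j) =
      cls A.P (∏ j ∈ J, freeze_c (· + γ j) (g j)) := by
    intro γ
    rw [← A.freeze_prod_sh]
    exact Finset.prod_congr rfl fun j hj => by rw [hg' j hj]
  have h1 : freeze_Cyl (lev (Ici q)) (∏ j ∈ J, freeze_c (· + sg q (ee j)) (g j)) := by
    refine freeze_cyl_prod J _ fun j hj => (hg j hj).comp _ fun γ hγ s hs => ?_
    by_contra h
    rw [add_sg_snd_of_ne γ (by rintro rfl; exact h self_mem_Ici)] at hs
    exact hγ s hs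
  have h2 := A.freeze_E q h1
  rw [e1 fun j => sg q (ee j)]
  refine h2.congr fun n => ?_
  rw [e1 fun j => tm (A.d j n), map_prod (freeze_c _)]
  congr 2
  exact Finset.prod_congr rfl fun j hj => by
    rw [freeze_c_c]
    exact (hg j hj).congr fun γ hγ => freeze_gfrz_std A.d q n hγ j

lemma freeze_E_shift (J : Finset (Fin k)) (v : ℚ) (o : Dig k) (y : Fin k → LB A.P) :
    E A.P (∏ j ∈ J, A.sh (sg v (ee j + o)) (y j)) = E A.P (∏ j ∈ J, A.sh (sg v (ee j)) (y j)) := by
  rw [← E_pull (A.sh_mp (sg v o)) (∏ j ∈ J, A.sh (sg v (ee j)) (y j)),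
    map_prod (pull (A.sh_mp (sg v o)))]
  congr 1
  refine Finset.prod_congr rfl fun j _ => ?_
  rw [A.sh_sh, ← sg_add, add_comm]

lemma freeze_Lam [NeZero k] (q : ℚ) (x : Fin k → LB A.P) (hx : ∀ j, x j ∈ A.LL (lev ∅)) :
    Tendsto (fun n => E A.P (∏ j, A.sh (tm (A.d j n)) (x j))) A.U (𝓝 (A.Lam q x)) := by
  have := A.freeze_std Finset.univ q x hx
  rw [← A.freeze_E_shift Finset.univ q (-ee 0) x] at this
  simpa only [Lam, sub_eq_add_neg] using this

lemma freeze_rows_cyl (J : Finset (Fin k)) (hJ : J ≠ Finset.univ) (v : ℚ) (S : Finset ℚ) :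
    (S : Set ℚ) ⊆ Iio v → ∀ g : Fin k → freeze_B k, (∀ j, freeze_Cyl (lev (S : Set ℚ)) (g j)) →
      E A.P (∏ j ∈ J, A.sh (sg v (ee j)) (cls A.P (g j))) = ∏ j ∈ J, E A.P (cls A.P (g j)) := by
  induction S using Finset.induction_on_min with
  | empty =>
    intro _ g hg
    rw [Finset.coe_empty] at hg
    exact tendsto_nhds_unique (A.freeze_std J v _ fun j => A.freeze_mem (hg j))
      (A.mixJ_std J hJ _ fun j => A.freeze_mem (hg j))
  | insert s S hs ih =>
    intro hS g hg
    have hsv : s < v := hS (Finset.mem_insert_self s S)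
    have h0 : ∀ j, freeze_Cyl (lev (Ici s)) (g j) := by
      refine fun j => (hg j).mono (lev_mono fun t ht => ?_)
      rcases Finset.mem_insert.1 ht with rfl | h
      · exact self_mem_Ici
      · exact (hs t h).le
    have h1 : freeze_Cyl (lev (Ici s)) (∏ j ∈ J, freeze_c (· + sg v (ee j)) (g j)) := by
      refine freeze_cyl_prod J _ fun j _ => (h0 j).comp _ fun γ hγ t ht => ?_
      by_cases e : t = v
      · rw [e]
        exact hsv.le
      · rw [add_sg_snd_of_ne γ e] at ht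
        exact hγ t ht
    rw [A.freeze_prod_sh]
    refine tendsto_nhds_unique (A.freeze_E s h1)
      ((tendsto_finsetProd J fun j _ => A.freeze_E s (h0 j)).congr fun n => ?_)
    rw [← ih (fun t ht => hS (Finset.mem_insert_of_mem ht)) _
      fun j => (hg j).comp _ fun γ hγ => freeze_gfrz_mem A.d n hγ, A.freeze_prod_sh,
      map_prod (freeze_c _)]
    congr 2
    refine Finset.prod_congr rfl fun j _ => ?_
    rw [freeze_c_c, freeze_c_c]
    congr 2
    funext γ
    exact (freeze_gfrz_add_sg A.d hsv.ne n γ _).symm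

lemma freeze_rows (J : Finset (Fin k)) (hJ : J ≠ Finset.univ) (v : ℚ) (y : Fin k → LB A.P)
    (hy : ∀ j ∈ J, y j ∈ A.LL (lev (Iio v))) :
    E A.P (∏ j ∈ J, A.sh (sg v (ee j)) (y j)) = ∏ j ∈ J, E A.P (y j) := by
  classical
  have := freeze_slots (⊤ : Filter Unit) J (fun _ j => A.sh_mp (sg v (ee j)))
    (fun x => ∏ j ∈ J, E A.P (x j)) (freeze_G_prod J) (fun _ => A.LL (lev (Iio v)))
    (fun _ => A.freeze_D (lev (Iio v))) (fun _ => A.freeze_hdense _) (fun x hx => ?_) y hy
  · exact tendsto_const_nhds_iff.1 this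
  · rw [tendsto_const_nhds_iff]
    have hx' : ∀ j, ∃ (g : freeze_B k) (S : Finset ℚ), (S : Set ℚ) ⊆ Iio v ∧
        freeze_Cyl (lev (S : Set ℚ)) g ∧ (j ∈ J → cls A.P g = x j) := by
      intro j
      by_cases hj : j ∈ J
      · obtain ⟨g, hg, e⟩ := hx j hj
        obtain ⟨S, h1, h2⟩ := hg.exists_sc
        exact ⟨g, S, h1, h2, fun _ => e⟩
      · exact ⟨1, ∅, by simp, freeze_cyl_one _, fun h => absurd h hj⟩
    choose g S h1 h2 h3 using hx'
    have := A.freeze_rows_cyl J hJ v (Finset.univ.biUnion S) (fun t ht => ?_) g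
      fun j => (h2 j).mono (lev_mono fun t ht => ?_)
    · have e1 : ∏ j ∈ J, A.sh (sg v (ee j)) (cls A.P (g j)) = ∏ j ∈ J, A.sh (sg v (ee j)) (x j) :=
        Finset.prod_congr rfl fun j hj => by rw [h3 j hj]
      have e2 : ∏ j ∈ J, E A.P (cls A.P (g j)) = ∏ j ∈ J, E A.P (x j) :=
        Finset.prod_congr rfl fun j hj => by rw [h3 j hj]
      rwa [e1, e2] at this
    · obtain ⟨j, -, hj⟩ := Finset.mem_biUnion.1 ht
      exact h1 j hj
    · exact Finset.mem_biUnion.2 ⟨j, Finset.mem_univ _, ht⟩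

/-- (M): fewer than `k` rows at the fastest scale are independent. -/
lemma E_prod_rows (J : Finset (Fin k)) (hJ : J ≠ Finset.univ) (v : ℚ) (o : Dig k)
    (z : Fin k → LB A.P) (hz : ∀ j ∈ J, z j ∈ A.LL (Row v (ee j + o) ∩ lev (Iic v))) :
    E A.P (∏ j ∈ J, z j) = ∏ j ∈ J, E A.P (z j) := by
  have h1 := A.freeze_rows J hJ v (fun j => A.sh (sg v (-(ee j + o))) (z j)) fun j hj => by
    refine A.sh_mem _ (fun γ hγ => ?_) (hz j hj)
    intro s hs
    by_cases e : s = v
    · subst e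
      rw [add_sg_snd_self, show γ.2 s = ee j + o from hγ.1, add_neg_cancel] at hs
      exact absurd rfl hs
    · rw [add_sg_snd_of_ne γ e] at hs
      exact lt_of_le_of_ne (hγ.2 s hs) e
  rw [← A.freeze_E_shift J v o] at h1
  simp only [A.sh_sh, ← sg_add, add_neg_cancel, sg_zero, A.sh_zero, E_pull] at h1
  exact h1

/-- Translation of the scales. -/
def freeze_tr (N : ℕ) : ℚ ↪o ℚ := (OrderIso.addRight (N : ℚ)).toOrderEmbedding

lemma freeze_tr_apply (N : ℕ) (s : ℚ) : freeze_tr N s = s + N := rfl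

lemma freeze_em_PE (σ : ℚ ↪o ℚ) (x : LB A.P) : A.PE (lev ∅) (A.em σ x) = A.PE (lev ∅) x := by
  have e : gmap σ '' (lev ∅ : Set (Gam k)) = lev ∅ := by
    rw [image_congr fun γ hγ => gmap_fix σ (by simp) hγ, image_id']
  conv_lhs => rw [← e, ← A.em_PE]
  exact A.em_std σ (cE_mem _ _)

lemma freeze_tr_cyl (f g : freeze_B k) (hf : freeze_Cyl univ f) (hg : freeze_Cyl univ g) :
    Tendsto (fun N : ℕ => E A.P (A.em (freeze_tr N) (cls A.P f) * cls A.P g)) atTop
      (𝓝 (E A.P (A.PE (lev ∅) (cls A.P f) * cls A.P g))) := by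
  obtain ⟨D, -, hD⟩ := hf
  obtain ⟨D', -, hD'⟩ := hg
  obtain ⟨a, ha⟩ := (basic_sc D).bddBelow
  obtain ⟨b, hb⟩ := (basic_sc D').bddAbove
  obtain ⟨N₀, hN₀⟩ := exists_nat_ge (b + 1 - a)
  refine tendsto_const_nhds.congr' ((eventually_ge_atTop N₀).mono fun N hN => ?_)
  have h1 : cls A.P g ∈ A.LL (lev (Iio (b + 1))) :=
    A.freeze_mem ⟨D', (basic_subset_lev_sc D').trans
      (lev_mono fun s hs => lt_of_le_of_lt (hb hs) (lt_add_one b)), hD'⟩
  have h2 : A.em (freeze_tr N) (cls A.P f) ∈ A.LL (lev (Ici (b + 1))) := by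
    refine A.em_mem _ (fun γ hγ => gmap_mem_lev _ (fun s hs => ?_) hγ)
      (A.freeze_mem ⟨D, basic_subset_lev_sc D, hD⟩)
    have h3 : (N₀ : ℚ) ≤ N := by exact_mod_cast hN
    have h4 : a ≤ s := ha hs
    rw [freeze_tr_apply, mem_Ici]
    linarith
  simp only []
  rw [A.E_mul_slow (b + 1) h2 h1, A.freeze_em_PE]

lemma freeze_tr_lim (x : LB A.P) (g : freeze_B k) (hg : freeze_Cyl univ g) :
    Tendsto (fun N : ℕ => E A.P (A.em (freeze_tr N) x * cls A.P g)) atTop
      (𝓝 (E A.P (A.PE (lev ∅) x * cls A.P g))) := by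
  obtain ⟨C, -, hC⟩ := exists_bd (cls A.P g)
  obtain ⟨p, hp, hp'⟩ := freeze_sub (atTop : Filter ℕ)
    (fun N => (EL A.P).comp ((mulL (cls A.P g)).comp (pullL (A.em_mp (freeze_tr N)))))
    ((EL A.P).comp ((mulL (cls A.P g)).comp (A.PE (lev ∅)))) C (fun N x => by
      simp only [ContinuousLinearMap.comp_apply, EL_apply, mulL_apply, pullL_apply]
      refine (norm_E_le _).trans ?_
      have := hC.norm_mul_le (pull (A.em_mp (freeze_tr N)) x)
      rwa [norm_pull] at this)
  have := (hp' x).1 (A.freeze_hdense univ p hp ?_ (A.freeze_mem_univ x))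
  · simpa only [ContinuousLinearMap.comp_apply, EL_apply, mulL_apply, pullL_apply, mul_comm]
      using this
  · rintro _ ⟨f, hf, rfl⟩
    refine (hp' _).2 ?_
    simpa only [ContinuousLinearMap.comp_apply, EL_apply, mulL_apply, pullL_apply, mul_comm]
      using A.freeze_tr_cyl f g hf hg

/-- Functions invariant under the shift of scales are standard. -/
lemma std_of_pi {x : LB A.P} (hx : A.em piE x = x) : x ∈ A.LL (lev ∅) := by
  have h1 : ∀ N : ℕ, A.em (freeze_tr N) x = x := by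
    intro N
    induction N with
    | zero => exact A.em_fix _ (fun γ hγ => gmap_fix _ (S := univ) (fun s _ => by
        simp [freeze_tr_apply]) fun _ _ => trivial) (A.freeze_mem_univ x)
    | succ N ih =>
      have e : freeze_tr (N + 1) = piE.trans (freeze_tr N) := by
        ext s
        change s + ((N + 1 : ℕ) : ℚ) = s + 1 + N
        push_cast
        ring
      rw [e, ← A.em_em, hx, ih]
  have h2 := A.freeze_dense univ (K := {y | E A.P (x * y) = E A.P (A.PE (lev ∅) x * y)})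
    (isClosed_eq (continuous_E.comp (continuous_mul_left' _))
      (continuous_E.comp (continuous_mul_left' _)))
    (fun g hg => by
      have := A.freeze_tr_lim x g hg
      simp only [h1] at this
      exact tendsto_const_nhds_iff.1 this)
  have h3 : x = A.PE (lev ∅) x :=
    eq_of_E_mul (mem_L_top x) (mem_L_top _) fun z _ => by
      rw [mul_comm z, mul_comm z]
      exact h2 z (A.freeze_mem_univ z)
  rw [h3]
  exact cE_mem _ _

end Arr

end Vale.Agent.P102
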