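import Vale.Agent.P102.Basic

/-! Tools for freezing: closed conditions, slot induction, cylinder functions. -/

namespace Vale.Agent.P102
open MeasureTheory ProbabilityTheory Filter Topology Set
open scoped InnerProductSpace ComplexConjugate

section General

variable {X : Type*} {m0 : MeasurableSpace X} {μ : Measure X} [IsProbabilityMeasure μ]

/-- Convergence of uniformly bounded functionals is a closed linear condition. -/
lemma freeze_sub {ι : Type*} (l : Filter ι) (φ : ι → LB μ →L[ℂ] ℂ) (ψ : LB μ →L[ℂ] ℂ) (C : ℝ)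
    (hφ : ∀ n y, ‖φ n y‖ ≤ C * ‖y‖) :
    ∃ p : Submodule ℂ (LB μ), IsClosed (p : Set (LB μ)) ∧
      ∀ y, y ∈ p ↔ Tendsto (fun n => φ n y) l (𝓝 (ψ y)) := by
  refine ⟨{ carrier := {y | Tendsto (fun n => φ n y) l (𝓝 (ψ y))}
            add_mem' := fun {a b} ha hb => ?_
            zero_mem' := ?_
            smul_mem' := fun c a ha => ?_ }, ?_, fun _ => Iff.rfl⟩
  · simpa only [mem_ofPred_eq, map_add] using Tendsto.add ha hb
  · simpa only [mem_ofPred_eq, map_zero] using tendsto_const_nhds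
  · simpa only [mem_ofPred_eq, map_smul] using Tendsto.const_smul ha c
  · have he : Equicontinuous fun n => (φ n : LB μ → ℂ) := by
      refine (LipschitzWith.uniformEquicontinuous _ (Real.toNNReal C) fun n => ?_).equicontinuous
      refine LipschitzWith.of_dist_le_mul fun a b => ?_
      rw [dist_eq_norm, dist_eq_norm, ← map_sub]
      exact (hφ n _).trans (mul_le_mul_of_nonneg_right (Real.le_coe_toNNReal C) (norm_nonneg _))
    exact he.isClosed_setOfPred_tendsto ψ.continuous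

lemma freeze_slotJ {κ : Type*} [DecidableEq κ] (J : Finset κ) (S D : κ → Set (LB μ))
    (Φ : (κ → LB μ) → Prop)
    (hdense : ∀ i, ∀ p : Submodule ℂ (LB μ), IsClosed (p : Set (LB μ)) → D i ⊆ p → S i ⊆ p)
    (hΦ : ∀ i ∈ J, ∀ x : κ → LB μ, ∃ p : Submodule ℂ (LB μ), IsClosed (p : Set (LB μ)) ∧
      ∀ y, y ∈ p ↔ Φ (Function.update x i y))
    (h : ∀ x : κ → LB μ, (∀ i ∈ J, x i ∈ D i) → Φ x) :
    ∀ x : κ → LB μ, (∀ i ∈ J, x i ∈ S i) → Φ x := by
  have key : ∀ K : Finset κ, K ⊆ J → ∀ x : κ → LB μ, (∀ i ∈ K, x i ∈ S i) →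
      (∀ i ∈ J, i ∉ K → x i ∈ D i) → Φ x := by
    intro K
    induction K using Finset.induction_on with
    | empty => exact fun _ x _ h2 => h x fun i hi => h2 i hi (Finset.notMem_empty i)
    | insert j K hj ih =>
      intro hK x h1 h2
      obtain ⟨p, hp, hp'⟩ := hΦ j (hK (Finset.mem_insert_self _ _)) x
      have h3 := (hp' _).1 (hdense j p hp (fun y hy => (hp' y).2
        (ih ((Finset.subset_insert _ _).trans hK) _ (fun i hi => by
          rw [Function.update_of_ne (ne_of_mem_of_not_mem hi hj)]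
          exact h1 i (Finset.mem_insert_of_mem hi)) fun i hiJ hi => by
            rcases eq_or_ne i j with rfl | e
            · rwa [Function.update_self]
            · rw [Function.update_of_ne e]
              exact h2 i hiJ fun h4 => (Finset.mem_insert.1 h4).elim e hi))
        (h1 j (Finset.mem_insert_self _ _)))
      rwa [Function.update_eq_self] at h3
  exact fun x hx => key J subset_rfl x hx fun i hi hi' => (hi' hi).elim

lemma freeze_prod_update {κ α M : Type*} [DecidableEq κ] [CommMonoid M] {J : Finset κ} {i : κ}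
    (hi : i ∈ J) (g : κ → α → M) (x : κ → α) (y : α) :
    ∏ j ∈ J, g j (Function.update x i y j) = (∏ j ∈ J.erase i, g j (x j)) * g i y := by
  rw [← Finset.prod_erase_mul J _ hi, Function.update_self]
  congr 1
  exact Finset.prod_congr rfl fun j hj => by
    rw [Function.update_of_ne (Finset.ne_of_mem_erase hj)]

/-- Slot induction for limits of multilinear averages. -/
lemma freeze_slots {ι κ : Type*} [DecidableEq κ] (l : Filter ι) (J : Finset κ)
    {φ : ι → κ → X → X} (hφ : ∀ n j, MeasurePreserving (φ n j) μ μ)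
    (G : (κ → LB μ) → ℂ)
    (hG : ∀ i ∈ J, ∀ x, ∃ ψ : LB μ →L[ℂ] ℂ, ∀ y, G (Function.update x i y) = ψ y)
    (S D : κ → Set (LB μ))
    (hdense : ∀ i, ∀ p : Submodule ℂ (LB μ), IsClosed (p : Set (LB μ)) → D i ⊆ p → S i ⊆ p)
    (h : ∀ x : κ → LB μ, (∀ i ∈ J, x i ∈ D i) →
      Tendsto (fun n => E μ (∏ j ∈ J, pull (hφ n j) (x j))) l (𝓝 (G x))) :
    ∀ x : κ → LB μ, (∀ i ∈ J, x i ∈ S i) →
      Tendsto (fun n => E μ (∏ j ∈ J, pull (hφ n j) (x j))) l (𝓝 (G x)) := by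
  refine freeze_slotJ J S D _ hdense (fun i hi x => ?_) h
  obtain ⟨ψ, hψ⟩ := hG i hi x
  choose C _ hC using fun j => exists_bd (x j)
  obtain ⟨p, hp, hp'⟩ := freeze_sub l
    (fun n => (EL μ).comp ((mulL (∏ j ∈ J.erase i, pull (hφ n j) (x j))).comp (pullL (hφ n i))))
    ψ (∏ j ∈ J.erase i, C j) (fun n y => by
      simp only [ContinuousLinearMap.comp_apply, EL_apply, mulL_apply, pullL_apply]
      refine (norm_E_le _).trans ?_
      have := (bd_prod (J.erase i) _ C fun j _ => (hC j).pull (hφ n j)).norm_mul_le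
        (pull (hφ n i) y)
      rwa [norm_pull] at this)
  refine ⟨p, hp, fun y => ?_⟩
  rw [hp', hψ]
  have e : ∀ n, ∏ j ∈ J, pull (hφ n j) (Function.update x i y j) =
      (∏ j ∈ J.erase i, pull (hφ n j) (x j)) * pull (hφ n i) y := fun n =>
    freeze_prod_update hi (fun j (z : LB μ) => pull (hφ n j) z) x y
  simp only [ContinuousLinearMap.comp_apply, EL_apply, mulL_apply, pullL_apply, e]

lemma freeze_G_prod {κ : Type*} [DecidableEq κ] (J : Finset κ) :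
    ∀ i ∈ J, ∀ x : κ → LB μ, ∃ ψ : LB μ →L[ℂ] ℂ, ∀ y,
      ∏ j ∈ J, E μ (Function.update x i y j) = ψ y := by
  intro i hi x
  refine ⟨(∏ j ∈ J.erase i, E μ (x j)) • EL μ, fun y => ?_⟩
  rw [freeze_prod_update hi fun _ (z : LB μ) => E μ z]
  rfl

lemma freeze_G_pull {κ : Type*} [DecidableEq κ] (J : Finset κ) {φ : κ → X → X}
    (hφ : ∀ j, MeasurePreserving (φ j) μ μ) :
    ∀ i ∈ J, ∀ x : κ → LB μ, ∃ ψ : LB μ →L[ℂ] ℂ, ∀ y,
      E μ (∏ j ∈ J, pull (hφ j) (Function.update x i y j)) = ψ y := by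
  intro i hi x
  refine ⟨(EL μ).comp ((mulL (∏ j ∈ J.erase i, pull (hφ j) (x j))).comp (pullL (hφ i))),
    fun y => ?_⟩
  rw [freeze_prod_update hi fun j (z : LB μ) => pull (hφ j) z]
  rfl

end General

variable {k : ℕ}

/-- Bounded measurable functions on the array space. -/
abbrev freeze_B (k : ℕ) : Type := BMF (inferInstance : MeasurableSpace (Om k))

/-- Cylinder functions with base inside `Δ`. -/
def freeze_Cyl (Δ : Set (Gam k)) (f : freeze_B k) : Prop :=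
  ∃ Δ' : Finset (Gam k), (Δ' : Set (Gam k)) ⊆ Δ ∧ DependsOn (f : Om k → ℂ) (Δ' : Set (Gam k))

/-- Composition with a map of positions. -/
noncomputable def freeze_c (ρ : Gam k → Gam k) : freeze_B k →⋆ₐ[ℂ] freeze_B k :=
  bmfComp (pl ρ) (measurable_pl ρ)

lemma freeze_Cyl.mono {Δ Δ' : Set (Gam k)} {f : freeze_B k} (h : freeze_Cyl Δ f) (h' : Δ ⊆ Δ') :
    freeze_Cyl Δ' f := by
  obtain ⟨D, h1, h2⟩ := h
  exact ⟨D, h1.trans h', h2⟩

lemma freeze_Cyl.op {Δ : Set (Gam k)} {f g u : freeze_B k} (hf : freeze_Cyl Δ f)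
    (hg : freeze_Cyl Δ g) (o : ℂ → ℂ → ℂ)
    (hu : ∀ ω, (u : Om k → ℂ) ω = o ((f : Om k → ℂ) ω) ((g : Om k → ℂ) ω)) : freeze_Cyl Δ u := by
  classical
  obtain ⟨D, h1, h2⟩ := hf
  obtain ⟨D', h1', h2'⟩ := hg
  refine ⟨D ∪ D', by rw [Finset.coe_union]; exact union_subset h1 h1', fun ω ω' h => ?_⟩
  rw [hu, hu, h2 fun γ hγ => h γ (Finset.mem_union_left _ hγ),
    h2' fun γ hγ => h γ (Finset.mem_union_right _ hγ)]

lemma freeze_Cyl.mul {Δ : Set (Gam k)} {f g : freeze_B k} (hf : freeze_Cyl Δ f)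
    (hg : freeze_Cyl Δ g) : freeze_Cyl Δ (f * g) := hf.op hg (· * ·) fun _ => rfl

lemma freeze_cyl_one (Δ : Set (Gam k)) : freeze_Cyl Δ 1 := ⟨∅, by simp, fun _ _ _ => rfl⟩

lemma freeze_cyl_prod {κ : Type*} {Δ : Set (Gam k)} (J : Finset κ) (f : κ → freeze_B k)
    (h : ∀ j ∈ J, freeze_Cyl Δ (f j)) : freeze_Cyl Δ (∏ j ∈ J, f j) :=
  Finset.prod_induction f (freeze_Cyl Δ) (fun _ _ => freeze_Cyl.mul) (freeze_cyl_one Δ) h

lemma freeze_Cyl.comp {Δ Δ' : Set (Gam k)} {f : freeze_B k} (h : freeze_Cyl Δ f)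
    (ρ : Gam k → Gam k) (hρ : ∀ γ ∈ Δ, ρ γ ∈ Δ') : freeze_Cyl Δ' (freeze_c ρ f) := by
  classical
  obtain ⟨D, h1, h2⟩ := h
  refine ⟨D.image ρ, ?_, fun ω ω' h => h2 fun γ hγ => h _ ?_⟩
  · rw [Finset.coe_image]
    rintro _ ⟨γ, hγ, rfl⟩
    exact hρ γ (h1 hγ)
  · exact Finset.mem_coe.2 (Finset.mem_image_of_mem ρ hγ)

lemma freeze_Cyl.congr {Δ : Set (Gam k)} {f : freeze_B k} (h : freeze_Cyl Δ f)
    {ρ ρ' : Gam k → Gam k} (hρ : ∀ γ ∈ Δ, ρ γ = ρ' γ) : freeze_c ρ f = freeze_c ρ' f := by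
  obtain ⟨D, h1, h2⟩ := h
  exact Subtype.ext (funext fun ω => h2 fun γ hγ => congrArg ω (hρ γ (h1 hγ)))

lemma freeze_c_c (ρ ρ' : Gam k → Gam k) (f : freeze_B k) :
    freeze_c ρ (freeze_c ρ' f) = freeze_c (fun γ => ρ (ρ' γ)) f := rfl

lemma freeze_c_id (f : freeze_B k) : freeze_c (fun γ => γ) f = f := rfl

lemma freeze_Cyl.exists_sc {Δ : Set ℚ} {f : freeze_B k} (h : freeze_Cyl (lev Δ) f) :
    ∃ S : Finset ℚ, (S : Set ℚ) ⊆ Δ ∧ freeze_Cyl (lev (S : Set ℚ)) f := by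
  obtain ⟨D, h1, h2⟩ := h
  exact ⟨basic_sc D, basic_sc_subset h1, D, basic_subset_lev_sc D, h2⟩

lemma freeze_gfrz_of_zero (d : Fin k → ℕ → ℤ) {q : ℚ} (n : ℕ) {γ : Gam k} (h : γ.2 q = 0) :
    gfrz d q n γ = γ := by
  refine Prod.ext ?_ ?_
  · simp [gfrz, h]
  · exact Finsupp.erase_of_notMem_support (Finsupp.notMem_support_iff.2 h)

lemma freeze_gfrz_mem (d : Fin k → ℕ → ℤ) {q : ℚ} (n : ℕ) {S : Finset ℚ} {γ : Gam k}
    (h : γ ∈ lev ((insert q S : Finset ℚ) : Set ℚ)) : gfrz d q n γ ∈ lev (S : Set ℚ) := by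
  intro s hs
  by_cases e : s = q
  · subst e
    simp [gfrz] at hs
  · simp only [gfrz, Finsupp.erase_ne e] at hs
    exact (Finset.mem_insert.1 (h s hs)).resolve_left e

lemma freeze_gfrz_add_sg (d : Fin k → ℕ → ℤ) {q v : ℚ} (h : q ≠ v) (n : ℕ) (γ : Gam k)
    (δ : Dig k) : gfrz d q n (γ + sg v δ) = gfrz d q n γ + sg v δ := by
  refine Prod.ext ?_ ?_
  · simp [gfrz, sg, Finsupp.single_eq_of_ne h]
  · simp [gfrz, sg, Finsupp.erase_add, Finsupp.erase_single_ne h]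

lemma freeze_gfrz_std (d : Fin k → ℕ → ℤ) (q : ℚ) (n : ℕ) {γ : Gam k} (h : γ ∈ lev ∅)
    (j : Fin k) : gfrz d q n (γ + sg q (ee j)) = γ + tm (d j n) := by
  have h0 := mem_lev_empty.1 h
  refine Prod.ext ?_ ?_
  · simp [gfrz, sg, tm, h0, ee, Pi.single_apply]
  · simp [gfrz, sg, tm, h0]

namespace Arr

variable (A : Arr k)

lemma freeze_mem {Δ : Set (Gam k)} {f : freeze_B k} (h : freeze_Cyl Δ f) :
    cls A.P f ∈ A.LL Δ := by
  obtain ⟨D, h1, h2⟩ := h
  exact A.LL_mono h1 (mk_mem_L (basic_measurable h2))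

lemma freeze_sh (γ : Gam k) (f : freeze_B k) :
    A.sh γ (cls A.P f) = cls A.P (freeze_c (· + γ) f) := pull_mk _ _

lemma freeze_E (q : ℚ) {f : freeze_B k} (h : freeze_Cyl (lev (Ici q)) f) :
    Tendsto (fun n => E A.P (cls A.P (freeze_c (gfrz A.d q n) f))) A.U (𝓝 (E A.P (cls A.P f))) := by
  obtain ⟨D, h1, h2⟩ := h
  simp only [E_mk]
  exact A.freeze q D _ h2 h1

/-- The classes of cylinder functions. -/
def freeze_D (Δ : Set (Gam k)) : Set (LB A.P) := {x | ∃ f, freeze_Cyl Δ f ∧ cls A.P f = x}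

lemma freeze_hdense (Δ : Set (Gam k)) (p : Submodule ℂ (LB A.P))
    (hp : IsClosed (p : Set (LB A.P))) (h : A.freeze_D Δ ⊆ p) : (A.LL Δ : Set (LB A.P)) ⊆ p :=
  A.LL_cyl_induction Δ p hp fun D f h1 h2 => h ⟨f, ⟨D, h1, h2⟩, rfl⟩

lemma freeze_dense (Δ : Set (Gam k)) {K : Set (LB A.P)} (hK : IsClosed K)
    (h : ∀ f, freeze_Cyl Δ f → cls A.P f ∈ K) : ∀ x ∈ A.LL Δ, x ∈ K := by
  let p : Submodule ℂ (LB A.P) :=
    { carrier := A.freeze_D Δ
      add_mem' := by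
        rintro _ _ ⟨f, hf, rfl⟩ ⟨g, hg, rfl⟩
        exact ⟨f + g, hf.op hg (· + ·) fun _ => rfl, map_add _ _ _⟩
      zero_mem' := ⟨0, ⟨∅, by simp, fun _ _ _ => rfl⟩, map_zero _⟩
      smul_mem' := by
        rintro c _ ⟨f, hf, rfl⟩
        exact ⟨c • f, hf.op hf (fun a _ => c • a) fun _ => rfl, map_smul _ _ _⟩ }
  intro x hx
  have h1 := A.freeze_hdense Δ p.topologicalClosure p.isClosed_topologicalClosure
    p.le_topologicalClosure hx
  refine closure_minimal (s := (p : Set (LB A.P))) ?_ hK h1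
  rintro _ ⟨f, hf, rfl⟩
  exact h f hf

lemma freeze_mem_univ (x : LB A.P) : x ∈ A.LL univ := by
  refine ⟨x.rep, ?_, mk_rep x⟩
  change Measurable[cylinderEvents univ] _
  rw [cylinderEvents_univ]
  exact bmf_meas _

end Arr

end Vale.Agent.P102
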