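import Vale.Agent.P102.Chars

/-! Measurability of queries in a parameter. -/

namespace Vale.Agent.P102
open MeasureTheory ProbabilityTheory Filter Topology
open scoped InnerProductSpace ComplexConjugate

variable {X : Type*} {m0 : MeasurableSpace X}

/-- The approximate version of a query, in terms of countable families `d, g, h`. -/
def AQry {μ : Measure X} [IsProbabilityMeasure μ] {k : ℕ} (d g h : ℕ → LB μ)
    (v : Fin k → ℕ → LB μ) (q : Query k) : Prop :=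
  ∃ e : ℕ, ∀ p : ℕ, ∃ a b c : Fin q.1 → ℕ,
    (∀ l, ‖d (a l) - g (b l) * h (c l)‖ < 1 / ((p : ℝ) + 1)) ∧
    (∀ l, ((q.2.2.1 l : ℚ) : ℝ) + 1 / ((e : ℝ) + 1) <
      ‖⟪d (a l), v (q.2.1 l).1 (q.2.1 l).2⟫_ℂ‖) ∧
    (∀ z ∈ q.2.2.2.1, 1 / 2 < ‖⟪∏ l, d (a l) ^ z.1 l, ∏ l, d (a l) ^ z.2 l⟫_ℂ‖) ∧
    ∀ z ∈ q.2.2.2.2, ‖⟪∏ l, d (a l) ^ z.1 l, ∏ l, d (a l) ^ z.2 l⟫_ℂ‖ < 1 / 2

lemma meas_ev (C : ℝ) {δ : ℝ} (hδ : 0 < δ) : ∀ᶠ ε in 𝓝[>] (0 : ℝ), ε * C < δ :=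
  (((continuous_mul_const C).tendsto' 0 0 (zero_mul C)).eventually
    (gt_mem_nhds hδ)).filter_mono nhdsWithin_le_nhds

lemma meas_prod {μ : Measure X} [IsProbabilityMeasure μ] {n : ℕ} {x y : Fin n → LB μ}
    (ux : ∀ l, x l ∈ unitary (LB μ)) (uy : ∀ l, y l ∈ unitary (LB μ)) {ε : ℝ}
    (h : ∀ l, ‖x l - y l‖ < ε) (z : Fin n → ℕ) :
    ‖∏ l, x l ^ z l - ∏ l, y l ^ z l‖ ≤ ε * ∑ l, (z l : ℝ) := by
  rw [Finset.mul_sum]
  refine (norm_prod_sub_prod_le _ _ _ (fun l _ => bd_of_unitary (pow_mem (ux l) _))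
    fun l _ => bd_of_unitary (pow_mem (uy l) _)).trans (Finset.sum_le_sum fun l _ => ?_)
  have := norm_prod_sub_prod_le (Finset.range (z l)) (fun _ => x l) (fun _ => y l)
    (fun _ _ => bd_of_unitary (ux l)) fun _ _ => bd_of_unitary (uy l)
  simp only [Finset.prod_const, Finset.sum_const, Finset.card_range, nsmul_eq_mul] at this
  rw [mul_comm]
  exact this.trans (mul_le_mul_of_nonneg_left (h l).le (Nat.cast_nonneg _))

lemma meas_inner {F : Type*} [NormedAddCommGroup F] [InnerProductSpace ℂ F] (u u' w w' : F) :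
    |‖⟪u, w⟫_ℂ‖ - ‖⟪u', w'⟫_ℂ‖| ≤ ‖u - u'‖ * ‖w‖ + ‖u'‖ * ‖w - w'‖ := by
  refine (abs_norm_sub_norm_le _ _).trans ((norm_sub_le_norm_sub_add_norm_sub _ ⟪u', w⟫_ℂ _).trans ?_)
  rw [← inner_sub_left, ← inner_sub_right]
  exact add_le_add (norm_inner_le_norm _ _) (norm_inner_le_norm _ _)

lemma meas_eta {μ : Measure X} [IsProbabilityMeasure μ] {n : ℕ} (v : Fin n → LB μ)
    (Z : Finset ((Fin n → ℕ) × (Fin n → ℕ))) {δ : ℝ} (hδ : 0 < δ) : ∃ ε > 0,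
    ∀ x y : Fin n → LB μ, (∀ l, x l ∈ unitary (LB μ)) → (∀ l, y l ∈ unitary (LB μ)) →
      (∀ l, ‖x l - y l‖ < ε) → (∀ l, |‖⟪x l, v l⟫_ℂ‖ - ‖⟪y l, v l⟫_ℂ‖| < δ) ∧
        ∀ z ∈ Z, |‖⟪∏ l, x l ^ z.1 l, ∏ l, x l ^ z.2 l⟫_ℂ‖ -
          ‖⟪∏ l, y l ^ z.1 l, ∏ l, y l ^ z.2 l⟫_ℂ‖| < 1 / 2 := by
  obtain ⟨ε, h0, h1, h2⟩ := (eventually_mem_nhdsWithin.and ((eventually_all.2 fun l =>
    meas_ev ‖v l‖ hδ).and ((Z.eventually_all.2 fun z _ => meas_ev
      (∑ l, (z.1 l : ℝ) + ∑ l, (z.2 l : ℝ)) one_half_pos)))).exists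
  refine ⟨ε, h0, fun x y ux uy h => ⟨fun l => (meas_inner _ _ _ _).trans_lt ?_,
    fun z hz => (meas_inner _ _ _ _).trans_lt ?_⟩⟩
  · rw [sub_self, norm_zero, mul_zero, add_zero]
    exact (mul_le_mul_of_nonneg_right (h l).le (norm_nonneg _)).trans_lt (h1 l)
  · rw [norm_unitary (prod_mem fun l _ => pow_mem (ux l) _),
      norm_unitary (prod_mem fun l _ => pow_mem (uy l) _)]
    linarith [meas_prod ux uy h z.1, meas_prod ux uy h z.2, h2 z hz]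

/-- Approximate characters correlating with a function in the span of characters are close to
true characters. -/
lemma approx_chr {μ : Measure X} [IsProbabilityMeasure μ] {R A B : SA m0} (hRA : Ind μ R A)
    (hRB : Ind μ R B) (hAB : Ind μ A B) {v : LB μ}
    (hv : v ∈ closure (Submodule.span ℂ (Chr μ R A B) : Set (LB μ))) {r ε : ℝ} (hr : 0 < r)
    (hε : 0 < ε) : ∃ η : ℝ, 0 < η ∧ ∀ x ∈ L μ R, ∀ g ∈ L μ A, ∀ h ∈ L μ B,
      x ∈ unitary (LB μ) → g ∈ unitary (LB μ) → h ∈ unitary (LB μ) → ‖x - g * h‖ < η →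
      r < ‖⟪x, v⟫_ℂ‖ → ∃ χ ∈ Chr μ R A B, ‖x - χ‖ < ε := by
  obtain ⟨u, hu, h1⟩ := Metric.mem_closure_iff.1 hv (r / 2) (half_pos hr)
  obtain ⟨n, a, χ, rfl⟩ := Submodule.mem_span_set'.1 hu
  obtain ⟨ρ, hρ, h2⟩ : ∃ ρ : ℝ, 0 < ρ ∧ ρ * ∑ i, ‖a i‖ < r / 2 :=
    (eventually_mem_nhdsWithin.and (meas_ev _ (half_pos hr))).exists
  refine ⟨min (ρ / 2) (ε ^ 2 * ρ / 8), by positivity, fun x hx g hg h hh ux ug uh h3 h4 => ?_⟩
  obtain ⟨i, hi⟩ : ∃ i, ρ ≤ ‖⟪(χ i : LB μ), x⟫_ℂ‖ := by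
    by_contra h5
    push Not at h5
    have h6 : ‖⟪∑ i, a i • (χ i : LB μ), x⟫_ℂ‖ ≤ ρ * ∑ i, ‖a i‖ := by
      rw [sum_inner, Finset.mul_sum]
      refine (norm_sum_le _ _).trans (Finset.sum_le_sum fun i _ => ?_)
      rw [inner_smul_left, norm_mul, RCLike.norm_conj, mul_comm]
      exact mul_le_mul_of_nonneg_right (h5 i).le (norm_nonneg _)
    have h7 := norm_inner_le_norm (𝕜 := ℂ) (v - ∑ i, a i • (χ i : LB μ)) x
    rw [norm_unitary ux, mul_one, inner_sub_left, ← dist_eq_norm v] at h7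
    rw [norm_inner_symm] at h4
    linarith [norm_sub_norm_le ⟪v, x⟫_ℂ ⟪∑ i, a i • (χ i : LB μ), x⟫_ℂ]
  obtain ⟨h5, g', hg', h', hh', ug', uh', e⟩ := (χ i).2
  have uχ : (χ i : LB μ) ∈ unitary (LB μ) := e ▸ mul_mem ug' uh'
  have h6 : ‖star (χ i : LB μ) * x - star g' * g * (star h' * h)‖ = ‖x - g * h‖ := by
    rw [← norm_unitary_mul (Unitary.star_mem uχ) (x - g * h), e, star_mul]
    congr 1
    ring
  obtain ⟨c, hc, h7⟩ := approx_zero_one hRA hRB hAB (mul_mem (star_mem h5) hx)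
    (mul_mem (star_mem hg') hg) (mul_mem (star_mem hh') hh) (mul_mem (Unitary.star_mem uχ) ux)
    (mul_mem (Unitary.star_mem ug') ug) (mul_mem (Unitary.star_mem uh') uh) h6.le hρ
    (by linarith [(lt_min_iff.1 h3).1]) hi
  refine ⟨c • (χ i : LB μ), ⟨(L μ R).smul_mem h5 c, c • g', (L μ A).smul_mem hg' c, h', hh',
    smul_mem_unitary ug' hc, uh', by rw [e, smul_mul_assoc]⟩, ?_⟩
  rw [← norm_unitary_mul (Unitary.star_mem uχ), mul_sub, mul_smul_comm, mem_unitary_iff.1 uχ,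
    ← Algebra.algebraMap_eq_smul_one]
  refine lt_of_pow_lt_pow_left₀ 2 hε.le (h7.trans_lt ?_)
  rw [div_lt_iff₀ hρ]
  linarith [(lt_min_iff.1 h3).2]

lemma qry_iff_aqry {μ : Measure X} [IsProbabilityMeasure μ] {R A B : SA m0} (hRA : Ind μ R A)
    (hRB : Ind μ R B) (hAB : Ind μ A B) {k : ℕ} {v : Fin k → ℕ → LB μ}
    (hv : ∀ i j, v i j ∈ closure (Submodule.span ℂ (Chr μ R A B) : Set (LB μ)))
    (d g h : ℕ → LB μ)
    (hd : ∀ n, d n ∈ L μ R ∧ d n ∈ unitary (LB μ)) (hg : ∀ n, g n ∈ L μ A ∧ g n ∈ unitary (LB μ))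
    (hh : ∀ n, h n ∈ L μ B ∧ h n ∈ unitary (LB μ))
    (dd : ∀ x ∈ L μ R, x ∈ unitary (LB μ) → ∀ ε : ℝ, 0 < ε → ∃ n, ‖x - d n‖ < ε)
    (dg : ∀ x ∈ L μ A, x ∈ unitary (LB μ) → ∀ ε : ℝ, 0 < ε → ∃ n, ‖x - g n‖ < ε)
    (dh : ∀ x ∈ L μ B, x ∈ unitary (LB μ) → ∀ ε : ℝ, 0 < ε → ∃ n, ‖x - h n‖ < ε)
    (q : Query k) : Qry (Chr μ R A B) v q ↔ AQry d g h v q := by
  have hK := isCharSet_Chr hRA hRB hAB
  have hlim : Tendsto (fun j : ℕ => (1 : ℝ) / (j + 1)) atTop (𝓝 0) :=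
    tendsto_one_div_add_atTop_nhds_zero_nat
  have hz := fun χ : Fin q.1 → LB μ => fun hχ (z : (Fin q.1 → ℕ) × (Fin q.1 → ℕ)) =>
    hK.norm_inner (hK.prod_pow_mem Finset.univ χ hχ z.1) (hK.prod_pow_mem Finset.univ χ hχ z.2)
  constructor
  · rintro ⟨χ, h1, h2, h3, h4⟩
    obtain ⟨e, he⟩ := (eventually_all.2 fun l => hlim.eventually
      (gt_mem_nhds (half_pos (sub_pos.2 (h2 l))))).exists
    obtain ⟨ε, hε, h5⟩ := meas_eta (fun l => v (q.2.1 l).1 (q.2.1 l).2) (q.2.2.2.1 ∪ q.2.2.2.2)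
      (Nat.one_div_pos_of_nat (n := e))
    refine ⟨e, fun p => ?_⟩
    have hp : 0 < 1 / ((p : ℝ) + 1) / 3 := by positivity
    choose g' a1 h' a2 a3 a4 a5 using fun l => (h1 l).2
    choose a ha using fun l => dd _ (h1 l).1 (hK.uni _ (h1 l)) _ (lt_min hε hp)
    choose b hb using fun l => dg _ (a1 l) (a3 l) _ hp
    choose c hc using fun l => dh _ (a2 l) (a4 l) _ hp
    obtain ⟨h6, h7⟩ := h5 χ (fun l => d (a l)) (fun l => hK.uni _ (h1 l)) (fun l => (hd _).2)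
      fun l => (lt_min_iff.1 (ha l)).1
    refine ⟨a, b, c, fun l => ?_, fun l => ?_, fun z hz' => ?_, fun z hz' => ?_⟩
    · have e1 := norm_unitary_mul (a4 l) (g' l - g (b l))
      have e2 := norm_unitary_mul (hg (b l)).2 (h' l - h (c l))
      have e3 := norm_sub_le (h' l * (g' l - g (b l)) + g (b l) * (h' l - h (c l))) (χ l - d (a l))
      rw [show h' l * (g' l - g (b l)) + g (b l) * (h' l - h (c l)) - (χ l - d (a l)) =
        d (a l) - g (b l) * h (c l) by rw [a5]; ring] at e3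
      linarith [norm_add_le (h' l * (g' l - g (b l))) (g (b l) * (h' l - h (c l))),
        (lt_min_iff.1 (ha l)).2, hb l, hc l]
    · linarith [he l, (abs_lt.1 (h6 l)).2]
    · linarith [(abs_lt.1 (h7 z (Finset.mem_union_left _ hz'))).2,
        (hz χ h1 z).resolve_left (h3 z hz')]
    · have := (abs_lt.1 (h7 z (Finset.mem_union_right _ hz'))).1
      rw [h4 z hz', norm_zero] at this
      linarith
  · rintro ⟨e, he⟩
    obtain ⟨ε, hε, h5⟩ := meas_eta (fun l => v (q.2.1 l).1 (q.2.1 l).2) (q.2.2.2.1 ∪ q.2.2.2.2)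
      (Nat.one_div_pos_of_nat (n := e))
    choose η h0 hη using fun l => approx_chr hRA hRB hAB (hv (q.2.1 l).1 (q.2.1 l).2)
      (Rat.cast_pos.2 (q.2.2.1 l).2) hε
    obtain ⟨p, hp⟩ := (eventually_all.2 fun l => hlim.eventually (gt_mem_nhds (h0 l))).exists
    obtain ⟨a, b, c, h1, h2, h3, h4⟩ := he p
    choose χ hχ h6 using fun l => hη l _ (hd (a l)).1 _ (hg (b l)).1 _ (hh (c l)).1 (hd _).2
      (hg _).2 (hh _).2 ((h1 l).trans (hp l))
      ((lt_add_of_pos_right _ Nat.one_div_pos_of_nat).trans (h2 l))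
    obtain ⟨h7, h8⟩ := h5 (fun l => d (a l)) χ (fun l => (hd _).2) (fun l => hK.uni _ (hχ l)) h6
    refine ⟨χ, hχ, fun l => by linarith [h2 l, (abs_lt.1 (h7 l)).2], fun z hz' h9 => ?_,
      fun z hz' => (hz χ hχ z).resolve_right fun h9 => ?_⟩
    · have := (abs_lt.1 (h8 z (Finset.mem_union_left _ hz'))).2
      rw [h9, norm_zero] at this
      linarith [h3 z hz']
    · linarith [(abs_lt.1 (h8 z (Finset.mem_union_right _ hz'))).1, h4 z hz']

/-- Queries are measurable in the parameter, on the set of good parameters. -/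
theorem exists_measurable_qry {W : Type*} {mW : MeasurableSpace W} (κ : W → Measure X)
    [∀ w, IsProbabilityMeasure (κ w)]
    (hκ : ∀ f : BMF m0, Measurable fun w => E (κ w) (cls (κ w) f))
    (R A B : SA m0) [@MeasurableSpace.CountablyGenerated X R.1]
    [@MeasurableSpace.CountablyGenerated X A.1] [@MeasurableSpace.CountablyGenerated X B.1]
    {k : ℕ} (V : Fin k → ℕ → BMF m0) (q : Query k) :
    ∃ s : Set W, MeasurableSet s ∧ ∀ w, Ind (κ w) R A → Ind (κ w) R B → Ind (κ w) A B →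
      (∀ i j, cls (κ w) (V i j) ∈
        closure (Submodule.span ℂ (Chr (κ w) R A B) : Set (LB (κ w)))) →
      (w ∈ s ↔ Qry (Chr (κ w) R A B) (fun i j => cls (κ w) (V i j)) q) := by
  obtain ⟨d, d1, d2, d3⟩ := exists_dense_unimodular R
  obtain ⟨g, g1, g2, g3⟩ := exists_dense_unimodular A
  obtain ⟨h, h1, h2, h3⟩ := exists_dense_unimodular B
  have m1 : ∀ f f' : BMF m0, Measurable fun w => ‖⟪cls (κ w) f, cls (κ w) f'⟫_ℂ‖ := fun f f' => by
    simpa only [map_mul, map_star, inner_def] using (hκ (star f * f')).norm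
  have m2 : ∀ f : BMF m0, Measurable fun w => ‖cls (κ w) f‖ := fun f => by
    simpa [inner_self_eq_norm_sq_to_K] using (m1 f f).sqrt
  refine ⟨{w | AQry (fun n => cls (κ w) (d n)) (fun n => cls (κ w) (g n))
    (fun n => cls (κ w) (h n)) (fun i j => cls (κ w) (V i j)) q}, ?_, fun w a b c e =>
      (qry_iff_aqry a b c e _ _ _ (fun n => ⟨⟨_, d1 n, rfl⟩, mk_mem_unitary (d2 n)⟩)
        (fun n => ⟨⟨_, g1 n, rfl⟩, mk_mem_unitary (g2 n)⟩)
        (fun n => ⟨⟨_, h1 n, rfl⟩, mk_mem_unitary (h2 n)⟩) (d3 _) (g3 _) (h3 _) q).symm⟩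
  simp only [AQry, ← map_mul, ← map_sub, ← map_pow, ← map_prod]
  refine measurableSet_setOfPred.2 (.exists fun e => .forall fun p => .exists fun a => .exists fun b =>
    .exists fun c => .and (.forall fun l => ?_) (.and (.forall fun l => ?_) (.and
      (.forall fun z => .imp measurable_const ?_) (.forall fun z => .imp measurable_const ?_))))
  · exact (measurableSet_lt (m2 _) measurable_const).mem
  · exact (measurableSet_lt measurable_const (m1 _ _)).mem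
  · exact (measurableSet_lt measurable_const (m1 _ _)).mem
  · exact (measurableSet_lt (m1 _ _) measurable_const).mem

end Vale.Agent.P102
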