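import Vale.Agent.P102.Freeze

/-! Standard functions are independent of the noise. -/

namespace Vale.Agent.P102
open MeasureTheory ProbabilityTheory Filter Topology Set
open scoped InnerProductSpace ComplexConjugate

variable {k : ℕ}

/-- A box of positions: at every scale `v ∈ V` the digit is `ee j + o v` with `j ≠ x v`. -/
def Box (V : Finset ℚ) (o : ℚ → Dig k) (x : ℚ → Fin k) : Set (Gam k) :=
  {γ | γ ∈ lev (V : Set ℚ) ∧ ∀ v ∈ V, ∃ j, j ≠ x v ∧ γ.2 v = ee j + o v}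

/-- The target position in the box. -/
noncomputable def tgt (V : Finset ℚ) (o : ℚ → Dig k) (t : ℚ → Fin k) : Gam k :=
  ∑ v ∈ V, sg v (ee (t v) + o v)

lemma perp_tgt_snd (V : Finset ℚ) (o : ℚ → Dig k) (t : ℚ → Fin k) (s : ℚ) :
    (tgt V o t).2 s = if s ∈ V then ee (t s) + o s else 0 := by
  simp only [tgt, sg, Prod.snd_sum, Finsupp.finsetSum_apply, Finsupp.single_apply,
    Finset.sum_ite_eq']

lemma perp_tgt_fst (V : Finset ℚ) (o : ℚ → Dig k) (t : ℚ → Fin k) : (tgt V o t).1 = 0 := by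
  simp [tgt, sg, Prod.fst_sum]

lemma perp_tgt_lev (V : Finset ℚ) (o : ℚ → Dig k) (t : ℚ → Fin k)
    {γ : Gam k} (h : γ.2 = (tgt V o t).2) : γ ∈ lev (V : Set ℚ) := fun s hs => by
  by_contra h'
  exact hs (by rw [h, perp_tgt_snd, if_neg (show s ∉ V from h')])

lemma perp_tgt_box (V : Finset ℚ) (o : ℚ → Dig k) (x t : ℚ → Fin k) (ht : ∀ v ∈ V, t v ≠ x v)
    {γ : Gam k} (h : γ.2 = (tgt V o t).2) : γ ∈ Box V o x := by
  exact ⟨perp_tgt_lev V o t h, fun v hv => ⟨t v, ht v hv, by rw [h, perp_tgt_snd, if_pos hv]⟩⟩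

/-- Moving the scale `v` to the scale `a` after a shift. -/
lemma perp_rho {F : Finset ℚ} {v a : ℚ} {σ : ℚ ↪o ℚ} (hσ : σ v = a)
    (hfix : ∀ y ∈ F, y ≠ v → σ y = y) (δ : Dig k) {γ : Gam k} (hγ : γ ∈ lev (F : Set ℚ)) (s : ℚ) :
    (gmap σ (γ + sg v δ)).2 s = if s = a then γ.2 v + δ else if s = v then 0 else γ.2 s := by
  split_ifs with h1 h2
  · rw [h1, ← hσ, gmap_snd_apply, add_sg_snd_self]
  · by_cases h : s ∈ Set.range σ
    · obtain ⟨y, rfl⟩ := h
      have hy : y ≠ v := fun h => h1 (by rw [h, hσ])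
      rw [gmap_snd_apply, add_sg_snd_of_ne _ hy]
      by_contra h
      exact hy ((hfix y (hγ y h) hy).symm.trans h2)
    · exact gmap_snd_of_not_mem _ _ h
  · by_cases h : s ∈ F
    · conv_lhs => rw [← hfix s h h2]
      rw [gmap_snd_apply, add_sg_snd_of_ne _ h2]
    · have h0 : γ.2 s = 0 := by
        by_contra h'
        exact h (hγ s h')
      rw [h0]
      by_cases h' : s ∈ Set.range σ
      · obtain ⟨y, rfl⟩ := h'
        have hy : y ≠ v := fun h => h1 (by rw [h, hσ])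
        rw [gmap_snd_apply, add_sg_snd_of_ne _ hy]
        by_contra h3
        exact h (by rw [hfix y (hγ y h3) hy]; exact hγ y h3)
      · exact gmap_snd_of_not_mem _ _ h'

namespace Arr

variable (A : Arr k)

lemma perp_const {Φ : LB A.P} (h : Φ ∈ A.LL ∅) : ∃ c : ℂ, Φ = algebraMap ℂ (LB A.P) c := by
  obtain ⟨g, hg, rfl⟩ := h
  refine ⟨(g : Om k → ℂ) (fun _ _ => true), ?_⟩
  rw [← AlgHomClass.commutes (cls A.P)]
  congr 1
  ext ω
  exact dependsOn_of_measurable hg fun _ h => h.elim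

lemma perp_mono {Δ Δ' : Set (Gam k)} {y : LB A.P} (hy : y ∈ A.LL Δ) (h : ∀ γ ∈ Δ, γ ∈ Δ') :
    y ∈ A.LL Δ' := A.LL_mono h hy

lemma perp_closed (y : LB A.P) :
    IsClosed (((EL A.P).comp (mulL y)).ker : Set (LB A.P)) :=
  ContinuousLinearMap.isClosed_ker _

lemma perp_sh_tgt (V : Finset ℚ) (o : ℚ → Dig k) (t : ℚ → Fin k) {f : LB A.P}
    (hf : f ∈ A.LL (lev ∅)) {Δ : Set (Gam k)} (h : ∀ γ : Gam k, γ.2 = (tgt V o t).2 → γ ∈ Δ) :
    A.sh (tgt V o t) f ∈ A.LL Δ :=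
  A.sh_mem _ (fun γ hγ => h _ (by rw [Prod.snd_add, mem_lev_empty.1 hγ, zero_add])) hf

/-- The target galaxy is independent of the rest of the box. -/
lemma box_indep (V : Finset ℚ) (o : ℚ → Dig k) (x t : ℚ → Fin k) (ht : ∀ v ∈ V, t v ≠ x v)
    {f : LB A.P} (hf : f ∈ A.LL (lev ∅)) (hf0 : E A.P f = 0) {Φ : LB A.P}
    (hΦ : Φ ∈ A.LL (Box V o x \ {γ | γ.2 = (tgt V o t).2})) :
    E A.P (A.sh (tgt V o t) f * Φ) = 0 := by
  classical
  induction V using Finset.induction_on_max generalizing Φ with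
  | empty =>
    obtain ⟨c, rfl⟩ := A.perp_const (A.perp_mono hΦ fun γ hγ =>
      hγ.2 (mem_lev_empty.1 (Finset.coe_empty (α := ℚ) ▸ hγ.1.1)))
    rw [mul_comm, ← Algebra.smul_def, map_smul, E_pull, hf0, smul_zero]
  | insert v V hv ih =>
    have hvV : v ∉ V := fun h => lt_irrefl _ (hv v h)
    have htx := ht v (Finset.mem_insert_self _ _)
    have hle : (lev ((insert v V : Finset ℚ) : Set ℚ) : Set (Gam k)) ⊆ lev (Iic v) :=
      lev_mono fun s hs => by
        rcases Finset.mem_insert.1 hs with rfl | hs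
        · exact le_refl s
        · exact (hv s hs).le
    refine A.LL_cover_induction _ (fun j => {γ | j ≠ x v ∧ γ.2 v = ee j + o v})
      (fun γ hγ => hγ.1.2 v (Finset.mem_insert_self _ _)) _
      (A.perp_closed (A.sh (tgt (insert v V) o t) f)) (fun S z hz => ?_) Φ hΦ
    change E A.P (A.sh (tgt (insert v V) o t) f * ∏ j, z j) = 0
    have hJ : t v ∈ Finset.univ.erase (x v) := Finset.mem_erase.2 ⟨htx, Finset.mem_univ _⟩
    have hΨ : z (t v) * z (x v) ∈ A.LL ((Box (insert v V) o x \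
        {γ | γ.2 = (tgt (insert v V) o t).2}) ∩ Row v (ee (t v) + o v)) :=
      mul_mem (A.perp_mono (hz _) fun γ hγ => ⟨hγ.1.1, hγ.1.2.2⟩)
        (A.perp_mono (hz _) fun γ hγ => (hγ.1.2.1 rfl).elim)
    have h1 := A.E_prod_rows (Finset.univ.erase (x v))
      (fun h => Finset.notMem_erase (x v) _ (h.symm ▸ Finset.mem_univ (x v))) v (o v)
      (Function.update z (t v) (A.sh (tgt (insert v V) o t) f * (z (t v) * z (x v))))
      fun j hj => by
        by_cases hjt : j = t v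
        · subst hjt
          rw [Function.update_self]
          refine mul_mem (A.perp_sh_tgt _ _ _ hf fun γ hγ => ⟨?_, hle (perp_tgt_lev _ _ _ hγ)⟩)
            (A.perp_mono hΨ fun γ hγ => ⟨hγ.2, hle hγ.1.1.1⟩)
          change γ.2 v = _
          rw [hγ, perp_tgt_snd, if_pos (Finset.mem_insert_self _ _)]
        · rw [Function.update_of_ne hjt]
          exact A.perp_mono (hz _) fun γ hγ => ⟨hγ.1.2.2, hle hγ.1.1.1.1⟩
    rw [Finset.prod_update_of_mem hJ, Finset.prod_eq_zero hJ] at h1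
    · rw [← h1, ← Finset.mul_prod_erase _ z (Finset.mem_univ (x v)),
        ← Finset.mul_prod_erase _ z hJ, Finset.sdiff_singleton_eq_erase]
      congr 1
      ring
    have h2 : sg v (-(ee (t v) + o v)) + tgt (insert v V) o t = tgt V o t := by
      rw [tgt, Finset.sum_insert hvV, ← add_assoc, ← sg_add, neg_add_cancel, sg_zero, zero_add,
        tgt]
    rw [Function.update_self, ← E_pull (A.sh_mp (sg v (-(ee (t v) + o v)))), map_mul, A.sh_sh, h2]
    refine ih (fun u hu => ht u (Finset.mem_insert_of_mem hu))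
      (A.sh_mem _ (fun γ hγ => ?_) hΨ)
    refine ⟨⟨fun s hs => ?_, fun u hu => ?_⟩, fun h => hγ.1.2 ?_⟩
    · have hs' : s ≠ v := by
        rintro rfl
        exact hs (by rw [add_sg_snd_self, show γ.2 s = _ from hγ.2, add_neg_cancel])
      rw [add_sg_snd_of_ne _ hs'] at hs
      exact (Finset.mem_insert.1 (hγ.1.1.1 s hs)).resolve_left hs'
    · rw [add_sg_snd_of_ne _ (hv u hu).ne]
      exact hγ.1.1.2 u (Finset.mem_insert_of_mem hu)
    · rw [← h2, add_comm (sg _ _)] at h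
      exact add_right_cancel h

/-- The transport of functions along `perp_rho`. -/
lemma perp_T_mem (σ : ℚ ↪o ℚ) (g : Gam k) {Δ Δ' : Set (Gam k)} {y : LB A.P} (hy : y ∈ A.LL Δ)
    (h : ∀ γ ∈ Δ, gmap σ (γ + g) ∈ Δ') : A.em σ (A.sh g y) ∈ A.LL Δ' :=
  A.em_mem σ (Δ := {γ | gmap σ γ ∈ Δ'}) (fun _ h => h) (A.sh_mem g h hy)

/-- The statement proved by induction. -/
def PerpP (f : LB A.P) (n : ℕ) : Prop :=
  ∀ (V : Finset ℚ) (o : ℚ → Dig k) (x t : ℚ → Fin k) (_ : ∀ v ∈ V, t v ≠ x v)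
    (J : ℚ → Finset (Fin k)) (_ : ∀ v ∈ V, ∀ j ∈ J v, j ≠ x v ∧ j ≠ t v)
    (_ : ∑ v ∈ V, 3 ^ (J v).card ≤ n) (S : Finset ℚ) (Φ : LB A.P)
    (_ : Φ ∈ A.LL (Box V o x \ {γ | γ.2 = (tgt V o t).2})) (U : ℚ → Fin k → LB A.P)
    (_ : ∀ v ∈ V, ∀ j ∈ J v, U v j ∈ A.LL (Row v (ee j + o v) ∩ lev (S : Set ℚ))),
    E A.P (A.sh (tgt V o t) f * Φ * ∏ v ∈ V, ∏ j ∈ J v, U v j) = 0

/-- Two copies of the remaining product are orthogonal. -/
lemma perp_step {f : LB A.P} (hf : f ∈ A.LL (lev ∅)) {n : ℕ} (ih : A.PerpP f n)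
    {V : Finset ℚ} {o : ℚ → Dig k} {x t : ℚ → Fin k} (ht : ∀ v ∈ V, t v ≠ x v)
    {J : ℚ → Finset (Fin k)} (hJ : ∀ v ∈ V, ∀ j ∈ J v, j ≠ x v ∧ j ≠ t v)
    (hn : ∑ v ∈ V, 3 ^ (J v).card ≤ n + 1) {S : Finset ℚ} {Φ : LB A.P}
    (hΦ : Φ ∈ A.LL (Box V o x \ {γ | γ.2 = (tgt V o t).2})) {U : ℚ → Fin k → LB A.P}
    (hU : ∀ v ∈ V, ∀ j ∈ J v, U v j ∈ A.LL (Row v (ee j + o v) ∩ lev (S : Set ℚ)))
    {v : ℚ} (hv : v ∈ V) {d : Fin k} (hd : d ∈ J v) {a b : ℚ} {σ τ : ℚ ↪o ℚ} (hab : a ≠ b)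
    (ha : a ∉ S ∪ V) (hb : b ∉ S ∪ V) (hσ : σ v = a) (hτ : τ v = b)
    (hσ' : ∀ y ∈ S ∪ V, y ≠ v → σ y = y) (hτ' : ∀ y ∈ S ∪ V, y ≠ v → τ y = y) (W : LB A.P)
    (hW : W = A.sh (tgt V o t) f * Φ *
      ((∏ j ∈ (J v).erase d, U v j) * ∏ u ∈ V.erase v, ∏ j ∈ J u, U u j)) :
    ⟪A.em τ (A.sh (sg v (-(ee d + o v))) W), A.em σ (A.sh (sg v (-(ee d + o v))) W)⟫_ℂ = 0 := by
  set g : Gam k := sg v (-(ee d + o v)) with hg
  have hS : (lev (S : Set ℚ) : Set (Gam k)) ⊆ lev ((S ∪ V : Finset ℚ) : Set ℚ) :=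
    lev_mono (by simp)
  have hV : (lev (V : Set ℚ) : Set (Gam k)) ⊆ lev ((S ∪ V : Finset ℚ) : Set ℚ) :=
    lev_mono (by simp)
  have rσ := fun γ hγ => perp_rho hσ hσ' (-(ee d + o v)) (γ := γ) hγ
  have rτ := fun γ hγ => perp_rho hτ hτ' (-(ee d + o v)) (γ := γ) hγ
  rw [← hg] at rσ rτ
  have haV : a ∉ V := fun h => ha (Finset.mem_union_right _ h)
  have hbV : b ∉ V := fun h => hb (Finset.mem_union_right _ h)
  have hav : a ≠ v := fun h => haV (h ▸ hv)
  have hbv : b ≠ v := fun h => hbV (h ▸ hv)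
  have hba := hab.symm
  have hne : ∀ u ∈ V.erase v, u ≠ a ∧ u ≠ b ∧ u ≠ v := fun u hu =>
    ⟨fun h => haV (h ▸ Finset.mem_of_mem_erase hu), fun h => hbV (h ▸ Finset.mem_of_mem_erase hu),
      Finset.ne_of_mem_erase hu⟩
  have hz : ∀ γ ∈ (lev ((S ∪ V : Finset ℚ) : Set ℚ) : Set (Gam k)), γ.2 a = 0 ∧ γ.2 b = 0 :=
    fun γ hγ => ⟨by by_contra h; exact ha (hγ a h), by by_contra h; exact hb (hγ b h)⟩
  let o' : ℚ → Dig k := fun u => if u = a ∨ u = b then -ee d else o u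
  let x' : ℚ → Fin k := fun u => if u = a ∨ u = b then x v else x u
  let t' : ℚ → Fin k := fun u => if u = a then t v else if u = b then d else t u
  let J' : ℚ → Finset (Fin k) := fun u => if u = a ∨ u = b then (J v).erase d else J u
  let U' : ℚ → Fin k → LB A.P := fun u j => if u = a then A.em σ (A.sh g (U v j)) else
    if u = b then star (A.em τ (A.sh g (U v j))) else
      A.em σ (A.sh g (U u j)) * star (A.em τ (A.sh g (U u j)))
  let V' : Finset ℚ := insert a (insert b (V.erase v))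
  have hb' : b ∉ V.erase v := fun h => hbV (Finset.mem_of_mem_erase h)
  have ha' : a ∉ insert b (V.erase v) := by
    rw [Finset.mem_insert, not_or]
    exact ⟨hab, fun h => haV (Finset.mem_of_mem_erase h)⟩
  have hall : ∀ P : ℚ → Prop, P a → P b → (∀ u ∈ V.erase v, P u) → ∀ u ∈ V', P u :=
    fun P h1 h2 h3 => Finset.forall_mem_insert _ _ _ |>.2
      ⟨h1, Finset.forall_mem_insert _ _ _ |>.2 ⟨h2, h3⟩⟩
  have hT : gmap σ (tgt V o t + g) = tgt V' o' t' := by
    refine Prod.ext ?_ (Finsupp.ext fun s => ?_)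
    · rw [perp_tgt_fst]
      change (tgt V o t).1 + 0 = 0
      rw [perp_tgt_fst, add_zero]
    · rw [rσ _ (hV (perp_tgt_lev V o t rfl)), perp_tgt_snd, perp_tgt_snd, perp_tgt_snd]
      by_cases h1 : s = a
      · simp [h1, V', o', t', hv]
      by_cases h2 : s = b
      · simp [h2, V', o', t', hba, hbv, hbV]
      by_cases h3 : s = v
      · simp [h3, V', hav.symm, hbv.symm]
      simp [V', o', t', h1, h2, h3]
  have hlev : ∀ (c : ℚ) (ρ : ℚ ↪o ℚ), (c = a ∨ c = b) → (∀ γ ∈ (lev ((S ∪ V : Finset ℚ) : Set ℚ) :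
      Set (Gam k)), ∀ s, (gmap ρ (γ + g)).2 s =
        if s = c then γ.2 v + -(ee d + o v) else if s = v then 0 else γ.2 s) →
      ∀ R : Finset ℚ, R ⊆ S ∪ V → ∀ γ ∈ (lev (R : Set ℚ) : Set (Gam k)),
        gmap ρ (γ + g) ∈ lev ((insert a (insert b (R.erase v)) : Finset ℚ) : Set ℚ) := by
    intro c ρ hc hr R hR γ hγ s hs
    rw [hr γ (lev_mono (by exact_mod_cast hR) hγ)] at hs
    split_ifs at hs with h1 h2
    · rcases hc with rfl | rfl <;> simp [h1]
    · exact (hs rfl).elim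
    · have := hγ s hs
      simp_all
  have hdx := hJ v hv d hd
  have hBσ : ∀ γ ∈ Box V o x, gmap σ (γ + g) ∈ Box V' o' x' := fun γ hγ =>
    ⟨hlev a σ (.inl rfl) rσ V Finset.subset_union_right γ hγ.1, hall _
      ((hγ.2 v hv).imp fun j hj => ⟨by simpa [x'] using hj.1, by
        rw [rσ γ (hV hγ.1), hj.2]; simp [o']⟩)
      ⟨d, by simpa [x'] using hdx.1, by
        rw [rσ γ (hV hγ.1), (hz γ (hV hγ.1)).2]; simp [o', hba]⟩
      fun u hu => (hγ.2 u (Finset.mem_of_mem_erase hu)).imp fun j hj =>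
        ⟨by simpa [x', hne u hu] using hj.1, by
          rw [rσ γ (hV hγ.1), hj.2]; simp [o', hne u hu]⟩⟩
  have hBτ : ∀ γ ∈ Box V o x, gmap τ (γ + g) ∈ Box V' o' x' := fun γ hγ =>
    ⟨hlev b τ (.inr rfl) rτ V Finset.subset_union_right γ hγ.1, hall _
      ⟨d, by simpa [x'] using hdx.1, by
        rw [rτ γ (hV hγ.1), (hz γ (hV hγ.1)).1]; simp [o', hab]⟩
      ((hγ.2 v hv).imp fun j hj => ⟨by simpa [x'] using hj.1, by
        rw [rτ γ (hV hγ.1), hj.2]; simp [o']⟩)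
      fun u hu => (hγ.2 u (Finset.mem_of_mem_erase hu)).imp fun j hj =>
        ⟨by simpa [x', hne u hu] using hj.1, by
          rw [rτ γ (hV hγ.1), hj.2]; simp [o', hne u hu]⟩⟩
  have key := ih V' o' x' t' (hall _ (by simpa [x', t'] using ht v hv)
      (by simpa [x', t', hba] using hdx.1)
      fun u hu => by simpa [x', t', hne u hu] using ht u (Finset.mem_of_mem_erase hu))
    J' (hall _ (fun j hj => by
        simp only [J', x', t', true_or, if_true] at hj ⊢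
        exact hJ v hv j (Finset.mem_of_mem_erase hj))
      (fun j hj => by
        simp only [J', x', t', or_true, if_true, if_neg hba] at hj ⊢
        exact ⟨(hJ v hv j (Finset.mem_of_mem_erase hj)).1, Finset.ne_of_mem_erase hj⟩)
      fun u hu => by simpa [x', t', J', hne u hu] using hJ u (Finset.mem_of_mem_erase hu))
    (by
      rw [Finset.sum_insert ha', Finset.sum_insert hb',
        Finset.sum_congr rfl (g := fun u => 3 ^ (J u).card) fun u hu => by simp [J', hne u hu]]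
      rw [← Finset.add_sum_erase _ _ hv, ← Finset.card_erase_add_one hd, pow_succ] at hn
      simp only [J', true_or, or_true, if_true]
      have := Nat.one_le_pow ((J v).erase d).card 3 (by norm_num)
      omega)
    (insert a (insert b (S.erase v)))
    (A.em σ (A.sh g Φ) * star (A.em τ (A.sh g (A.sh (tgt V o t) f * Φ))))
    (mul_mem (A.perp_T_mem σ g hΦ fun γ hγ => ⟨hBσ γ hγ.1, fun h => hγ.2 (by
        rw [← hT] at h
        exact add_right_cancel (Finsupp.embDomain_injective _ h))⟩)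
      (star_mem (A.perp_T_mem τ g (Δ := Box V o x) (mul_mem
        (A.perp_sh_tgt _ _ _ hf fun γ hγ => perp_tgt_box V o x t ht hγ)
        (A.perp_mono hΦ fun γ hγ => hγ.1)) fun γ hγ => ⟨hBτ γ hγ, fun h => by
          have h1 := DFunLike.congr_fun h a
          rw [rτ γ (hV hγ.1), (hz γ (hV hγ.1)).1, perp_tgt_snd] at h1
          simp only [V', o', t', hab, Finset.mem_insert, true_or, if_true, if_false, ite_self] at h1
          exact hdx.2 (ee_sub_inj (c := d) (by rw [sub_self, h1, sub_eq_add_neg]))⟩)))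
    U' (hall _
      (fun j hj => by
        simp only [J', U', o', true_or, if_true] at hj ⊢
        refine A.perp_T_mem σ g (hU v hv j (Finset.mem_of_mem_erase hj)) fun γ hγ =>
          ⟨?_, hlev a σ (.inl rfl) rσ S Finset.subset_union_left γ hγ.2⟩
        change _ = _
        rw [rσ γ (hS hγ.2), show γ.2 v = _ from hγ.1]
        simp)
      (fun j hj => by
        simp only [J', U', o', or_true, if_true, if_neg hba] at hj ⊢
        refine star_mem (A.perp_T_mem τ g (hU v hv j (Finset.mem_of_mem_erase hj)) fun γ hγ =>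
          ⟨?_, hlev b τ (.inr rfl) rτ S Finset.subset_union_left γ hγ.2⟩)
        change _ = _
        rw [rτ γ (hS hγ.2), show γ.2 v = _ from hγ.1]
        simp)
      fun u hu j hj => by
        simp only [J', U', o', hne u hu, or_false, if_false] at hj ⊢
        refine mul_mem (A.perp_T_mem σ g (hU u (Finset.mem_of_mem_erase hu) j hj) fun γ hγ =>
          ⟨?_, hlev a σ (.inl rfl) rσ S Finset.subset_union_left γ hγ.2⟩)
          (star_mem (A.perp_T_mem τ g (hU u (Finset.mem_of_mem_erase hu) j hj) fun γ hγ =>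
          ⟨?_, hlev b τ (.inr rfl) rτ S Finset.subset_union_left γ hγ.2⟩))
        · change _ = _
          rw [rσ γ (hS hγ.2), if_neg (hne u hu).1, if_neg (hne u hu).2.2]
          exact hγ.1
        · change _ = _
          rw [rτ γ (hS hγ.2), if_neg (hne u hu).2.1, if_neg (hne u hu).2.2]
          exact hγ.1)
  have h1 : A.em σ (A.sh g (A.sh (tgt V o t) f)) = A.sh (tgt V' o' t') f := by
    rw [A.sh_sh, A.em_sh, A.em_std σ hf, add_comm, hT]
  rw [Finset.prod_insert ha', Finset.prod_insert hb', ← h1,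
    Finset.prod_congr rfl (g := fun u => ∏ j ∈ J u,
      A.em σ (A.sh g (U u j)) * star (A.em τ (A.sh g (U u j))))
      fun u hu => by simp [J', U', hne u hu]] at key
  rw [inner_def, ← key, hW]
  simp only [J', U', true_or, or_true, if_true, if_neg hba, map_mul, map_prod, star_mul, star_prod,
    Finset.prod_mul_distrib]
  congr 1
  ring

/-- The Cauchy-Schwarz induction. -/
lemma perp_aux {f : LB A.P} (hf : f ∈ A.LL (lev ∅)) (hf0 : E A.P f = 0) (n : ℕ) :
    ∀ (V : Finset ℚ) (o : ℚ → Dig k) (x t : ℚ → Fin k) (_ : ∀ v ∈ V, t v ≠ x v)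
      (J : ℚ → Finset (Fin k)) (_ : ∀ v ∈ V, ∀ j ∈ J v, j ≠ x v ∧ j ≠ t v)
      (_ : ∑ v ∈ V, 3 ^ (J v).card ≤ n) (S : Finset ℚ) (Φ : LB A.P)
      (_ : Φ ∈ A.LL (Box V o x \ {γ | γ.2 = (tgt V o t).2})) (U : ℚ → Fin k → LB A.P)
      (_ : ∀ v ∈ V, ∀ j ∈ J v, U v j ∈ A.LL (Row v (ee j + o v) ∩ lev (S : Set ℚ))),
      E A.P (A.sh (tgt V o t) f * Φ * ∏ v ∈ V, ∏ j ∈ J v, U v j) = 0 := by
  change A.PerpP f n
  induction n with
  | zero =>
    intro V o x t ht J _ hn S Φ hΦ U _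
    obtain rfl : V = ∅ := Finset.eq_empty_of_forall_notMem fun v hv =>
      (Nat.pos_of_ne_zero (by positivity)).ne' (Finset.sum_eq_zero_iff.1 (Nat.le_zero.1 hn) v hv)
    rw [Finset.prod_empty, mul_one]
    exact A.box_indep _ o x t ht hf hf0 hΦ
  | succ n ih =>
    intro V o x t ht J hJ hn S Φ hΦ U hU
    by_cases h : ∀ v ∈ V, J v = ∅
    · rw [Finset.prod_eq_one fun v hv => by rw [h v hv, Finset.prod_empty], mul_one]
      exact A.box_indep _ o x t ht hf hf0 hΦ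
    obtain ⟨v, hv, d, hd⟩ : ∃ v ∈ V, ∃ d, d ∈ J v := by
      by_contra h'
      exact h fun v hv => Finset.eq_empty_of_forall_notMem fun d hd => h' ⟨v, hv, d, hd⟩
    obtain ⟨w, σ, hw, hwF, hσ, hσ'⟩ := exists_copies (S ∪ V) v
    obtain ⟨W, hW⟩ : ∃ W, W = A.sh (tgt V o t) f * Φ *
      ((∏ j ∈ (J v).erase d, U v j) * ∏ u ∈ V.erase v, ∏ j ∈ J u, U u j) := ⟨_, rfl⟩
    refine eq_zero_of_orthogonal (star (A.sh (sg v (-(ee d + o v))) (U v d)))
      (fun m => A.em (σ m) (A.sh (sg v (-(ee d + o v))) W)) _ ‖W‖ (fun m => by simp)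
      (fun m m' hm => A.perp_step hf ih ht hJ hn hΦ hU hv hd (hw.ne hm.symm) (hwF _) (hwF _)
        (hσ _) (hσ _) (hσ' _) (hσ' _) W hW) fun m => ?_
    have h1 : A.em (σ m) (A.sh (sg v (-(ee d + o v))) (U v d)) =
        A.sh (sg v (-(ee d + o v))) (U v d) := by
      refine A.em_fix (Δ := lev (S.erase v : Finset ℚ)) _
        (fun γ hγ => gmap_fix _ (fun s hs => ?_) hγ) (A.sh_mem _ (fun γ hγ => ?_) (hU v hv d hd))
      · exact hσ' m s (Finset.mem_union_left _ (Finset.mem_of_mem_erase hs))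
          (Finset.ne_of_mem_erase hs)
      · intro s hs
        have hs' : s ≠ v := by
          rintro rfl
          exact hs (by rw [add_sg_snd_self, show γ.2 s = _ from hγ.1, add_neg_cancel])
        rw [add_sg_snd_of_ne _ hs'] at hs
        exact Finset.mem_erase.2 ⟨hs', hγ.2 s hs⟩
    rw [← E_mul_eq_inner, ← h1, ← map_mul, ← map_mul, E_pull, E_pull, hW,
      ← Finset.mul_prod_erase _ _ hv, ← Finset.mul_prod_erase _ _ hd]
    congr 1
    ring

theorem ind_std_DN : Ind A.P (FF (lev ∅)) (FF (DN k)) := by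
  intro a ha b hb
  have hf : a - algebraMap ℂ _ (E A.P a) ∈ A.LL (lev ∅) := sub_mem ha (algebraMap_mem _ _)
  have hf0 : E A.P (a - algebraMap ℂ _ (E A.P a)) = 0 := by rw [map_sub, E_algebraMap, sub_self]
  suffices h : E A.P ((a - algebraMap ℂ _ (E A.P a)) * b) = 0 by
    rwa [sub_mul, map_sub, ← Algebra.smul_def, map_smul, smul_eq_mul, sub_eq_zero] at h
  generalize a - algebraMap ℂ _ (E A.P a) = f at hf hf0
  rcases (DN k).eq_empty_or_nonempty with h0 | ⟨_, _, i0, e0, _, _, h0, _⟩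
  · obtain ⟨c, rfl⟩ := A.perp_const (h0 ▸ hb)
    rw [mul_comm, ← Algebra.smul_def, map_smul, hf0, smul_zero]
  have hch : ∀ s, ∃ i e : Fin k, i ≠ e ∧
      ∀ i' e', col k s = some (i', e') → i' ≠ e' → i' = i ∧ e' = e := fun s => by
    by_cases h : ∃ i e, col k s = some (i, e) ∧ i ≠ e
    · obtain ⟨i, e, h1, h2⟩ := h
      exact ⟨i, e, h2, fun i' e' h3 _ => Prod.ext_iff.1 (Option.some.inj (h3.symm.trans h1))⟩
    · exact ⟨i0, e0, h0, fun i e h1 h2 => (h ⟨i, e, h1, h2⟩).elim⟩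
  choose t x htx hc using hch
  refine A.LL_lev_induction _ _ (A.perp_closed f) (fun S => A.LL_cover_induction (ι := S × Fin k) _
    (fun p => {γ | (p.2 ≠ x p.1 ∧ p.2 ≠ t p.1) ∧ γ.2 p.1 = ee p.2 + -ee (t p.1)}) ?_ _
    (A.perp_closed f) fun S' z hz => ?_) b hb
  · rintro γ ⟨⟨s, i, e, j, h1, h2, h3, h4, h5⟩, hγ⟩
    obtain ⟨rfl, rfl⟩ := hc s i e h1 h2
    refine ⟨(⟨s, hγ s fun h => h3 (ee_sub_inj (c := t s) ?_)⟩, j), ⟨h4, h3⟩, ?_⟩
    · rw [← h5, h, sub_self]
    · rw [← sub_eq_add_neg]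
      exact h5
  let U : ℚ → Fin k → LB A.P := fun s j => if h : s ∈ S then z (⟨s, h⟩, j) else 1
  have h1 : tgt S (fun s => -ee (t s)) t = 0 := by simp [tgt]
  have h2 := A.perp_aux hf hf0 _ S (fun s => -ee (t s)) x t (fun s _ => htx s)
    (fun s => Finset.univ.filter fun j => j ≠ x s ∧ j ≠ t s)
    (fun s _ j hj => (Finset.mem_filter.1 hj).2) le_rfl S'
    (∏ s ∈ S, ∏ j ∈ Finset.univ.filter fun j => ¬ (j ≠ x s ∧ j ≠ t s), U s j)
    (prod_mem fun s hs => prod_mem fun j hj => by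
      simp only [U, dif_pos hs]
      exact A.perp_mono (hz _) fun γ hγ => ((Finset.mem_filter.1 hj).2 hγ.1.2.1).elim) U
    fun s hs j _ => by
      simp only [U, dif_pos hs]
      exact A.perp_mono (hz _) fun γ hγ => ⟨hγ.1.2.2, hγ.2⟩
  change E A.P (f * ∏ p, z p) = 0
  rw [← h2, h1, A.sh_zero, mul_assoc, ← Finset.prod_mul_distrib, Fintype.prod_prod_type,
    ← Finset.prod_coe_sort S]
  congr 2
  refine Finset.prod_congr rfl fun s _ => ?_
  rw [mul_comm, Finset.prod_filter_mul_prod_filter_not]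
  simp only [U, dif_pos s.2]

end Arr

end Vale.Agent.P102
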