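import Vale.Agent.P102.Cells
import Vale.Agent.P102.Perp
import Vale.Agent.P102.Fiber
import Vale.Agent.P102.Meas
import Vale.Agent.P102.Cube
import Vale.Agent.P102.Det

/-! Assembly on the array space. -/

namespace Vale.Agent.P102
open MeasureTheory ProbabilityTheory Filter Topology Set
open scoped InnerProductSpace ComplexConjugate

variable {n : ℕ}

/-- Time shifts of representatives. -/
noncomputable def VV {k : ℕ} (u : Fin k → BMF (inferInstance : MeasurableSpace (Om k)))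
    (i : Fin k) (j : ℕ) : BMF (inferInstance : MeasurableSpace (Om k)) :=
  bmfComp (pl (· + tm j)) (measurable_pl _) (u i)

lemma map_mon {R S : Type*} [CommSemiring R] [Algebra ℂ R] [Star R] [CommSemiring S] [Algebra ℂ S]
    [Star S] (φ : R →⋆ₐ[ℂ] S) {k : ℕ} (v : Fin k → ℕ → R) (s : Multiset (Fin k × ℕ × Bool)) :
    φ (mon v s) = mon (fun i j => φ (v i j)) s := by
  rw [mon, mon, map_multiset_prod, Multiset.map_map]
  congr 2
  funext p
  simp only [Function.comp]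
  split_ifs
  · rfl
  · exact map_star _ _

lemma mon_add {R : Type*} [CommMonoid R] [Star R] {k : ℕ} (v : Fin k → ℕ → R)
    (s t : Multiset (Fin k × ℕ × Bool)) : mon v (s + t) = mon v s * mon v t := by
  simp [mon]

lemma mon_monShift {R : Type*} [CommMonoid R] [Star R] {k : ℕ} (v : Fin k → ℕ → R) (m : ℕ)
    (s : Multiset (Fin k × ℕ × Bool)) :
    mon v (monShift m s) = mon (fun i j => v i (j + m)) s := by
  rw [mon, mon, monShift, Multiset.map_map]
  rfl

lemma mon_univ {R : Type*} [CommMonoid R] [Star R] {k : ℕ} (v : Fin k → ℕ → R) (j : Fin k → ℕ) :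
    mon v (Finset.univ.val.map fun i => (i, j i, true)) = ∏ i, v i (j i) := by
  rw [mon, Multiset.map_map]
  rfl

namespace Arr

variable (A : Arr (n + 3))

/-- The conditional measures given the noise. -/
noncomputable abbrev ka (ω : Om (n + 3)) : Measure (Om (n + 3)) := fib A.P (FF (DN (n + 3))) ω

/-- The characters of the fibre in direction `Q`. -/
abbrev KK (Q : ℚ) (ω : Om (n + 3)) : Set (LB (A.ka ω)) :=
  Chr (A.ka ω) (FF (RR Q {0})) (FF (RR Q {1})) (FF (RR Q (J2 n)))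

/-- Pairwise independence in the fibre. -/
def Pw (Q : ℚ) (ω : Om (n + 3)) : Prop :=
  Ind (A.ka ω) (FF (RR Q {0})) (FF (RR Q {1})) ∧ Ind (A.ka ω) (FF (RR Q {0})) (FF (RR Q (J2 n))) ∧
    Ind (A.ka ω) (FF (RR Q {1})) (FF (RR Q (J2 n)))

/-- Good fibres. -/
def Good (u : Fin (n + 3) → BMF (inferInstance : MeasurableSpace (Om (n + 3)))) (Q : ℚ)
    (ω : Om (n + 3)) : Prop :=
  A.Pw Q ω ∧ A.Pw (Q + 1) ω ∧ ∀ i j, cls (A.ka ω) (VV u i j) ∈
    closure (Submodule.span ℂ (A.KK Q ω ∩ A.KK (Q + 1) ω) : Set (LB (A.ka ω)))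

lemma zero_one_pi {s : Set (Om (n + 3))} (hs : MeasurableSet[(FF (DN (n + 3))).1] s)
    (h : ∀ᵐ ω ∂A.P, pl (gmap piE) ω ∈ s ↔ ω ∈ s) :
    (∀ᵐ ω ∂A.P, ω ∈ s) ∨ ∀ᵐ ω ∂A.P, ω ∉ s := by
  have hs0 : MeasurableSet s := (FF (DN (n + 3))).2 s hs
  have h1 : A.em piE (ind A.P s hs0) = ind A.P s hs0 := by
    rw [pull_ind, ind, ind, mk_eq_iff]
    filter_upwards [h] with ω hω
    change (pl (gmap piE) ⁻¹' s).indicator (fun _ => (1 : ℂ)) ω = s.indicator (fun _ => (1 : ℂ)) ω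
    by_cases h' : ω ∈ s
    · rw [indicator_of_mem h', indicator_of_mem (show ω ∈ pl (gmap piE) ⁻¹' s from hω.2 h')]
    · rw [indicator_of_notMem h', indicator_of_notMem
        (show ω ∉ pl (gmap piE) ⁻¹' s from fun h'' => h' (hω.1 h''))]
  have h2 := A.ind_std_DN.eq_const (A.std_of_pi h1) (ind_mem_L hs)
  rw [← AlgHomClass.commutes (cls A.P), ind, mk_eq_iff] at h2
  by_cases hc : E A.P (cls A.P (bmfInd s hs0)) = 1
  · left
    filter_upwards [h2] with ω hω
    by_contra h'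
    change s.indicator (fun _ => (1 : ℂ)) ω = E A.P (cls A.P (bmfInd s hs0)) at hω
    rw [indicator_of_notMem h', hc] at hω
    exact zero_ne_one hω
  · right
    filter_upwards [h2] with ω hω h'
    change s.indicator (fun _ => (1 : ℂ)) ω = E A.P (cls A.P (bmfInd s hs0)) at hω
    rw [indicator_of_mem h'] at hω
    exact hc hω.symm

lemma cls_VV {k : ℕ} (A : Arr k) (u : Fin k → BMF (inferInstance : MeasurableSpace (Om k)))
    (i : Fin k) (j : ℕ) : cls A.P (VV u i j) = A.sh (tm j) (cls A.P (u i)) :=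
  (pull_mk _ _).symm

lemma sh_tm_std {k : ℕ} (A : Arr k) (m : ℤ) {x : LB A.P} (hx : x ∈ A.LL (lev ∅)) :
    A.sh (tm m) x ∈ A.LL (lev ∅) :=
  A.sh_mem _ (fun γ hγ => by
    rw [mem_lev_empty] at hγ ⊢
    rw [add_tm_snd, hγ]) hx

lemma std_mem_R {k : ℕ} [NeZero k] (A : Arr k) (Q : ℚ) {x : LB A.P} (hx : x ∈ A.LL (lev ∅)) :
    x ∈ A.LL (RR Q {0}) :=
  A.LL_mono (fun γ hγ => Or.inr ⟨0, Finset.mem_singleton_self _, by
    rw [mem_lev_empty.1 hγ, sub_self]
    rfl⟩) hx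

lemma ae_good (u : Fin (n + 3) → BMF (inferInstance : MeasurableSpace (Om (n + 3)))) {Q : ℚ}
    (hQ : Free (n + 3) Q) (hstd : ∀ i, cls A.P (u i) ∈ A.LL (lev ∅))
    (hu : ∀ i Q, Free (n + 3) Q → cls A.P (u i) ∈ A.LL (RR Q (J1 n))) :
    ∀ᵐ ω ∂A.P, A.Good u Q ω := by
  have hQ1 : Free (n + 3) (Q + 1) := (col_add_one Q).trans hQ
  have hQ2 : Free (n + 3) (Q + 1 + 1) := (col_add_one (Q + 1)).trans hQ1
  set Q' : Fin 3 → ℚ := ![Q, Q + 1, Q + 1 + 1] with hQ'
  have hinj : Function.Injective Q' := by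
    refine StrictMono.injective (Fin.strictMono_iff_lt_succ.2 fun i => ?_)
    fin_cases i <;> simp [hQ']
  have hf : ∀ a, Free (n + 3) (Q' a) := fun a => by
    fin_cases a
    exacts [hQ, hQ1, hQ2]
  obtain ⟨C, hcg, hle, hmem⟩ := A.exists_cells Q' hinj hf
  have hcube := fib_cube (FF (DN (n + 3))) ⟨fun a => FF (RR (Q' a) {0}),
    fun a => FF (RR (Q' a) {1}), fun a => FF (RR (Q' a) (J2 n)), C⟩ (fun _ => FF_cg _)
    (fun _ => FF_cg _) (fun _ => FF_cg _) hcg hle (fun a => A.cind_RA (hf a))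
    (fun a => A.cind_RB (hf a)) (fun a => A.cind_AB (hf a))
  have hv : ∀ᵐ ω ∂A.P, ∀ i j, cls (A.ka ω) (VV u i j) ∈ L (A.ka ω) (C fun _ => none) := by
    rw [ae_all_iff]
    intro i
    rw [ae_all_iff]
    intro j
    refine fib_mem _ (hmem _ fun a => ?_)
    rw [cls_VV]
    exact ⟨A.std_mem_R _ (A.sh_tm_std _ (hstd i)), A.sh_tm_mem_RR _ _ _ (hu i _ (hf a))⟩
  filter_upwards [hcube, hv] with ω h1 h2
  exact ⟨⟨h1.iRA 0, h1.iRB 0, h1.iAB 0⟩, ⟨h1.iRA 1, h1.iRB 1, h1.iAB 1⟩,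
    fun i j => h1.fourier (h2 i j)⟩

/-- Transport of queries along an invertible map on positions. -/
lemma qry_equiv {ρ ρ' : Gam (n + 3) → Gam (n + 3)} (h1 : ∀ γ, ρ (ρ' γ) = γ)
    (h2 : ∀ γ, ρ' (ρ γ) = γ) (hmp : MeasurePreserving (pl ρ) A.P A.P)
    (hN : ρ '' DN (n + 3) = DN (n + 3)) {Q Q' : ℚ} (hR : ∀ K, ρ '' RR Q K = RR Q' K)
    (V V' : Fin (n + 3) → ℕ → BMF (inferInstance : MeasurableSpace (Om (n + 3))))
    (hV : ∀ i j, V' i j = bmfComp (pl ρ) (measurable_pl ρ) (V i j)) (q : Query (n + 3)) :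
    ∀ᵐ ω ∂A.P, Qry (A.KK Q (pl ρ ω)) (fun i j => cls (A.ka (pl ρ ω)) (V i j)) q ↔
      Qry (A.KK Q' ω) (fun i j => cls (A.ka ω) (V' i j)) q := by
  have hn : (FF (DN (n + 3))).1 = (FF (DN (n + 3))).1.comap (pl ρ) := by
    rw [← comap_pl, hN]
  have hR' : ∀ K, ρ' '' RR Q' K = RR Q K := fun K => by
    rw [← hR, image_image]
    simp [h2]
  filter_upwards [fib_equivariant (FF (DN (n + 3))) hmp hn] with ω hω
  have e1 : pl ρ' ∘ pl ρ = id := by
    funext ω γ
    simp [pl, h1]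
  have hω' : MeasurePreserving (pl ρ') (A.ka (pl ρ ω)) (A.ka ω) := by
    refine ⟨measurable_pl _, ?_⟩
    unfold ka
    rw [← hω.map_eq, Measure.map_map (measurable_pl _) (measurable_pl _), e1, Measure.map_id]
  constructor
  · intro h
    have := qry_pull hω (R' := FF (RR Q' {0})) (A' := FF (RR Q' {1})) (B' := FF (RR Q' (J2 n)))
      (by rw [← comap_pl, hR]) (by rw [← comap_pl, hR]) (by rw [← comap_pl, hR]) _ q h
    simp only [pull_mk] at this
    simp only [hV]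
    exact this
  · intro h
    have := qry_pull hω' (R' := FF (RR Q {0})) (A' := FF (RR Q {1})) (B' := FF (RR Q (J2 n)))
      (by rw [← comap_pl, hR']) (by rw [← comap_pl, hR']) (by rw [← comap_pl, hR']) _ q h
    have e2 : ∀ i j, bmfComp (pl ρ') hω'.measurable (V' i j) = V i j := fun i j => by
      rw [hV]
      refine Subtype.ext (funext fun ω => ?_)
      refine congrArg (V i j : Om (n + 3) → ℂ) (funext fun γ => ?_)
      simp [pl, h2]
    simp only [pull_mk, e2] at this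
    exact this

lemma gmap_piE_piE' {k : ℕ} (γ : Gam k) : gmap piE (gmap piE' γ) = γ := by
  rw [gmap_gmap]
  exact gmap_fix (S := univ) _ (fun s _ => by simp [piE, piE']) fun _ _ => mem_univ _

lemma gmap_piE'_piE {k : ℕ} (γ : Gam k) : gmap piE' (gmap piE γ) = γ := by
  rw [gmap_gmap]
  exact gmap_fix (S := univ) _ (fun s _ => by simp [piE, piE']) fun _ _ => mem_univ _

/-- Every query holds in almost all fibres or fails in almost all fibres. -/
lemma qry_zero_one (u : Fin (n + 3) → BMF (inferInstance : MeasurableSpace (Om (n + 3)))) {Q : ℚ}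
    (hstd : ∀ i, Measurable[(FF (lev ∅)).1] (u i : Om (n + 3) → ℂ))
    (hg : ∀ᵐ ω ∂A.P, A.Good u Q ω) (q : Query (n + 3)) :
    (∀ᵐ ω ∂A.P, Qry (A.KK Q ω) (fun i j => cls (A.ka ω) (VV u i j)) q) ∨
      ∀ᵐ ω ∂A.P, ¬ Qry (A.KK Q ω) (fun i j => cls (A.ka ω) (VV u i j)) q := by
  obtain ⟨s, hs, hq⟩ := exists_measurable_qry (mW := (FF (DN (n + 3))).1) A.ka
    (measurable_E_fib (FF (DN (n + 3)))) (FF (RR Q {0})) (FF (RR Q {1})) (FF (RR Q (J2 n)))
    (VV u) q
  have hs' : ∀ᵐ ω ∂A.P, ω ∈ s ↔ Qry (A.KK Q ω) (fun i j => cls (A.ka ω) (VV u i j)) q := by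
    filter_upwards [hg] with ω hω
    exact hq ω hω.1.1 hω.1.2.1 hω.1.2.2 fun i j =>
      closure_mono (Submodule.span_mono inter_subset_left) (hω.2.2 i j)
  have hV : ∀ i j, VV u i j = bmfComp (pl (gmap piE)) (measurable_pl _) (VV u i j) := fun i j => by
    refine Subtype.ext (funext fun ω => ?_)
    change (u i : Om (n + 3) → ℂ) _ = (u i : Om (n + 3) → ℂ) _
    refine dependsOn_of_measurable (hstd i) fun γ hγ => ?_
    change ω (γ + tm j) = ω (gmap piE (γ + tm j))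
    rw [gmap_fix piE (S := ∅) (by simp)]
    rw [mem_lev_empty] at hγ ⊢
    rw [add_tm_snd, hγ]
  have hpi := A.qry_equiv gmap_piE_piE' gmap_piE'_piE (A.em_mp piE)
    (by rw [← RR_empty Q, image_piE_RR, RR_empty, RR_empty]) (image_piE_RR Q) (VV u) (VV u) hV q
  have hQQ : ∀ᵐ ω ∂A.P, Qry (A.KK (Q + 1) ω) (fun i j => cls (A.ka ω) (VV u i j)) q ↔
      Qry (A.KK Q ω) (fun i j => cls (A.ka ω) (VV u i j)) q := by
    filter_upwards [hg] with ω hω
    exact ⟨qry_of_inter (isCharSet_Chr hω.2.1.1 hω.2.1.2.1 hω.2.1.2.2)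
        (fun i j => inter_comm (A.KK Q ω) _ ▸ hω.2.2 i j) q,
      qry_of_inter (isCharSet_Chr hω.1.1 hω.1.2.1 hω.1.2.2) hω.2.2 q⟩
  have hinv : ∀ᵐ ω ∂A.P, pl (gmap piE) ω ∈ s ↔ ω ∈ s := by
    filter_upwards [hs', (A.em_mp piE).quasiMeasurePreserving.ae hs', hpi, hQQ] with ω a b c d
    rw [a, b, c, d]
  rcases A.zero_one_pi hs hinv with h | h
  · left
    filter_upwards [h, hs'] with ω a b
    exact b.1 a
  · right
    filter_upwards [h, hs'] with ω a b c
    exact a (b.2 c)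

lemma qry_time (u : Fin (n + 3) → BMF (inferInstance : MeasurableSpace (Om (n + 3)))) (Q : ℚ)
    (q : Query (n + 3)) : ∀ᵐ ω ∂A.P,
      Qry (A.KK Q (pl (· + tm 1) ω)) (fun i j => cls (A.ka (pl (· + tm 1) ω)) (VV u i j)) q ↔
        Qry (A.KK Q ω) (fun i j => cls (A.ka ω) (VV u i j)) q.shift := by
  have hR : ∀ K : Finset (Fin (n + 3)), (· + tm 1) '' RR Q K = RR Q K := fun K => by
    ext γ
    constructor
    · rintro ⟨γ, hγ, rfl⟩
      exact (add_tm_mem_RR Q K 1 γ).2 hγ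
    · intro hγ
      refine ⟨γ + tm (-1), (add_tm_mem_RR Q K _ γ).2 hγ, ?_⟩
      simp only [add_assoc, ← tm_add]
      simp
  refine A.qry_equiv (ρ := (· + tm 1)) (ρ' := (· + tm (-1))) (fun γ => ?_) (fun γ => ?_)
    (A.sh_mp _) (by rw [← RR_empty Q, hR]) hR (VV u) (fun i j => VV u i (j + 1))
    (fun i j => ?_) q
  · simp only [add_assoc, ← tm_add]
    simp
  · simp only [add_assoc, ← tm_add]
    simp
  · refine Subtype.ext (funext fun ω => ?_)
    refine congrArg (u i : Om (n + 3) → ℂ) (funext fun γ => ?_)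
    simp [pl, tm_add, add_assoc]

lemma ae_qry_shift (u : Fin (n + 3) → BMF (inferInstance : MeasurableSpace (Om (n + 3)))) {Q : ℚ}
    (hstd : ∀ i, Measurable[(FF (lev ∅)).1] (u i : Om (n + 3) → ℂ))
    (hg : ∀ᵐ ω ∂A.P, A.Good u Q ω) : ∀ᵐ ω ∂A.P, ∀ q : Query (n + 3),
      Qry (A.KK Q ω) (fun i j => cls (A.ka ω) (VV u i j)) q ↔
        Qry (A.KK Q ω) (fun i j => cls (A.ka ω) (VV u i j)) q.shift := by
  rw [ae_all_iff]
  intro q
  rcases A.qry_zero_one u hstd hg q with h | h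
  · filter_upwards [h, (A.sh_mp (tm 1)).quasiMeasurePreserving.ae h, A.qry_time u Q q]
      with ω a b c
    exact ⟨fun _ => c.1 b, fun _ => a⟩
  · filter_upwards [h, (A.sh_mp (tm 1)).quasiMeasurePreserving.ae h, A.qry_time u Q q]
      with ω a b c
    exact ⟨fun h' => absurd h' a, fun h' => absurd (c.2 h') b⟩

lemma mon_std {k : ℕ} (A : Arr k) {v : Fin k → ℕ → LB A.P} (hv : ∀ i j, v i j ∈ A.LL (lev ∅))
    (s : Multiset (Fin k × ℕ × Bool)) : mon v s ∈ A.LL (lev ∅) := by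
  refine multiset_prod_mem _ fun x hx => ?_
  obtain ⟨p, -, rfl⟩ := Multiset.mem_map.1 hx
  split_ifs
  · exact hv _ _
  · exact star_mem (hv _ _)

/-- Standard monomials have the same expectation in almost all fibres. -/
lemma ae_mon (u : Fin (n + 3) → BMF (inferInstance : MeasurableSpace (Om (n + 3))))
    (hstd : ∀ i, cls A.P (u i) ∈ A.LL (lev ∅)) : ∀ᵐ ω ∂A.P, ∀ s,
      E (A.ka ω) (mon (fun i j => cls (A.ka ω) (VV u i j)) s) =
        E A.P (mon (fun i j => A.sh (tm j) (cls A.P (u i))) s) := by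
  rw [ae_all_iff]
  intro s
  have h1 : cls A.P (mon (VV u) s) = mon (fun i j => A.sh (tm j) (cls A.P (u i))) s := by
    rw [map_mon]
    simp only [cls_VV]
  have h2 : cls A.P (mon (VV u) s) ∈ A.LL (lev ∅) :=
    h1 ▸ A.mon_std (fun i j => A.sh_tm_std _ (hstd i)) s
  filter_upwards [E_fib_const (FF (DN (n + 3))) (A.ind_std_DN.symm.cE_eq h2)] with ω hω
  rw [← h1, ← hω, map_mon]

lemma mon_shift_sh {k : ℕ} (A : Arr k) (x : Fin k → LB A.P) (m : ℕ)
    (s : Multiset (Fin k × ℕ × Bool)) :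
    mon (fun i (j : ℕ) => A.sh (tm j) (x i)) (monShift m s) =
      A.sh (tm m) (mon (fun i (j : ℕ) => A.sh (tm j) (x i)) s) := by
  rw [map_mon, mon_monShift]
  congr 1
  funext i j
  rw [A.sh_sh, ← tm_add, add_comm, Nat.cast_add]

theorem Lam_zero {q : ℚ} (hq : Free (n + 3) q) (f : Fin (n + 3) → LB A.P)
    (hf : ∀ i, f i ∈ A.LL (lev ∅)) (hb : ∀ i, Bd (f i) 1) (h0 : E A.P (f 0) = 0) :
    A.Lam q f = 0 := by
  by_contra hc
  obtain ⟨u, hu1, hu2, hu3, hu4, hu5⟩ := A.exists_universal hq f hf hb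
  choose w hw1 hw2 hw3 using fun i => exists_rep_bd (hu1 i) (hu2 i)
  have hstd : ∀ i, cls A.P (w i) ∈ A.LL (lev ∅) := fun i => hw3 i ▸ hu1 i
  have hg := A.ae_good w hq hstd fun i Q hQ => hw3 i ▸ hu4 i Q hQ
  obtain ⟨ω, hω1, hω2, hω3⟩ := (hg.and ((A.ae_qry_shift w hw1 hg).and (A.ae_mon w hstd))).exists
  simp only [hw3] at hω3
  have hpos : ∀ᶠ m in (A.U : Filter ℕ), ∀ i, 0 ≤ A.d i m - A.d 0 m := by
    rw [eventually_all]
    intro i
    rcases eq_or_ne i 0 with rfl | hi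
    · simp
    · exact (A.gap 0 i (Fin.pos_iff_ne_zero.2 hi)).eventually_ge_atTop 0
  refine det_false (isCharSet_Chr hω1.1.1 hω1.1.2.1 hω1.1.2.2)
    (fun i j => cls (A.ka ω) (VV w i j)) (fun i j => ?_) (fun i j => ?_) hω2 (fun s m => ?_)
    (fun s t => ?_) 0 ?_ (fun i m => (A.d i m - A.d 0 m).toNat) A.U (fun i j hij => ?_)
    (c := A.Lam q f) hc ?_
  · exact bd_mk_iff.2 (ae_of_all _ fun y => hw2 i _)
  · exact closure_mono (Submodule.span_mono inter_subset_left) (hω1.2.2 i j)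
  · rw [hω3, hω3, mon_shift_sh, E_pull]
  · simp only [← mon_add, hω3]
    simp only [mon_add, mon_shift_sh]
    exact A.mix2_std (A.mon_std (fun i j => A.sh_tm_std _ (hu1 i)) s)
      (A.mon_std (fun i j => A.sh_tm_std _ (hu1 i)) t)
  · have := hω3 {(0, 0, true)}
    simp only [mon, Multiset.map_singleton, Multiset.prod_singleton, if_true] at this
    rw [this, E_pull, hu3, h0]
  · refine (A.gap i j hij).congr' ?_
    filter_upwards [hpos] with m hm
    rw [Int.toNat_of_nonneg (hm i), Int.toNat_of_nonneg (hm j)]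
    ring
  · rw [← hu5]
    refine (A.freeze_Lam q u hu1).congr' ?_
    filter_upwards [hpos] with m hm
    have h1 := hω3 (Finset.univ.val.map fun i => (i, (A.d i m - A.d 0 m).toNat, true))
    rw [mon_univ, mon_univ] at h1
    rw [h1, ← E_pull (A.sh_mp (tm (-A.d 0 m))), map_prod]
    congr 1
    refine Finset.prod_congr rfl fun i _ => ?_
    rw [A.sh_sh, ← tm_add, Int.toNat_of_nonneg (hm i)]
    rw [neg_add_eq_sub]

theorem mixAll (s : Fin (n + 3) → Set (Om (n + 3)))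
    (hs : ∀ j, MeasurableSet[(FF (lev ∅)).1] (s j)) :
    Tendsto (fun m => A.P.real (⋂ j, pl (· + tm (A.d j m)) ⁻¹' s j)) A.U
      (𝓝 (∏ j, A.P.real (s j))) := by
  obtain ⟨q, -, -, hq⟩ := col_dense (k := n + 3) none (zero_lt_one' ℚ)
  have hs0 : ∀ j, MeasurableSet (s j) := fun j => (FF (lev ∅)).2 _ (hs j)
  set x : Fin (n + 3) → LB A.P := fun j => ind A.P (s j) (hs0 j) with hx
  have hxs : ∀ j, x j ∈ A.LL (lev ∅) := fun j => ind_mem_L (hs j)
  set c : ℂ := E A.P (x 0) with hc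
  have hc1 : ‖c‖ ≤ 1 := (norm_E_le _).trans (bd_ind _ _).norm_le
  set y : LB A.P := (1 / 2 : ℂ) • (x 0 - algebraMap ℂ _ c) with hy
  have hz := A.Lam_zero (q := q) hq (Function.update x 0 y) (fun i => by
      rcases eq_or_ne i 0 with rfl | hi
      · rw [Function.update_self]
        exact (A.LL (lev ∅)).smul_mem (sub_mem (hxs 0) ((A.LL (lev ∅)).algebraMap_mem c)) _
      · rw [Function.update_of_ne hi]
        exact hxs i)
    (fun i => by
      rcases eq_or_ne i 0 with rfl | hi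
      · rw [Function.update_self]
        refine (((bd_ind _ _).sub (bd_algebraMap c)).smul (1 / 2 : ℂ)).mono ?_
        norm_num
        linarith
      · rw [Function.update_of_ne hi]
        exact bd_ind _ _)
    (by rw [Function.update_self, hy, map_smul, map_sub, E_algebraMap, ← hc, sub_self, smul_zero])
  set G : LB A.P := ∏ i ∈ Finset.univ.erase 0, A.sh (sg q (ee i - ee 0)) (x i) with hG
  have hL : ∀ z, A.Lam q (Function.update x 0 z) = E A.P (z * G) := fun z => by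
    rw [Lam, ← Finset.mul_prod_erase _ _ (Finset.mem_univ 0), Function.update_self, sub_self,
      sg_zero, sh_zero]
    congr 2
    exact Finset.prod_congr rfl fun i hi => by
      rw [Function.update_of_ne (Finset.ne_of_mem_erase hi)]
  have hEG : E A.P G = ∏ i ∈ Finset.univ.erase 0, E A.P (x i) := by
    rw [hG, A.E_prod_rows _ (fun h => by simpa using h.ge (Finset.mem_univ 0)) q (-ee 0)]
    · simp only [E_pull]
    · intro j _
      refine A.sh_mem _ (fun γ hγ => ?_) (hxs j)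
      rw [mem_lev_empty] at hγ
      refine ⟨?_, fun t ht => ?_⟩
      · change (γ + sg q (ee j - ee 0)).2 q = _
        rw [add_sg_snd_self, hγ, sub_eq_add_neg]
        simp
      · by_contra h'
        have hne : t ≠ q := fun h'' => h' (by simp [h''])
        rw [add_sg_snd_of_ne _ hne, hγ] at ht
        exact ht rfl
  have hlam : A.Lam q x = ∏ i, E A.P (x i) := by
    have h1 := hL (x 0)
    rw [Function.update_eq_self] at h1
    rw [hL, hy, smul_mul_assoc, map_smul, sub_mul, map_sub, ← Algebra.smul_def, map_smul,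
      smul_eq_zero] at hz
    rw [h1, ← Finset.mul_prod_erase _ _ (Finset.mem_univ 0), ← hEG, ← hc]
    exact sub_eq_zero.1 (hz.resolve_left (by norm_num))
  have h1 := A.freeze_Lam q x hxs
  rw [hlam] at h1
  have h2 : Tendsto (fun m => ((A.P.real (⋂ j, pl (· + tm (A.d j m)) ⁻¹' s j) : ℝ) : ℂ)) A.U
      (𝓝 ((∏ j, A.P.real (s j) : ℝ) : ℂ)) := by
    simp only [hx, E_ind, pull_ind, prod_ind] at h1
    simpa using h1
  have h3 := (Complex.continuous_re.tendsto _).comp h2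
  rw [Complex.ofReal_re] at h3
  exact h3

end Arr

end Vale.Agent.P102
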