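import Vale.Agent.P102.Chars

/-! From shift invariance of queries to an endomorphism of the character group. -/

namespace Vale.Agent.P102
open MeasureTheory ProbabilityTheory Filter Topology
open scoped InnerProductSpace ComplexConjugate

/-- Queries in an abstract abelian group with coefficient functions `co`. -/
def HQry {H : Type*} [AddCommGroup H] {k : ℕ} (co : Fin k → ℕ → H → ℝ) (q : Query k) : Prop :=
  ∃ x : Fin q.1 → H, (∀ l, ((q.2.2.1 l : ℚ) : ℝ) < co (q.2.1 l).1 (q.2.1 l).2 (x l)) ∧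
    (∀ z ∈ q.2.2.2.1, ∑ l, z.1 l • x l = ∑ l, z.2 l • x l) ∧
    ∀ z ∈ q.2.2.2.2, ∑ l, z.1 l • x l ≠ ∑ l, z.2 l • x l

lemma konig_transfer {H : Type*} [AddCommGroup H] {k : ℕ} {co co' : Fin k → ℕ → H → ℝ}
    (δ : Fin k → {r : ℚ // 0 < r}) (hfin : ∀ i j, {h | ((δ i : ℚ) : ℝ) < co' i j h}.Finite)
    (hq : ∀ q, HQry co q → HQry co' q) {n : ℕ} (lab : Fin n → Fin k × ℕ) (x : Fin n → H)
    (hx : ∀ l, ((δ (lab l).1 : ℚ) : ℝ) < co (lab l).1 (lab l).2 (x l)) :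
    ∃ y : Fin n → H, (∀ l, ((δ (lab l).1 : ℚ) : ℝ) < co' (lab l).1 (lab l).2 (y l)) ∧
      ∀ a b : Fin n → ℕ, ∑ l, a l • x l = ∑ l, b l • x l ↔ ∑ l, a l • y l = ∑ l, b l • y l := by
  classical
  by_contra hc
  have hY : {y : Fin n → H | ∀ l, y l ∈
      {h | ((δ (lab l).1 : ℚ) : ℝ) < co' (lab l).1 (lab l).2 h}}.Finite :=
    Set.Finite.pi' fun l => hfin _ _
  have h1 : ∀ y ∈ hY.toFinset, ∃ z : (Fin n → ℕ) × (Fin n → ℕ),
      ¬ (∑ l, z.1 l • x l = ∑ l, z.2 l • x l ↔ ∑ l, z.1 l • y l = ∑ l, z.2 l • y l) := by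
    intro y hy
    by_contra h2
    exact hc ⟨y, hY.mem_toFinset.1 hy, fun a b => not_not.1 fun h3 => h2 ⟨(a, b), h3⟩⟩
  choose! z hz using h1
  obtain ⟨y, h2, h3, h4⟩ := hq ⟨n, lab, fun l => δ (lab l).1,
    (hY.toFinset.image z).filter fun w => ∑ l, w.1 l • x l = ∑ l, w.2 l • x l,
    (hY.toFinset.image z).filter fun w => ∑ l, w.1 l • x l ≠ ∑ l, w.2 l • x l⟩
    ⟨x, hx, fun w hw => (Finset.mem_filter.1 hw).2, fun w hw => (Finset.mem_filter.1 hw).2⟩
  have hy : y ∈ hY.toFinset := hY.mem_toFinset.2 h2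
  refine hz y hy ⟨fun h5 => h3 _ (Finset.mem_filter.2 ⟨Finset.mem_image_of_mem z hy, h5⟩),
    fun h5 => not_not.1 fun h6 => h4 _ (Finset.mem_filter.2 ⟨Finset.mem_image_of_mem z hy, h6⟩) h5⟩

lemma konig_int {H : Type*} [AddCommGroup H] {ι : Type*} [Fintype ι] (x : ι → H) (c : ι → ℤ) :
    ∑ l, c l • x l = 0 ↔ ∑ l, (c l).toNat • x l = ∑ l, (-c l).toNat • x l := by
  rw [← sub_eq_zero (a := ∑ l, (c l).toNat • x l), ← Finset.sum_sub_distrib]
  refine Eq.congr_left (Finset.sum_congr rfl fun l _ => ?_)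
  rw [← natCast_zsmul, ← natCast_zsmul, ← sub_smul, Int.toNat_sub_toNat_neg]

/-- The transfer for a finite family of labels and integer relations. -/
lemma konig_transfer' {H : Type*} [AddCommGroup H] {k : ℕ} {co co' : Fin k → ℕ → H → ℝ}
    (δ : Fin k → {r : ℚ // 0 < r}) (hfin : ∀ i j, {h | ((δ i : ℚ) : ℝ) < co' i j h}.Finite)
    (hq : ∀ q, HQry co q → HQry co' q) {ι : Type*} [Fintype ι] (lab : ι → Fin k × ℕ) (x : ι → H)
    (hx : ∀ l, ((δ (lab l).1 : ℚ) : ℝ) < co (lab l).1 (lab l).2 (x l)) :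
    ∃ y : ι → H, (∀ l, ((δ (lab l).1 : ℚ) : ℝ) < co' (lab l).1 (lab l).2 (y l)) ∧
      ∀ c : ι → ℤ, ∑ l, c l • x l = 0 ↔ ∑ l, c l • y l = 0 := by
  let e := Fintype.equivFin ι
  obtain ⟨y, h1, h2⟩ := konig_transfer δ hfin hq (fun l => lab (e.symm l)) (fun l => x (e.symm l))
    fun l => hx _
  refine ⟨fun l => y (e l), fun l => by simpa using h1 (e l), fun c => ?_⟩
  rw [← e.symm.sum_comp, ← e.symm.sum_comp fun l => c l • y (e l)]
  simp only [Equiv.apply_symm_apply]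
  rw [konig_int, konig_int]
  exact h2 _ _

lemma konig_card {H : Type*} [AddCommGroup H] {k : ℕ} {co co' : Fin k → ℕ → H → ℝ}
    (δ : Fin k → {r : ℚ // 0 < r}) (hfin : ∀ i j, {h | ((δ i : ℚ) : ℝ) < co i j h}.Finite)
    (hfin' : ∀ i j, {h | ((δ i : ℚ) : ℝ) < co' i j h}.Finite)
    (hq : ∀ q, HQry co q → HQry co' q) (i : Fin k) (j : ℕ) :
    ∃ f : {h | ((δ i : ℚ) : ℝ) < co i j h} → {h | ((δ i : ℚ) : ℝ) < co' i j h},
      Function.Injective f := by
  classical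
  have := (hfin i j).fintype
  obtain ⟨y, h1, h2⟩ := konig_transfer' δ hfin' hq
    (fun _ : {h | ((δ i : ℚ) : ℝ) < co i j h} => (i, j)) Subtype.val fun l => l.2
  refine ⟨fun l => ⟨y l, h1 l⟩, fun a b hab => Subtype.ext ?_⟩
  have h3 := h2 (Pi.single a 1 - Pi.single b 1)
  simp only [Pi.sub_apply, sub_smul, Finset.sum_sub_distrib, Pi.single_apply, ite_smul, one_smul,
    zero_smul, Finset.sum_ite_eq', Finset.mem_univ, if_true, sub_eq_zero] at h3
  exact h3.2 (congrArg Subtype.val hab)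

lemma konig_select {H : Type*} [AddCommGroup H] {k : ℕ} {co co' : Fin k → ℕ → H → ℝ}
    (δ : Fin k → {r : ℚ // 0 < r}) (hfin : ∀ i j, {h | ((δ i : ℚ) : ℝ) < co' i j h}.Finite)
    (hq : ∀ q, HQry co q → HQry co' q) {ι : Type*} (lab : ι → Fin k × ℕ) (x : ι → H)
    (hx : ∀ l, ((δ (lab l).1 : ℚ) : ℝ) < co (lab l).1 (lab l).2 (x l)) :
    ∃ y : ι → H, (∀ l, ((δ (lab l).1 : ℚ) : ℝ) < co' (lab l).1 (lab l).2 (y l)) ∧
      ∀ c : ι →₀ ℤ, Finsupp.linearCombination ℤ x c = 0 ↔ Finsupp.linearCombination ℤ y c = 0 := by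
  choose g hg1 hg2 using fun s : Finset ι =>
    konig_transfer' δ hfin hq (fun l : s => lab l) (fun l => x l) fun l => hx _
  have : ∀ l, Finite {h | ((δ (lab l).1 : ℚ) : ℝ) < co' (lab l).1 (lab l).2 h} :=
    fun l => hfin _ _
  obtain ⟨χ, hχ⟩ := Finset.rado_selection_subtype
    (β := fun l => {h | ((δ (lab l).1 : ℚ) : ℝ) < co' (lab l).1 (lab l).2 h})
    fun s l => ⟨g s l, hg1 s l⟩
  refine ⟨fun l => χ l, fun l => (χ l).2, fun c => ?_⟩
  obtain ⟨t, hst, ht⟩ := hχ c.support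
  have h1 : ∀ y : ι → H, Finsupp.linearCombination ℤ y c = ∑ l : t, c l • y l := fun y => by
    rw [Finsupp.linearCombination_apply, Finsupp.sum_of_support_subset _ hst
      (fun i a => a • y i) fun _ _ => zero_smul _ _, Finset.sum_coe_sort t fun l => c l • y l]
  rw [h1, h1, hg2 t fun l => c l]
  refine Eq.congr_left (Finset.sum_congr rfl fun l _ => ?_)
  by_cases h : (l : ι) ∈ c.support
  · exact congrArg _ (congrArg Subtype.val (ht ⟨l, h⟩)).symm
  · rw [Finsupp.notMem_support_iff.1 h, zero_smul, zero_smul]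

theorem exists_shift {H : Type*} [AddCommGroup H] {k : ℕ} (co : Fin k → ℕ → H → ℝ)
    (δ : Fin k → {r : ℚ // 0 < r}) (hfin : ∀ i j, {h | ((δ i : ℚ) : ℝ) < co i j h}.Finite)
    (hq : ∀ q, HQry co q ↔ HQry co q.shift) :
    ∃ (G : AddSubgroup H) (θ : Module.End ℤ G), Function.Injective θ ∧
      (∀ i j h, ((δ i : ℚ) : ℝ) < co i j h →
        ∃ s : G, ((δ i : ℚ) : ℝ) < co i 0 s ∧ (((θ ^ j) s : G) : H) = h) ∧
      ∀ i j (s : G), ((δ i : ℚ) : ℝ) < co i 0 s → ((δ i : ℚ) : ℝ) < co i j ((θ ^ j) s : G) := by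
  obtain ⟨y, hy1, hy2⟩ := konig_select (co' := fun i j => co i (j + 1)) δ (fun i j => hfin i _)
    (fun q h => (hq q).1 h)
    (fun l : Σ p : Fin k × ℕ, {h | ((δ p.1 : ℚ) : ℝ) < co p.1 p.2 h} => l.1) (fun l => l.2)
    fun l => l.2.2
  set φ := (Finsupp.linearCombination ℤ
    fun l : Σ p : Fin k × ℕ, {h | ((δ p.1 : ℚ) : ℝ) < co p.1 p.2 h} => (l.2 : H)).toAddMonoidHom
    with hφ
  have hmem : ∀ i j h, ((δ i : ℚ) : ℝ) < co i j h → h ∈ φ.range := fun i j h hh =>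
    ⟨Finsupp.single ⟨(i, j), h, hh⟩ 1, by simp [hφ]⟩
  have hψ : ∀ c, (Finsupp.linearCombination ℤ y).toAddMonoidHom c ∈ φ.range := fun c =>
    AddSubgroup.sum_mem _ fun l _ => AddSubgroup.zsmul_mem _ (hmem _ _ _ (hy1 l)) _
  obtain ⟨θ, hθ⟩ : ∃ θ : φ.range →+ φ.range, ∀ c, (θ (φ.rangeRestrict c) : H) =
      Finsupp.linearCombination ℤ y c := by
    refine ⟨φ.rangeRestrict.liftOfSurjective φ.rangeRestrict_surjective
      ⟨AddMonoidHom.codRestrict _ _ hψ, fun c hc => ?_⟩, fun c => ?_⟩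
    · exact Subtype.ext ((hy2 c).1 (congrArg Subtype.val hc))
    · rw [AddMonoidHom.liftOfRightInverse_comp_apply]
      rfl
  have hinj : Function.Injective θ := (injective_iff_map_eq_zero θ).2 fun g hg => by
    obtain ⟨c, rfl⟩ := φ.rangeRestrict_surjective g
    exact Subtype.ext ((hy2 c).2 ((hθ c).symm.trans (congrArg Subtype.val hg)))
  have hstep : ∀ i j (s : φ.range), ((δ i : ℚ) : ℝ) < co i j s →
      ((δ i : ℚ) : ℝ) < co i (j + 1) (θ s) := by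
    intro i j s hs
    have h1 : s = φ.rangeRestrict (Finsupp.single ⟨(i, j), s, hs⟩ 1) :=
      Subtype.ext (by simp [hφ])
    rw [h1, hθ, Finsupp.linearCombination_single, one_smul]
    exact hy1 ⟨(i, j), s, hs⟩
  have hsurj : ∀ i j h, ((δ i : ℚ) : ℝ) < co i (j + 1) h →
      ∃ s : φ.range, ((δ i : ℚ) : ℝ) < co i j s ∧ (θ s : H) = h := by
    intro i j h hh
    obtain ⟨f, hf⟩ := konig_card (co := fun i j => co i (j + 1)) δ (fun i j => hfin i _) hfin
      (fun q h => (hq q).2 h) i j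
    let g : {h | ((δ i : ℚ) : ℝ) < co i j h} → {h | ((δ i : ℚ) : ℝ) < co i (j + 1) h} :=
      fun a => ⟨θ ⟨a, hmem i j a a.2⟩, hstep i j _ a.2⟩
    have hg : Function.Injective g := fun a b hab => by
      have h1 : (θ ⟨a, hmem i j a a.2⟩ : H) = θ ⟨b, hmem i j b b.2⟩ := Subtype.mk.inj hab
      exact Subtype.ext (Subtype.mk.inj (hinj (Subtype.ext h1)))
    have := (hfin i (j + 1)).to_subtype
    obtain ⟨a, ha⟩ := (Finite.injective_iff_surjective.1 (hg.comp hf)).of_comp ⟨h, hh⟩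
    exact ⟨⟨a, hmem i j a a.2⟩, a.2, congrArg Subtype.val ha⟩
  refine ⟨φ.range, θ.toIntLinearMap, hinj, fun i j => ?_, fun i j s hs => ?_⟩
  · induction j with
    | zero => exact fun h hh => ⟨⟨h, hmem i 0 h hh⟩, hh, rfl⟩
    | succ j ih =>
      intro h hh
      obtain ⟨s, h1, rfl⟩ := hsurj i j h hh
      obtain ⟨s', h2, h3⟩ := ih s h1
      refine ⟨s', h2, ?_⟩
      rw [pow_succ', Module.End.mul_apply, Subtype.ext h3]
      rfl
  · induction j with
    | zero => exact hs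
    | succ j ih =>
      rw [pow_succ', Module.End.mul_apply]
      exact hstep i j _ ih

variable {X : Type*} {m0 : MeasurableSpace X}

/-- A group of characters modulo constants, with representatives. -/
structure CharSys (μ : Measure X) [IsProbabilityMeasure μ] (H : Type*) [AddCommGroup H] where
  /-- representatives -/
  ρ : H → LB μ
  uni : ∀ h, ρ h ∈ unitary (LB μ)
  orth : ∀ h h', h ≠ h' → ⟪ρ h, ρ h'⟫_ℂ = 0
  add : ∀ h h', ∃ c : ℂ, ‖c‖ = 1 ∧ ρ h * ρ h' = c • ρ (h + h')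

variable {μ : Measure X} [IsProbabilityMeasure μ]

namespace CharSys

variable {H : Type*} [AddCommGroup H] (C : CharSys μ H)

omit [IsProbabilityMeasure μ] in
lemma konig_cancel {u x y : LB μ} (hu : u ∈ unitary (LB μ)) (h : x * u = y) : x = y * star u := by
  rw [← h, mul_assoc, mul_comm u, mem_unitary_iff.1 hu, mul_one]

lemma konig_ne {c : ℂ} (hc : ‖c‖ = 1) : c ≠ 0 :=
  norm_ne_zero_iff.1 (by rw [hc]; exact one_ne_zero)

lemma zero : ∃ c : ℂ, ‖c‖ = 1 ∧ C.ρ 0 = algebraMap ℂ (LB μ) c := by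
  obtain ⟨c, h1, h2⟩ := C.add 0 0
  refine ⟨c, h1, ?_⟩
  rw [konig_cancel (C.uni 0) h2, add_zero, smul_mul_assoc, mul_comm,
    mem_unitary_iff.1 (C.uni 0), Algebra.algebraMap_eq_smul_one]

lemma sub (h h' : H) : ∃ c : ℂ, ‖c‖ = 1 ∧ C.ρ h * star (C.ρ h') = c • C.ρ (h - h') := by
  obtain ⟨c, h1, h2⟩ := C.add (h - h') h'
  refine ⟨c⁻¹, by rw [norm_inv, h1, inv_one], ?_⟩
  rw [konig_cancel (C.uni h') h2, sub_add_cancel, smul_mul_assoc, smul_smul,
    inv_mul_cancel₀ (konig_ne h1), one_smul]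

lemma prod {ι : Type*} (J : Finset ι) (x : ι → H) :
    ∃ c : ℂ, ‖c‖ = 1 ∧ ∏ l ∈ J, C.ρ (x l) = c • C.ρ (∑ l ∈ J, x l) := by
  classical
  induction J using Finset.induction_on with
  | empty =>
    obtain ⟨c, h1, h2⟩ := C.zero
    refine ⟨c⁻¹, by rw [norm_inv, h1, inv_one], ?_⟩
    rw [Finset.prod_empty, Finset.sum_empty, h2, Algebra.algebraMap_eq_smul_one, smul_smul,
      inv_mul_cancel₀ (konig_ne h1), one_smul]
  | insert a J ha ih =>
    obtain ⟨c, h1, h2⟩ := ih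
    obtain ⟨c', h3, h4⟩ := C.add (x a) (∑ l ∈ J, x l)
    refine ⟨c * c', by rw [norm_mul, h1, h3, mul_one], ?_⟩
    rw [Finset.prod_insert ha, Finset.sum_insert ha, h2, mul_smul_comm, h4, smul_smul]

lemma prod_pow {ι : Type*} (J : Finset ι) (x : ι → H) (z : ι → ℕ) :
    ∃ c : ℂ, ‖c‖ = 1 ∧ ∏ l ∈ J, C.ρ (x l) ^ z l = c • C.ρ (∑ l ∈ J, z l • x l) := by
  have h1 : ∀ l, ∃ c : ℂ, ‖c‖ = 1 ∧ C.ρ (x l) ^ z l = c • C.ρ (z l • x l) := fun l => by
    simpa using C.prod (Finset.range (z l)) fun _ => x l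
  choose c hc hc' using h1
  obtain ⟨c', h2, h3⟩ := C.prod J fun l => z l • x l
  refine ⟨(∏ l ∈ J, c l) * c', ?_, ?_⟩
  · rw [norm_mul, h2, mul_one, norm_prod]
    exact Finset.prod_eq_one fun l _ => hc l
  · simp only [hc']
    rw [Finset.prod_smul, h3, smul_smul]

lemma orthonormal : Orthonormal ℂ C.ρ := by
  exact ⟨fun h => norm_unitary (C.uni h), fun h h' hne => C.orth h h' hne⟩

lemma E_eq_zero {h : H} (hh : h ≠ 0) : E μ (C.ρ h) = 0 := by
  obtain ⟨c, h1, h2⟩ := C.zero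
  have h3 := C.orth 0 h hh.symm
  rw [h2, Algebra.algebraMap_eq_smul_one, inner_smul_left, ← E_eq_inner, mul_eq_zero,
    map_eq_zero] at h3
  exact h3.resolve_left (konig_ne h1)

end CharSys

universe u in
lemma IsCharSet.exists_charSys {X : Type u} {m0 : MeasurableSpace X} {μ : Measure X}
    [IsProbabilityMeasure μ] {K : Set (LB μ)} (h : IsCharSet K) :
    ∃ (H : Type u) (_ : AddCommGroup H) (C : CharSys μ H), (∀ x, C.ρ x ∈ K) ∧
      ∀ χ ∈ K, ∃ x, ∃ c : ℂ, ‖c‖ = 1 ∧ χ = c • C.ρ x := by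
  let KG : Subgroup (unitary (LB μ)) :=
    { carrier := {u | (u : LB μ) ∈ K}
      mul_mem' := fun ha hb => h.mul_mem _ ha _ hb
      one_mem' := h.one_mem
      inv_mem' := fun ha => h.star_mem _ ha }
  let S : Subgroup KG :=
    { carrier := {u | ∃ c : ℂ, ‖c‖ = 1 ∧ ((u : unitary (LB μ)) : LB μ) = algebraMap ℂ (LB μ) c}
      mul_mem' := by
        rintro a b ⟨c, h1, h2⟩ ⟨c', h3, h4⟩
        refine ⟨c * c', by rw [norm_mul, h1, h3, mul_one], ?_⟩
        rw [map_mul, ← h2, ← h4]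
        rfl
      one_mem' := ⟨1, norm_one, (map_one _).symm⟩
      inv_mem' := by
        rintro a ⟨c, h1, h2⟩
        refine ⟨star c, by rw [norm_star, h1], ?_⟩
        rw [algebraMap_star_comm, ← h2]
        rfl }
  have key : ∀ u v : KG, (QuotientGroup.mk u : KG ⧸ S) = QuotientGroup.mk v ↔
      ∃ c : ℂ, ‖c‖ = 1 ∧ ((v : unitary (LB μ)) : LB μ) = c • ((u : unitary (LB μ)) : LB μ) := by
    intro u v
    rw [QuotientGroup.eq]
    refine exists_congr fun c => and_congr_right fun _ => ?_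
    change star ((u : unitary (LB μ)) : LB μ) * ((v : unitary (LB μ)) : LB μ) = _ ↔ _
    have hu := mem_unitary_iff.1 (u : unitary (LB μ)).2
    constructor
    · intro h1
      rw [Algebra.smul_def, ← h1, mul_right_comm, hu, one_mul]
    · intro h1
      rw [h1, mul_smul_comm, hu, Algebra.algebraMap_eq_smul_one]
  refine ⟨Additive (KG ⧸ S), inferInstance,
    ⟨fun x => ((Quotient.out x.toMul : KG) : unitary (LB μ)), fun x => Subtype.prop _,
      fun x x' hne => ?_, fun x x' => ?_⟩, fun x => (Quotient.out x.toMul : KG).2, fun χ hχ => ?_⟩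
  · by_contra h1
    have h2 := (key _ _).2 (h.prop (Quotient.out x.toMul : KG).2 (Quotient.out x'.toMul : KG).2 h1)
    rw [QuotientGroup.out_eq', QuotientGroup.out_eq'] at h2
    exact hne (Additive.toMul.injective h2)
  · refine (key _ (Quotient.out x.toMul * Quotient.out x'.toMul)).1 ?_
    rw [QuotientGroup.mk_mul, QuotientGroup.out_eq', QuotientGroup.out_eq', QuotientGroup.out_eq']
    rfl
  · exact ⟨Additive.ofMul (QuotientGroup.mk ⟨⟨χ, h.uni χ hχ⟩, hχ⟩),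
      (key _ ⟨⟨χ, h.uni χ hχ⟩, hχ⟩).1 (QuotientGroup.out_eq' _)⟩

lemma qry_iff_hqry {K : Set (LB μ)} {H : Type*} [AddCommGroup H] (C : CharSys μ H)
    (h1 : ∀ x, C.ρ x ∈ K) (h2 : ∀ χ ∈ K, ∃ x, ∃ c : ℂ, ‖c‖ = 1 ∧ χ = c • C.ρ x) {k : ℕ}
    (v : Fin k → ℕ → LB μ) (q : Query k) :
    Qry K v q ↔ HQry (fun i j x => ‖⟪C.ρ x, v i j⟫_ℂ‖) q := by
  have key : ∀ (x : Fin q.1 → H) (z z' : Fin q.1 → ℕ),
      ⟪∏ l, C.ρ (x l) ^ z l, ∏ l, C.ρ (x l) ^ z' l⟫_ℂ = 0 ↔ ∑ l, z l • x l ≠ ∑ l, z' l • x l := by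
    intro x z z'
    obtain ⟨c, h3, h4⟩ := C.prod_pow Finset.univ x z
    obtain ⟨c', h5, h6⟩ := C.prod_pow Finset.univ x z'
    rw [h4, h6, inner_smul_left, inner_smul_right, mul_eq_zero, mul_eq_zero, map_eq_zero,
      or_iff_right (CharSys.konig_ne h3), or_iff_right (CharSys.konig_ne h5)]
    refine ⟨fun h7 h8 => ?_, C.orth _ _⟩
    rw [h8, chars_inner_self (C.uni _)] at h7
    exact one_ne_zero h7
  constructor
  · rintro ⟨χ, h3, h4, h5, h6⟩
    choose x c hc hχ using fun l => h2 _ (h3 l)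
    obtain rfl : χ = fun l => c l • C.ρ (x l) := funext hχ
    refine ⟨x, fun l => ?_, fun z hz => not_not.1 fun h7 => h5 z hz ?_, fun z hz => ?_⟩
    · have := h4 l
      rwa [chars_norm_inner_smul _ _ (hc l)] at this
    · exact (chars_inner_prod_smul _ c hc _ _).2 ((key x _ _).2 h7)
    · exact (key x _ _).1 ((chars_inner_prod_smul _ c hc _ _).1 (h6 z hz))
  · rintro ⟨x, h3, h4, h5⟩
    exact ⟨fun l => C.ρ (x l), fun l => h1 _, h3, fun z hz h6 => (key x _ _).1 h6 (h4 z hz),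
      fun z hz => (key x _ _).2 (h5 z hz)⟩

end Vale.Agent.P102
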