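import Mathlib

/-! Families of commuting orthogonal projections. -/

namespace Vale.Agent.P102
open scoped InnerProductSpace

/-- A family of commuting orthogonal projections. -/
structure ProjFam (ι H : Type*) [NormedAddCommGroup H] [InnerProductSpace ℂ H] where
  /-- the projections -/
  P : ι → H →L[ℂ] H
  comm : ∀ i j, Commute (P i) (P j)
  idem : ∀ i x, P i (P i x) = P i x
  sa : ∀ i x y, ⟪P i x, y⟫_ℂ = ⟪x, P i y⟫_ℂ

namespace ProjFam

variable {ι H : Type*} [NormedAddCommGroup H] [InnerProductSpace ℂ H] [DecidableEq ι]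
  (F : ProjFam ι H)

/-- `P i` for `i ∈ S`, its complement otherwise. -/
noncomputable def Q (S : Finset ι) (i : ι) : H →L[ℂ] H := if i ∈ S then F.P i else 1 - F.P i

lemma Q_comm (S : Finset ι) (i j : ι) : Commute (F.Q S i) (F.Q S j) := by
  unfold Q
  split_ifs
  · exact F.comm i j
  · exact (Commute.one_right _).sub_right (F.comm i j)
  · exact (Commute.one_left _).sub_left (F.comm i j)
  · exact (Commute.one_left _).sub_left ((Commute.one_right _).sub_right (F.comm i j))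

/-- The product over `i ∈ Ls` of `P i` (for `i ∈ S`) and `1 - P i` (for `i ∉ S`). -/
noncomputable def Pi (Ls S : Finset ι) : H →L[ℂ] H :=
  Ls.noncommProd (F.Q S) fun i _ j _ _ => F.Q_comm S i j

lemma proj_insert {Ls : Finset ι} {i : ι} (hi : i ∉ Ls) (S : Finset ι) (x : H) :
    F.Pi (insert i Ls) S x = F.Q S i (F.Pi Ls S x) :=
  DFunLike.congr_fun (Finset.noncommProd_insert_of_notMem _ _ _ _ hi) x

lemma proj_congr {Ls S S' : Finset ι} (h : ∀ i ∈ Ls, i ∈ S ↔ i ∈ S') : F.Pi Ls S = F.Pi Ls S' :=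
  Finset.noncommProd_congr rfl (fun i hi => by simp only [Q, h i hi]) _

lemma proj_QQ (S S' : Finset ι) (i j : ι) : Commute (F.Q S i) (F.Q S' j) := by
  unfold Q
  split_ifs
  · exact F.comm i j
  · exact (Commute.one_right _).sub_right (F.comm i j)
  · exact (Commute.one_left _).sub_left (F.comm i j)
  · exact (Commute.one_left _).sub_left ((Commute.one_right _).sub_right (F.comm i j))

lemma proj_comm (S Ls S' : Finset ι) (i : ι) (x : H) :
    F.Q S i (F.Pi Ls S' x) = F.Pi Ls S' (F.Q S i x) :=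
  DFunLike.congr_fun (Finset.noncommProd_commute Ls _ _ _ fun j _ => F.proj_QQ S S' i j).eq x

lemma proj_comm' (Ls S Ls' S' : Finset ι) (x : H) :
    F.Pi Ls S (F.Pi Ls' S' x) = F.Pi Ls' S' (F.Pi Ls S x) :=
  DFunLike.congr_fun (Finset.noncommProd_commute Ls' _ _ _ fun j _ =>
    (Finset.noncommProd_commute Ls _ _ _ fun i _ => F.proj_QQ S' S j i).symm).eq x

lemma proj_Q_Pi {Ls : Finset ι} {i : ι} (hi : i ∈ Ls) (S : Finset ι) (x : H) :
    F.Q S i (F.Pi Ls S x) = F.Pi Ls S x := by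
  rw [← Finset.insert_erase hi, F.proj_insert (Finset.notMem_erase _ _)]
  unfold Q
  split_ifs <;> simp [F.idem]

lemma proj_absorb {Ls S Ls' S' : Finset ι} (h : Ls ⊆ Ls') (hS : ∀ i ∈ Ls, i ∈ S ↔ i ∈ S')
    (x : H) : F.Pi Ls' S' (F.Pi Ls S x) = F.Pi Ls' S' x := by
  rw [F.proj_comm', F.proj_congr hS]
  clear hS
  induction Ls using Finset.induction_on with
  | empty => rfl
  | insert i Ls hi ih =>
    rw [F.proj_insert hi, ih ((Finset.subset_insert _ _).trans h),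
      F.proj_Q_Pi (h (Finset.mem_insert_self _ _))]

lemma proj_pyth {T : H →L[ℂ] H} (h1 : ∀ x, T (T x) = T x) (h2 : ∀ x y, ⟪T x, y⟫_ℂ = ⟪x, T y⟫_ℂ)
    (x : H) : ‖x - T x‖ ^ 2 = ‖x‖ ^ 2 - ‖T x‖ ^ 2 := by
  have := norm_add_sq_eq_norm_sq_add_norm_sq_of_inner_eq_zero (𝕜 := ℂ) (x - T x) (T x)
    (by rw [← h2, map_sub, h1, sub_self, inner_zero_left])
  rw [sub_add_cancel] at this
  linarith

lemma sum_Pi (Ls : Finset ι) (x : H) : ∑ S ∈ Ls.powerset, F.Pi Ls S x = x := by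
  induction Ls using Finset.induction_on with
  | empty => rw [Finset.powerset_empty, Finset.sum_singleton]; rfl
  | insert i Ls hi ih =>
    rw [Finset.sum_powerset_insert hi, ← Finset.sum_add_distrib]
    refine (Finset.sum_congr rfl fun S hS => ?_).trans ih
    have h : i ∉ S := fun h => hi (Finset.mem_powerset.1 hS h)
    rw [F.proj_insert hi, F.proj_insert hi, F.proj_congr (S := insert i S) (S' := S) fun j hj => by
      simp [show j ≠ i from fun e => hi (e ▸ hj)]]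
    simp [Q, h]

lemma P_Pi_of_mem {Ls S : Finset ι} {i : ι} (hi : i ∈ Ls) (hS : i ∈ S) (x : H) :
    F.P i (F.Pi Ls S x) = F.Pi Ls S x := by
  simpa [Q, hS] using F.proj_Q_Pi hi S x

lemma P_Pi_of_not_mem {Ls S : Finset ι} {i : ι} (hi : i ∈ Ls) (hS : i ∉ S) (x : H) :
    F.P i (F.Pi Ls S x) = 0 := by
  simpa [Q, hS] using F.proj_Q_Pi hi S x

lemma Pi_mem (Ls S : Finset ι) (p : Submodule ℂ H) (hp : ∀ i ∈ Ls, ∀ x ∈ p, F.P i x ∈ p)
    {x : H} (hx : x ∈ p) : F.Pi Ls S x ∈ p := by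
  induction Ls using Finset.induction_on with
  | empty => exact hx
  | insert i Ls hi ih =>
    have h1 := ih fun j hj => hp j (Finset.mem_insert_of_mem hj)
    have h2 := hp i (Finset.mem_insert_self _ _) _ h1
    rw [F.proj_insert hi, Q]
    split_ifs
    exacts [h2, p.sub_mem h1 h2]

lemma Pi_ones_induction (Ls : Finset ι) (p : H → Prop) (hp : ∀ i ∈ Ls, ∀ x, p x → p (F.P i x))
    {x : H} (hx : p x) : p (F.Pi Ls Ls x) := by
  induction Ls using Finset.induction_on with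
  | empty => exact hx
  | insert i Ls hi ih =>
    rw [F.proj_insert hi, Q, if_pos (Finset.mem_insert_self _ _),
      F.proj_congr (S' := Ls) fun j hj => by simp [hj]]
    exact hp i (Finset.mem_insert_self _ _) _ (ih fun j hj => hp j (Finset.mem_insert_of_mem hj))

lemma Pi_sa (Ls S : Finset ι) (x y : H) : ⟪F.Pi Ls S x, y⟫_ℂ = ⟪x, F.Pi Ls S y⟫_ℂ := by
  induction Ls using Finset.induction_on generalizing x y with
  | empty => rfl
  | insert i Ls hi ih =>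
    rw [F.proj_insert hi, F.proj_insert hi, F.proj_comm, ih, Q]
    split_ifs
    · exact F.sa _ _ _
    · simp [F.sa]

lemma Pi_idem (Ls S : Finset ι) (x : H) : F.Pi Ls S (F.Pi Ls S x) = F.Pi Ls S x := by
  exact F.proj_absorb subset_rfl (fun _ _ => Iff.rfl) x

lemma norm_Pi_le (Ls S : Finset ι) (x : H) : ‖F.Pi Ls S x‖ ≤ ‖x‖ := by
  have := proj_pyth (F.Pi_idem Ls S) (F.Pi_sa Ls S) x
  exact abs_le_of_sq_le_sq' (by linarith [sq_nonneg ‖x - F.Pi Ls S x‖]) (norm_nonneg _) |>.2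

lemma inner_Pi_Pi {Ls S S' : Finset ι} (hS : S ⊆ Ls) (hS' : S' ⊆ Ls) (h : S ≠ S') (x y : H) :
    ⟪F.Pi Ls S x, F.Pi Ls S' y⟫_ℂ = 0 := by
  obtain ⟨i, hi⟩ : ∃ i, ¬ (i ∈ S ↔ i ∈ S') := not_forall.1 fun h' => h (Finset.ext h')
  by_cases a : i ∈ S
  · rw [← F.P_Pi_of_mem (hS a) a, F.sa, F.P_Pi_of_not_mem (hS a) (by tauto), inner_zero_right]
  · have b : i ∈ S' := by tauto
    rw [← F.P_Pi_of_mem (hS' b) b y, ← F.sa, F.P_Pi_of_not_mem (hS' b) a, inner_zero_left]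

lemma sum_norm_sq_Pi (Ls : Finset ι) (x : H) :
    ∑ S ∈ Ls.powerset, ‖F.Pi Ls S x‖ ^ 2 = ‖x‖ ^ 2 := by
  have : ⟪x, x⟫_ℂ = ∑ S ∈ Ls.powerset, ⟪F.Pi Ls S x, F.Pi Ls S x⟫_ℂ := by
    simp only [F.Pi_sa, F.Pi_idem, ← inner_sum, F.sum_Pi]
  simp only [inner_self_eq_norm_sq_to_K] at this
  exact_mod_cast this.symm

lemma norm_sq_Pi_le_ones {Ls S : Finset ι} (hS : S ⊆ Ls) {i : ι} (hi : i ∈ Ls) (hiS : i ∉ S)
    (x : H) : ‖F.Pi Ls S x‖ ^ 2 ≤
      ‖F.Pi S S x‖ ^ 2 - ‖F.Pi (insert i S) (insert i S) x‖ ^ 2 := by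
  have h := F.norm_Pi_le Ls S (F.Pi (insert i S) S x)
  rw [F.proj_absorb (Finset.insert_subset hi hS) fun _ _ => Iff.rfl, F.proj_insert hiS, Q,
    if_neg hiS] at h
  rw [F.proj_insert hiS, Q, if_pos (Finset.mem_insert_self _ _),
    F.proj_congr (S := insert i S) (S' := S) fun j hj => by simp [hj],
    ← proj_pyth (F.idem i) (F.sa i)]
  exact pow_le_pow_left₀ (norm_nonneg _) h 2

lemma norm_sq_Pi_le_zeros {Ls S : Finset ι} (hS : S ⊆ Ls) {i : ι} (hiS : i ∈ S) (x : H) :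
    ‖F.Pi Ls S x‖ ^ 2 ≤
      ‖F.Pi (Ls \ S) ∅ x‖ ^ 2 - ‖F.Pi (insert i (Ls \ S)) ∅ x‖ ^ 2 := by
  have hi : i ∉ Ls \ S := fun h => (Finset.mem_sdiff.1 h).2 hiS
  have h := F.norm_Pi_le Ls S (F.Pi (insert i (Ls \ S)) S x)
  rw [F.proj_absorb (Finset.insert_subset (hS hiS) Finset.sdiff_subset) fun _ _ => Iff.rfl,
    F.proj_insert hi, Q, if_pos hiS,
    F.proj_congr (Ls := Ls \ S) (S' := ∅) fun j hj => by simp [(Finset.mem_sdiff.1 hj).2]] at h
  have h' := proj_pyth (F.idem i) (F.sa i) (F.Pi (Ls \ S) ∅ x)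
  rw [F.proj_insert hi, Q, if_neg (Finset.notMem_empty _), sub_apply,
    one_apply_eq_self]
  linarith [pow_le_pow_left₀ (norm_nonneg _) h 2]

lemma norm_sq_ones_sub {Ls Ls' : Finset ι} (h : Ls ⊆ Ls') (x : H) :
    ‖F.Pi Ls Ls x - F.Pi Ls' Ls' x‖ ^ 2 = ‖F.Pi Ls Ls x‖ ^ 2 - ‖F.Pi Ls' Ls' x‖ ^ 2 := by
  rw [← F.proj_absorb (S := Ls) (S' := Ls') h (fun i hi => by simp [hi, h hi]) x]
  exact proj_pyth (F.Pi_idem _ _) (F.Pi_sa _ _) _

lemma norm_zeros_anti {Ls Ls' : Finset ι} (h : Ls ⊆ Ls') (x : H) :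
    ‖F.Pi Ls' ∅ x‖ ≤ ‖F.Pi Ls ∅ x‖ := by
  rw [← F.proj_absorb (S := ∅) (S' := ∅) h (fun _ _ => Iff.rfl) x]
  exact F.norm_Pi_le _ _ _

lemma Pi_zeros_of_fix {Ls : Finset ι} {i : ι} (hi : i ∈ Ls) {y : H} (hy : F.P i y = y) :
    F.Pi Ls ∅ y = 0 := by
  have := F.proj_comm {i} Ls ∅ i y
  simp only [Q, Finset.mem_singleton, if_true, hy] at this
  rw [← this, F.P_Pi_of_not_mem hi (Finset.notMem_empty _)]

lemma Pi_map (Φ : H →L[ℂ] H) (τ : ι ↪ ι) (Ls S : Finset ι)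
    (h : ∀ i ∈ Ls, ∀ x, Φ (F.P i x) = F.P (τ i) (Φ x)) (x : H) :
    Φ (F.Pi Ls S x) = F.Pi (Ls.map τ) (S.map τ) (Φ x) := by
  induction Ls using Finset.induction_on with
  | empty => rfl
  | insert i Ls hi ih =>
    rw [Finset.map_insert, F.proj_insert hi, F.proj_insert (by simpa using hi),
      ← ih fun j hj => h j (Finset.mem_insert_of_mem hj)]
    simp only [Q, Finset.mem_map']
    split_ifs <;> simp [h i (Finset.mem_insert_self _ _)]

omit [DecidableEq ι] in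
lemma proj_cauchy (φ : Finset ι → ℝ) (h0 : ∀ L, 0 ≤ φ L)
    (h1 : ∀ L L', L.card = L'.card → φ L = φ L') (h2 : ∀ L L', L ⊆ L' → φ L' ≤ φ L) {ε : ℝ}
    (hε : 0 < ε) : ∃ N, ∀ L L', N ≤ L.card → φ L - φ L' ≤ ε := by
  obtain ⟨L₀, h⟩ := exists_lt_of_ciInf_lt (lt_add_of_pos_right (⨅ L, φ L) hε)
  refine ⟨L₀.card, fun L L' hL => ?_⟩
  obtain ⟨L₁, h3, h4⟩ := Finset.exists_subset_card_eq hL
  linarith [h2 _ _ h3, h1 _ _ h4, ciInf_le ⟨0, Set.forall_mem_range.2 h0⟩ L']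

/-- If the norms of the pure products only depend on the number of factors, then the mixed
products are uniformly small. -/
lemma mixed_small [Infinite ι] (x : H)
    (h1 : ∀ Ls Ls' : Finset ι, Ls.card = Ls'.card → ‖F.Pi Ls Ls x‖ = ‖F.Pi Ls' Ls' x‖)
    (h0 : ∀ Ls Ls' : Finset ι, Ls.card = Ls'.card → ‖F.Pi Ls ∅ x‖ = ‖F.Pi Ls' ∅ x‖)
    {ε : ℝ} (hε : 0 < ε) : ∃ N : ℕ, ∀ Ls S : Finset ι, N ≤ Ls.card → S ⊆ Ls → S ≠ Ls → S ≠ ∅ →
      ‖F.Pi Ls S x‖ ≤ ε := by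
  obtain ⟨N₁, h₁⟩ := proj_cauchy (fun L => ‖F.Pi L L x‖ ^ 2) (fun _ => sq_nonneg _)
    (fun L L' h => by rw [h1 L L' h]) (fun L L' h => by
      linarith [F.norm_sq_ones_sub h x, sq_nonneg ‖F.Pi L L x - F.Pi L' L' x‖]) (pow_pos hε 2)
  obtain ⟨N₀, h₀⟩ := proj_cauchy (fun L => ‖F.Pi L ∅ x‖ ^ 2) (fun _ => sq_nonneg _)
    (fun L L' h => by rw [h0 L L' h]) (fun L L' h => pow_le_pow_left₀ (norm_nonneg _)
      (F.norm_zeros_anti h x) 2) (pow_pos hε 2)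
  refine ⟨N₁ + N₀, fun Ls S hN hS a b => (abs_le_of_sq_le_sq' ?_ hε.le).2⟩
  have := Finset.card_sdiff_add_card_eq_card hS
  rcases le_total N₁ S.card with h | h
  · obtain ⟨i, hi, hi'⟩ := Finset.exists_of_ssubset (hS.ssubset_of_ne a)
    exact (F.norm_sq_Pi_le_ones hS hi hi' x).trans (h₁ _ _ h)
  · obtain ⟨i, hi⟩ := Finset.nonempty_iff_ne_empty.2 b
    exact (F.norm_sq_Pi_le_zeros hS hi x).trans (h₀ _ _ (by omega))

/-- If the norms of the pure products only depend on the number of factors, they are Cauchy. -/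
lemma ones_cauchy [Infinite ι] (x : H)
    (h1 : ∀ Ls Ls' : Finset ι, Ls.card = Ls'.card → ‖F.Pi Ls Ls x‖ = ‖F.Pi Ls' Ls' x‖)
    {ε : ℝ} (hε : 0 < ε) : ∃ N : ℕ, ∀ Ls Ls' : Finset ι, N ≤ Ls.card → N ≤ Ls'.card →
      ‖F.Pi Ls Ls x - F.Pi Ls' Ls' x‖ ≤ ε := by
  obtain ⟨N, h⟩ := proj_cauchy (fun L => ‖F.Pi L L x‖ ^ 2) (fun _ => sq_nonneg _)
    (fun L L' h => by rw [h1 L L' h]) (fun L L' h => by
      linarith [F.norm_sq_ones_sub h x, sq_nonneg ‖F.Pi L L x - F.Pi L' L' x‖])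
      (pow_pos (half_pos hε) 2)
  have h2 : ∀ L L', N ≤ L.card → L ⊆ L' → ‖F.Pi L L x - F.Pi L' L' x‖ ≤ ε / 2 := fun L L' a b =>
    (abs_le_of_sq_le_sq' ((F.norm_sq_ones_sub b x).trans_le (h _ _ a)) (half_pos hε).le).2
  refine ⟨N, fun L L' a b => (norm_sub_le_norm_sub_add_norm_sub _ (F.Pi (L ∪ L') (L ∪ L') x)
    _).trans ?_⟩
  rw [norm_sub_rev _ (F.Pi L' L' x)]
  linarith [h2 _ _ a (Finset.subset_union_left (s₂ := L')),
    h2 _ _ b (Finset.subset_union_right (s₁ := L))]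

end ProjFam

end Vale.Agent.P102
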