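import Mathlib

/-! Iterated tensor powers of an ultrafilter along a list of scales. -/

namespace Vale.Agent.P102
open Filter Set

/-- The iterated ultrafilter along a list of scales, the head being outermost. -/
noncomputable def space_W (U : Ultrafilter ℕ) : List ℚ → (ℚ → ℕ) → Ultrafilter (ℚ → ℕ)
  | [], p => pure p
  | q :: l, p => U.bind fun n => space_W U l (Function.update p q n)

variable (U : Ultrafilter ℕ)

lemma space_mem_bind {α β : Type*} (f : Ultrafilter α) (m : α → Ultrafilter β) (s : Set β) :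
    s ∈ f.bind m ↔ {a | s ∈ m a} ∈ f := Filter.mem_bind'

lemma space_W_nil (p : ℚ → ℕ) (B : Set (ℚ → ℕ)) : B ∈ space_W U [] p ↔ p ∈ B :=
  Ultrafilter.mem_pure

lemma space_W_cons (q : ℚ) (l : List ℚ) (p : ℚ → ℕ) (B : Set (ℚ → ℕ)) :
    B ∈ space_W U (q :: l) p ↔ {n | B ∈ space_W U l (Function.update p q n)} ∈ U :=
  space_mem_bind _ _ _

lemma space_const_mem {α : Type*} (f : Ultrafilter α) (P : Prop) : {_a : α | P} ∈ f ↔ P := by
  by_cases h : P
  · simp only [h, iff_true]
    exact Filter.univ_mem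
  · simp only [h, iff_false]
    exact f.empty_notMem

lemma space_W_congr {S : Set ℚ} {B : Set (ℚ → ℕ)} (hB : DependsOn (· ∈ B) S) (l : List ℚ)
    {p p' : ℚ → ℕ} (h : ∀ s ∈ S, s ∉ l → p s = p' s) :
    B ∈ space_W U l p ↔ B ∈ space_W U l p' := by
  induction l generalizing p p' with
  | nil =>
    rw [space_W_nil, space_W_nil]
    exact (hB fun s hs => h s hs (by simp)).to_iff
  | cons q l ih =>
    rw [space_W_cons, space_W_cons]
    have : ∀ n, B ∈ space_W U l (Function.update p q n) ↔
        B ∈ space_W U l (Function.update p' q n) := by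
      intro n
      refine ih fun s hs hl => ?_
      by_cases e : s = q
      · subst e
        simp
      · rw [Function.update_of_ne e, Function.update_of_ne e]
        exact h s hs (by simp [e, hl])
    simp only [this]

lemma space_W_filter {S : Finset ℚ} {B : Set (ℚ → ℕ)} (hB : DependsOn (· ∈ B) (S : Set ℚ))
    (l : List ℚ) (p : ℚ → ℕ) :
    B ∈ space_W U l p ↔ B ∈ space_W U (l.filter (· ∈ S)) p := by
  induction l generalizing p with
  | nil => rfl
  | cons q l ih =>
    by_cases hq : q ∈ S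
    · rw [List.filter_cons_of_pos (by simpa using hq), space_W_cons, space_W_cons]
      simp only [ih]
    · rw [List.filter_cons_of_neg (by simpa using hq), space_W_cons, ← ih]
      have : ∀ n, B ∈ space_W U l (Function.update p q n) ↔ B ∈ space_W U l p := by
        intro n
        refine space_W_congr U hB l fun s hs _ => Function.update_of_ne ?_ _ _
        rintro rfl
        exact hq hs
      simp only [this]
      exact space_const_mem U _

lemma space_W_uniq {S : Finset ℚ} {B : Set (ℚ → ℕ)} (hB : DependsOn (· ∈ B) (S : Set ℚ))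
    {l l' : List ℚ} (hl : l.Pairwise (· < ·)) (hl' : l'.Pairwise (· < ·))
    (h : ∀ s ∈ S, s ∈ l) (h' : ∀ s ∈ S, s ∈ l') (p p' : ℚ → ℕ) :
    B ∈ space_W U l p ↔ B ∈ space_W U l' p' := by
  have e : l.filter (· ∈ S) = l'.filter (· ∈ S) := by
    refine List.Pairwise.eq_of_mem_iff (r := (· < ·)) (hl.filter _) (hl'.filter _) fun a => ?_
    simp only [List.mem_filter, decide_eq_true_eq]
    exact ⟨fun h1 => ⟨h' a h1.2, h1.2⟩, fun h1 => ⟨h a h1.2, h1.2⟩⟩
  rw [space_W_congr U hB l (p' := p') fun s hs hn => absurd (h s hs) hn,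
    space_W_filter U hB l, space_W_filter U hB l', e]

lemma space_W_map (σ : ℚ ↪o ℚ) (B : Set (ℚ → ℕ)) (l : List ℚ) (p : ℚ → ℕ) :
    {p | (fun x => p (σ x)) ∈ B} ∈ space_W U (l.map σ) p ↔
      B ∈ space_W U l fun x => p (σ x) := by
  induction l generalizing p with
  | nil => rw [List.map_nil, space_W_nil, space_W_nil]; rfl
  | cons q l ih =>
    rw [List.map_cons, space_W_cons, space_W_cons]
    have : ∀ n, (fun x => Function.update p (σ q) n (σ x)) =
        Function.update (fun x => p (σ x)) q n := fun n =>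
      Function.update_comp_eq_of_injective p σ.injective q n
    simp only [ih, this]

lemma space_W_update (q : ℚ) (n : ℕ) (B : Set (ℚ → ℕ)) (l : List ℚ) (hq : q ∉ l) (p : ℚ → ℕ) :
    {p | Function.update p q n ∈ B} ∈ space_W U l p ↔
      B ∈ space_W U l (Function.update p q n) := by
  induction l generalizing p with
  | nil => rw [space_W_nil, space_W_nil]; rfl
  | cons s l ih =>
    rw [space_W_cons, space_W_cons]
    have hs : s ≠ q := by
      rintro rfl
      simp at hq
    have hl : q ∉ l := fun h => hq (List.mem_cons_of_mem _ h)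
    simp only [ih hl, Function.update_comm hs]

lemma space_sort_lt (S : Finset ℚ) : (S.sort (· ≤ ·)).Pairwise (· < ·) :=
  (Finset.sortedLT_sort S).pairwise

/-- The limit over all finite sets of scales. -/
noncomputable def space_Wlim : Ultrafilter (ℚ → ℕ) :=
  (Ultrafilter.of (atTop : Filter (Finset ℚ))).bind fun S => space_W U (S.sort (· ≤ ·)) 0

lemma space_mem_Wlim {S : Finset ℚ} {B : Set (ℚ → ℕ)} (hB : DependsOn (· ∈ B) (S : Set ℚ))
    {l : List ℚ} (hl : l.Pairwise (· < ·)) (h : ∀ s ∈ S, s ∈ l) (p : ℚ → ℕ) :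
    B ∈ space_Wlim U ↔ B ∈ space_W U l p := by
  rw [space_Wlim, space_mem_bind, ← space_const_mem (Ultrafilter.of (atTop : Filter (Finset ℚ)))
    (B ∈ space_W U l p)]
  have h1 : ∀ᶠ S' in (Ultrafilter.of (atTop : Filter (Finset ℚ)) : Filter (Finset ℚ)), S ≤ S' :=
    (eventually_ge_atTop S).filter_mono (Ultrafilter.of_le _)
  refine Filter.eventually_congr (h1.mono fun S' hS' => ?_)
  exact space_W_uniq U hB (space_sort_lt S') hl
    (fun s hs => (Finset.mem_sort _).2 (hS' hs)) h _ _

lemma space_Wlim_map (S : Finset ℚ) (B : Set (ℚ → ℕ)) (hB : DependsOn (· ∈ B) (S : Set ℚ))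
    (σ : ℚ ↪o ℚ) : {p | (fun x => p (σ x)) ∈ B} ∈ space_Wlim U ↔ B ∈ space_Wlim U := by
  have hB' : DependsOn (· ∈ {p : ℚ → ℕ | (fun x => p (σ x)) ∈ B})
      ((S.map σ.toEmbedding : Finset ℚ) : Set ℚ) := by
    intro p p' h
    exact hB fun s hs => h (σ s) (Finset.mem_coe.2 (Finset.mem_map_of_mem σ.toEmbedding hs))
  rw [space_mem_Wlim U hB' (l := (S.sort (· ≤ ·)).map σ)
    (List.Pairwise.map σ (fun _ _ h => σ.strictMono h) (space_sort_lt S)) ?_ 0, space_W_map,
    space_mem_Wlim U hB (space_sort_lt S) (fun s hs => (Finset.mem_sort _).2 hs)]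
  intro s hs
  obtain ⟨t, ht, rfl⟩ := Finset.mem_map.1 hs
  exact List.mem_map_of_mem ((Finset.mem_sort _).2 ht)

lemma space_Wlim_update (q : ℚ) (S : Finset ℚ) (B : Set (ℚ → ℕ))
    (hB : DependsOn (· ∈ B) (S : Set ℚ)) (hq : ∀ s ∈ S, q ≤ s) :
    B ∈ space_Wlim U ↔ {n | {p | Function.update p q n ∈ B} ∈ space_Wlim U} ∈ U := by
  have hl : (q :: (S.erase q).sort (· ≤ ·)).Pairwise (· < ·) := by
    refine List.Pairwise.cons (fun s hs => ?_) (space_sort_lt _)
    have := Finset.mem_erase.1 ((Finset.mem_sort _).1 hs)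
    exact lt_of_le_of_ne (hq s this.2) this.1.symm
  have hm : ∀ s ∈ S, s ∈ q :: (S.erase q).sort (· ≤ ·) := by
    intro s hs
    by_cases e : s = q
    · simp [e]
    · simp [e, hs]
  rw [space_mem_Wlim U hB hl hm 0, space_W_cons]
  have : ∀ n, {p | Function.update p q n ∈ B} ∈ space_Wlim U ↔
      B ∈ space_W U ((S.erase q).sort (· ≤ ·)) (Function.update 0 q n) := by
    intro n
    have hB' : DependsOn (· ∈ {p : ℚ → ℕ | Function.update p q n ∈ B})
        ((S.erase q : Finset ℚ) : Set ℚ) := by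
      intro p p' h
      refine hB fun s hs => ?_
      by_cases e : s = q
      · subst e
        simp
      · rw [Function.update_of_ne e, Function.update_of_ne e]
        exact h s (Finset.mem_coe.2 (Finset.mem_erase.2 ⟨e, hs⟩))
    rw [space_mem_Wlim U hB' (space_sort_lt _) (fun s hs => (Finset.mem_sort _).2 hs) 0,
      space_W_update U q n B _ (by simp)]
  simp only [this]

end Vale.Agent.P102
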