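import Vale.Agent.P102.Basic
import Vale.Agent.P102.SpaceA

/-! Construction of the array space from a measure preserving system. -/

namespace Vale.Agent.P102
open MeasureTheory ProbabilityTheory Filter Topology Set

variable {k : ℕ}

/-- The evaluation of a position at actual scales `p`. -/
noncomputable def gev (d : Fin k → ℕ → ℤ) (p : ℚ → ℕ) (γ : Gam k) : ℤ :=
  γ.1 + γ.2.sum fun q δ => ∑ i, δ i * d i (p q)

/-- An ultrafilter on scale assignments which is an iterated tensor power of `U`,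
the slowest scale being outermost. -/
lemma exists_tensor (U : Ultrafilter ℕ) :
    ∃ W : Ultrafilter (ℚ → ℕ),
      (∀ (S : Finset ℚ) (B : Set (ℚ → ℕ)), DependsOn (· ∈ B) (S : Set ℚ) → ∀ σ : ℚ ↪o ℚ,
        ({p | (fun x => p (σ x)) ∈ B} ∈ W ↔ B ∈ W)) ∧
      (∀ (q : ℚ) (S : Finset ℚ) (B : Set (ℚ → ℕ)), DependsOn (· ∈ B) (S : Set ℚ) →
        (∀ s ∈ S, q ≤ s) → (B ∈ W ↔ {n | {p | Function.update p q n ∈ B} ∈ W} ∈ U)) := by
  exact ⟨space_Wlim U, space_Wlim_map U, space_Wlim_update U⟩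

lemma space_gev_add (d : Fin k → ℕ → ℤ) (p : ℚ → ℕ) (γ γ' : Gam k) :
    gev d p (γ + γ') = gev d p γ + gev d p γ' := by
  simp only [gev, Prod.fst_add, Prod.snd_add]
  rw [Finsupp.sum_add_index' (by simp) (by simp [add_mul, Finset.sum_add_distrib])]
  ring

lemma space_gev_gmap (d : Fin k → ℕ → ℤ) (p : ℚ → ℕ) (σ : ℚ ↪o ℚ) (γ : Gam k) :
    gev d p (gmap σ γ) = gev d (fun x => p (σ x)) γ := by
  simp only [gev, gmap, Finsupp.sum_embDomain]
  rfl

lemma space_gev_congr (d : Fin k → ℕ → ℤ) {p p' : ℚ → ℕ} (γ : Gam k)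
    (h : ∀ s, γ.2 s ≠ 0 → p s = p' s) : gev d p γ = gev d p' γ := by
  simp only [gev]
  congr 1
  refine Finsupp.sum_congr fun s hs => ?_
  rw [h s (Finsupp.mem_support_iff.1 hs)]

lemma space_gev_gfrz (d : Fin k → ℕ → ℤ) (p : ℚ → ℕ) (q : ℚ) (n : ℕ) (γ : Gam k) :
    gev d p (gfrz d q n γ) = gev d (Function.update p q n) γ := by
  rw [space_gev_congr d (p' := Function.update p q n) (gfrz d q n γ)]
  · simp only [gev, gfrz]
    rw [← Finsupp.add_sum_erase' γ.2 q _ (by simp), Function.update_self, add_assoc]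
  · intro s hs
    refine (Function.update_of_ne ?_ _ _).symm
    rintro rfl
    simp [gfrz] at hs

lemma space_gev_std (d : Fin k → ℕ → ℤ) (p : ℚ → ℕ) {γ : Gam k} (h : γ ∈ lev ∅) :
    gev d p γ = γ.1 := by
  simp [gev, mem_lev_empty.1 h]

lemma space_dep_pl {β : Type*} {Δ : Finset (Gam k)} {F : Om k → β}
    (h : DependsOn F (Δ : Set (Gam k))) (ρ : Gam k → Gam k) :
    ∃ Δ' : Finset (Gam k), (Δ' : Set (Gam k)) = ρ '' Δ ∧
      DependsOn (fun ω => F (pl ρ ω)) (Δ' : Set (Gam k)) := by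
  classical
  refine ⟨Δ.image ρ, Finset.coe_image, fun ω ω' h' => h fun γ hγ => ?_⟩
  exact h' _ (Finset.mem_coe.2 (Finset.mem_image_of_mem ρ hγ))

lemma space_meas {Δ : Finset (Gam k)} {F : Om k → ℂ} (h : DependsOn F (Δ : Set (Gam k))) :
    Measurable F := (mem_BMF_of_dependsOn h).1.1

/-- Probability measures are determined by the integrals of cylinder functions. -/
lemma space_ext (Δ₀ : Set (Gam k)) {ν ν' : Measure (Om k)} [IsProbabilityMeasure ν]
    [IsProbabilityMeasure ν']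
    (h : ∀ (Δ : Finset (Gam k)) (F : Om k → ℂ), DependsOn F (Δ : Set (Gam k)) →
      (Δ : Set (Gam k)) ⊆ Δ₀ → ∫ ω, F ω ∂ν = ∫ ω, F ω ∂ν')
    {t : Set (Om k)} (ht : MeasurableSet[(FF Δ₀).1] t) : ν t = ν' t := by
  refine ext_on_measurableSpace_of_generate_finite _ (basic_pt Δ₀) ?_ (FF Δ₀).2 (basic_FF_eq Δ₀)
    (basic_pt_pi Δ₀) (by simp) ht
  rintro _ ⟨Δ, hΔ, a, rfl⟩
  have := h Δ _ (basic_box_ind_dep Δ a) hΔ
  rw [integral_indicator_const _ (basic_box_meas' Δ a),
    integral_indicator_const _ (basic_box_meas' Δ a)] at this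
  simp only [Complex.real_smul, mul_one, Complex.ofReal_inj] at this
  exact (ENNReal.toReal_eq_toReal_iff' (measure_ne_top _ _) (measure_ne_top _ _)).1 this

lemma space_mp {P : Measure (Om k)} [IsProbabilityMeasure P] (ρ : Gam k → Gam k)
    (h : ∀ (Δ : Finset (Gam k)) (F : Om k → ℂ), DependsOn F (Δ : Set (Gam k)) →
      ∫ ω, F (pl ρ ω) ∂P = ∫ ω, F ω ∂P) : MeasurePreserving (pl ρ) P P := by
  refine ⟨measurable_pl ρ, Measure.ext fun t ht => ?_⟩
  have : IsProbabilityMeasure (P.map (pl ρ)) :=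
    Measure.isProbabilityMeasure_map (measurable_pl ρ).aemeasurable
  refine space_ext univ (fun Δ F hF _ => ?_) ?_
  · rw [integral_map (measurable_pl ρ).aemeasurable (space_meas hF).aestronglyMeasurable]
    exact h Δ F hF
  · change MeasurableSet[cylinderEvents univ] t
    rwa [cylinderEvents_univ]

/-- The limit of the laws along an ultrafilter. -/
lemma space_lim {Y ι : Type*} [MeasurableSpace Y] (μ : Measure Y) [IsProbabilityMeasure μ]
    (φ : ι → Y → Om k) (hφ : ∀ p, Measurable (φ p)) (W : Ultrafilter ι) :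
    ∃ P : Measure (Om k), IsProbabilityMeasure P ∧
      ∀ (Δ : Finset (Gam k)) (F : Om k → ℂ), DependsOn F (Δ : Set (Gam k)) →
        Tendsto (fun p => ∫ y, F (φ p y) ∂μ) W (𝓝 (∫ ω, F ω ∂P)) := by
  let ν : ι → ProbabilityMeasure (Om k) := fun p =>
    ⟨μ.map (φ p), Measure.isProbabilityMeasure_map (hφ p).aemeasurable⟩
  obtain ⟨P, -, hP⟩ := isCompact_univ.ultrafilter_le_nhds (W.map ν) (by simp)
  refine ⟨P, inferInstance, fun Δ F hF => ?_⟩
  have h1 : Tendsto ν W (𝓝 P) := hP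
  obtain ⟨C, hC⟩ := basic_bounded hF
  have h2 := (ProbabilityMeasure.tendsto_iff_forall_integral_rclike_tendsto ℂ).1 h1
    (BoundedContinuousFunction.ofNormedAddCommGroup F (basic_continuous hF) C hC)
  refine h2.congr fun p => ?_
  exact integral_map (hφ p).aemeasurable (space_meas hF).aestronglyMeasurable

/-- The limit law. `τ` is the action of the integers, `s` the symbol map. -/
lemma exists_law {Y : Type*} [MeasurableSpace Y] (μ : Measure Y) [IsProbabilityMeasure μ]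
    (τ : ℤ → Y → Y) (hτ : ∀ m, MeasurePreserving (τ m) μ μ)
    (hadd : ∀ m m' y, τ (m + m') y = τ m (τ m' y))
    (s : Y → Fin k → Bool) (hs : Measurable s) (d : Fin k → ℕ → ℤ) (U : Ultrafilter ℕ) :
    ∃ P : Measure (Om k), IsProbabilityMeasure P ∧
      (∀ γ : Gam k, MeasurePreserving (pl (· + γ)) P P) ∧
      (∀ σ : ℚ ↪o ℚ, MeasurePreserving (pl (gmap σ)) P P) ∧
      (∀ (q : ℚ) (Δ : Finset (Gam k)) (F : Om k → ℂ), DependsOn F (Δ : Set (Gam k)) →
        (Δ : Set (Gam k)) ⊆ lev (Ici q) →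
        Tendsto (fun n => ∫ ω, F (pl (gfrz d q n) ω) ∂P) U (𝓝 (∫ ω, F ω ∂P))) ∧
      ∀ t : Set (Om k), MeasurableSet[(FF (lev ∅)).1] t →
        P t = μ ((fun y (γ : Gam k) => s (τ γ.1 y)) ⁻¹' t) := by
  obtain ⟨W, hW1, hW2⟩ := exists_tensor U
  let φ : (ℚ → ℕ) → Y → Om k := fun p y γ => s (τ (gev d p γ) y)
  have hφ : ∀ p, Measurable (φ p) := fun p =>
    measurable_pi_lambda _ fun γ => hs.comp (hτ _).measurable
  obtain ⟨P, hP, hlim⟩ := space_lim μ φ hφ W
  have hdep : ∀ (Δ : Finset (Gam k)) (F : Om k → ℂ), DependsOn F (Δ : Set (Gam k)) →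
      ∀ t : Set ℂ, DependsOn (· ∈ {p | ∫ y, F (φ p y) ∂μ ∈ t}) (basic_sc Δ : Set ℚ) := by
    intro Δ F hF t p p' h
    have : (fun y => F (φ p y)) = fun y => F (φ p' y) := by
      funext y
      refine hF fun γ hγ => ?_
      simp only [φ]
      rw [space_gev_congr d γ fun r hr => h r (basic_mem_sc.2 ⟨γ, hγ, hr⟩)]
    simp only [mem_ofPred_eq, this]
  refine ⟨P, hP, fun γ => space_mp _ fun Δ F hF => ?_, fun σ => space_mp _ fun Δ F hF => ?_,
    fun q Δ F hF hq => ?_, fun t ht => ?_⟩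
  · obtain ⟨Δ', -, hF'⟩ := space_dep_pl hF (· + γ)
    refine tendsto_nhds_unique (hlim Δ' _ hF') ((hlim Δ F hF).congr fun p => ?_)
    have e : ∀ y, pl (· + γ) (φ p y) = φ p (τ (gev d p γ) y) := by
      intro y
      funext δ
      simp only [pl, φ, space_gev_add, hadd]
    simp only [e]
    have h1 := integral_map (μ := μ) (hτ (gev d p γ)).measurable.aemeasurable
      (f := fun y => F (φ p y)) ((space_meas hF).comp (hφ p)).aestronglyMeasurable
    rwa [(hτ (gev d p γ)).map_eq] at h1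
  · obtain ⟨Δ', -, hF'⟩ := space_dep_pl hF (gmap σ)
    refine tendsto_nhds_unique (hlim Δ' _ hF') fun t ht => ?_
    have e : ∀ p y, pl (gmap σ) (φ p y) = φ (fun x => p (σ x)) y := by
      intro p y
      funext δ
      simp only [pl, φ, space_gev_gmap]
    simp only [e]
    exact (hW1 _ _ (hdep Δ F hF t) σ).2 (hlim Δ F hF ht)
  · rw [(closed_nhds_basis _).tendsto_right_iff]
    rintro t ⟨ht, htc⟩
    have h1 := (hW2 q _ _ (hdep Δ F hF t) fun r hr => basic_sc_subset hq hr).1 (hlim Δ F hF ht)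
    refine Filter.mem_of_superset h1 fun n hn => ?_
    obtain ⟨Δ', -, hF'⟩ := space_dep_pl hF (gfrz d q n)
    refine htc.mem_of_tendsto (hlim Δ' _ hF') ?_
    have e : ∀ p y, pl (gfrz d q n) (φ p y) = φ (Function.update p q n) y := by
      intro p y
      funext δ
      simp only [pl, φ, space_gev_gfrz]
    simp only [e]
    exact hn
  · have hm : Measurable fun y (γ : Gam k) => s (τ γ.1 y) :=
      measurable_pi_lambda _ fun γ => hs.comp (hτ _).measurable
    have : IsProbabilityMeasure (μ.map fun y (γ : Gam k) => s (τ γ.1 y)) :=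
      Measure.isProbabilityMeasure_map hm.aemeasurable
    rw [← Measure.map_apply hm ((FF (lev ∅)).2 t ht)]
    refine space_ext (lev ∅) (fun Δ F hF hΔ => ?_) ht
    rw [integral_map hm.aemeasurable (space_meas hF).aestronglyMeasurable]
    refine tendsto_nhds_unique (hlim Δ F hF) (tendsto_const_nhds.congr fun p => ?_)
    refine integral_congr_ae (ae_of_all _ fun y => hF fun γ hγ => ?_)
    simp only [φ]
    rw [space_gev_std d p (hΔ hγ)]

end Vale.Agent.P102
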