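import Vale.Agent.P102.Glue
import Vale.Agent.P102.Space

/-! Reduction to the array space and induction on the order. -/

namespace Vale.Agent.P102
open MeasureTheory ProbabilityTheory Filter Topology Set

variable {Y : Type*} [MeasurableSpace Y] (μ : Measure Y) (τ : ℤ → Y → Y)

/-- Mixing of order `k` for an action `τ` of the integers. -/
def MixOrd (k : ℕ) : Prop :=
  ∀ A : Fin k → Set Y, (∀ i, MeasurableSet (A i)) → ∀ ε : ℝ, 0 < ε → ∃ N : ℕ, ∀ t : Fin k → ℤ,
    (∀ i j, i < j → (N : ℤ) ≤ t j - t i) →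
      |μ.real (⋂ i, τ (t i) ⁻¹' A i) - ∏ i, μ.real (A i)| < ε

variable {μ τ}

/-- Sub-families along an ultrafilter. -/
lemma MixOrd.tendsto_finset {k : ℕ} (J : Finset (Fin k)) (h : MixOrd μ τ J.card)
    (d : Fin k → ℕ → ℤ) (U : Ultrafilter ℕ)
    (gap : ∀ i j, i < j → Tendsto (fun n => d j n - d i n) U atTop)
    (A : Fin k → Set Y) (hA : ∀ i, MeasurableSet (A i)) :
    Tendsto (fun n => μ.real (⋂ j ∈ J, τ (d j n) ⁻¹' A j)) U (𝓝 (∏ j ∈ J, μ.real (A j))) := by
  rw [Metric.tendsto_nhds]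
  intro ε hε
  set e := J.orderEmbOfFin rfl with he
  obtain ⟨N, hN⟩ := h (fun i => A (e i)) (fun i => hA _) ε hε
  have hev : ∀ᶠ n in (U : Filter ℕ), ∀ i j : Fin J.card, i < j →
      (N : ℤ) ≤ d (e j) n - d (e i) n := by
    rw [eventually_all]
    intro i
    rw [eventually_all]
    intro j
    by_cases hij : i < j
    · filter_upwards [(gap _ _ (e.strictMono hij)).eventually_ge_atTop (N : ℤ)] with n hn _
      exact hn
    · exact Eventually.of_forall fun n h => absurd h hij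
  filter_upwards [hev] with n hn
  have h1 := hN (fun i => d (e i) n) hn
  have hr : ∀ j, j ∈ J ↔ ∃ i, e i = j := fun j => by
    have := J.range_orderEmbOfFin rfl
    rw [← Finset.mem_coe, ← this]
    rfl
  have h2 : (⋂ j ∈ J, τ (d j n) ⁻¹' A j) = ⋂ i, τ (d (e i) n) ⁻¹' A (e i) := by
    ext y
    simp only [mem_iInter]
    constructor
    · exact fun h i => h _ ((hr _).2 ⟨i, rfl⟩)
    · intro h j hj
      obtain ⟨i, rfl⟩ := (hr j).1 hj
      exact h i
  have h3 : ∏ j ∈ J, μ.real (A j) = ∏ i, μ.real (A (e i)) := by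
    symm
    refine Finset.prod_bij (fun i _ => e i) (fun i _ => (hr _).2 ⟨i, rfl⟩)
      (fun i _ j _ h => e.injective h) (fun j hj => ?_) fun _ _ => rfl
    obtain ⟨i, rfl⟩ := (hr j).1 hj
    exact ⟨i, Finset.mem_univ _, rfl⟩
  rw [Real.dist_eq, h2, h3]
  exact h1

variable [IsProbabilityMeasure μ]

lemma mixOrd_small (hτ : ∀ m, MeasurePreserving (τ m) μ μ)
    (hadd : ∀ m m' y, τ (m + m') y = τ m (τ m' y))
    (hmix : ∀ A B, MeasurableSet A → MeasurableSet B →
      Tendsto (fun m : ℕ => μ.real (A ∩ τ m ⁻¹' B)) atTop (𝓝 (μ.real A * μ.real B)))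
    {k : ℕ} (hk : k ≤ 2) : MixOrd μ τ k := by
  intro A hA ε hε
  interval_cases k
  · exact ⟨0, fun t _ => by simpa using hε⟩
  · refine ⟨0, fun t _ => ?_⟩
    have : (⋂ i, τ (t i) ⁻¹' A i) = τ (t 0) ⁻¹' A 0 := by
      ext y
      simp [Fin.forall_fin_one]
    rw [this, (hτ _).measureReal_preimage (hA 0).nullMeasurableSet]
    simpa using hε
  · obtain ⟨N, hN⟩ := eventually_atTop.1 (Metric.tendsto_nhds.1 (hmix _ _ (hA 0) (hA 1)) ε hε)
    refine ⟨N, fun t ht => ?_⟩
    have h01 := ht 0 1 (by decide)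
    obtain ⟨m, hm⟩ : ∃ m : ℕ, t 1 = m + t 0 := ⟨(t 1 - t 0).toNat, by omega⟩
    have : (⋂ i, τ (t i) ⁻¹' A i) = τ (t 0) ⁻¹' (A 0 ∩ τ m ⁻¹' A 1) := by
      ext y
      simp [Fin.forall_fin_two, hm, hadd]
    rw [this, (hτ _).measureReal_preimage
      ((hA 0).inter ((hτ _).measurable (hA 1))).nullMeasurableSet, Fin.prod_univ_two]
    exact hN m (by omega)

lemma mixOrd_step (hτ : ∀ m, MeasurePreserving (τ m) μ μ)
    (hadd : ∀ m m' y, τ (m + m') y = τ m (τ m' y)) (h0 : ∀ y, τ 0 y = y)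
    (hmix : ∀ A B, MeasurableSet A → MeasurableSet B →
      Tendsto (fun m : ℕ => μ.real (A ∩ τ m ⁻¹' B)) atTop (𝓝 (μ.real A * μ.real B)))
    (n : ℕ) (ih : ∀ j, j < n + 3 → MixOrd μ τ j) : MixOrd μ τ (n + 3) := by
  classical
  intro A hA ε hε
  by_contra hcon
  push Not at hcon
  choose t ht hbad using hcon
  set d : Fin (n + 3) → ℕ → ℤ := fun i N => t N i with hd
  set U : Ultrafilter ℕ := hyperfilter ℕ with hU
  have hUle : (U : Filter ℕ) ≤ atTop := by
    rw [← Nat.cofinite_eq_atTop]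
    exact hyperfilter_le_cofinite
  have gap : ∀ i j, i < j → Tendsto (fun N => d j N - d i N) U atTop := fun i j hij =>
    (tendsto_atTop_mono (fun N => ht N i j hij) tendsto_natCast_atTop_atTop).mono_left hUle
  set s : Y → Fin (n + 3) → Bool := fun y i => decide (y ∈ A i) with hs
  have hsm : Measurable s := by
    refine measurable_pi_lambda _ fun i => measurable_to_bool ?_
    have : (fun y => decide (y ∈ A i)) ⁻¹' {true} = A i := by
      ext y
      simp
    rw [this]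
    exact hA i
  obtain ⟨P, hP, hsh, hem, hfr, hlaw⟩ := exists_law μ τ hτ hadd s hsm d U
  set Ψ : Y → Om (n + 3) := fun y γ => s (τ γ.1 y) with hΨ
  have hΨm : Measurable Ψ := measurable_pi_lambda _ fun γ => hsm.comp (hτ _).measurable
  have hlaw' : ∀ u : Set (Om (n + 3)), MeasurableSet[(FF (lev ∅)).1] u →
      P.real u = μ.real (Ψ ⁻¹' u) := fun u hu => by
    rw [Measure.real, Measure.real, hlaw u hu]
  have hshm : ∀ (m : ℤ) (u : Set (Om (n + 3))), MeasurableSet[(FF (lev ∅)).1] u →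
      MeasurableSet[(FF (lev ∅)).1] (pl (· + tm m) ⁻¹' u) := fun m u hu => by
    have h1 : (FF ((· + tm m) '' lev ∅) : SA (inferInstance : MeasurableSpace (Om (n + 3)))) ≤
        FF (lev ∅) := FF_mono (by
      rintro _ ⟨γ, hγ, rfl⟩
      rw [mem_lev_empty] at hγ ⊢
      rw [add_tm_snd, hγ])
    refine h1 _ ?_
    rw [comap_pl]
    exact ⟨u, hu, rfl⟩
  have hΨsh : ∀ (m : ℤ) (u : Set (Om (n + 3))),
      Ψ ⁻¹' (pl (· + tm m) ⁻¹' u) = τ m ⁻¹' (Ψ ⁻¹' u) := fun m u => by
    ext y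
    have : pl (· + tm m) (Ψ y) = Ψ (τ m y) := by
      funext γ
      simp [pl, hΨ, tm, hadd]
    simp only [mem_preimage, this]
  have hstdm : ∀ u : Set (Om (n + 3)), MeasurableSet[(FF (lev ∅)).1] u →
      MeasurableSet (Ψ ⁻¹' u) := fun u hu => hΨm ((FF (lev ∅)).2 u hu)
  let Ar : Arr (n + 3) :=
    { d := d, U := U, gap := gap, P := P, prob := hP, sh_mp := hsh, em_mp := hem, freeze := hfr
      mixJ := fun J hJ u hu => by
        have hc : J.card < n + 3 := by
          simpa using Finset.card_lt_card (Finset.ssubset_univ_iff.2 hJ)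
        have h1 := (ih _ hc).tendsto_finset J d U gap (fun j => Ψ ⁻¹' u j) fun j => hstdm _ (hu j)
        simp only [← hlaw' _ (hu _)] at h1
        refine h1.congr fun N => ?_
        rw [hlaw' _ (@Finset.measurableSet_biInter _ _ (FF (lev ∅)).1 _ J
          fun j _ => hshm _ _ (hu j))]
        simp only [preimage_iInter, hΨsh]
      mix2 := fun u v hu hv => by
        have h1 := hmix _ _ (hstdm _ hu) (hstdm _ hv)
        rw [← hlaw' _ hu, ← hlaw' _ hv] at h1
        refine h1.congr fun m => ?_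
        rw [hlaw' _ (@MeasurableSet.inter _ (FF (lev ∅)).1 _ _ hu (hshm _ _ hv)), preimage_inter,
          hΨsh] }
  set u : Fin (n + 3) → Set (Om (n + 3)) := fun j => {ω | ω 0 j = true} with hu
  have hum : ∀ j, MeasurableSet[(FF (lev ∅)).1] (u j) := fun j => by
    have h1 : Measurable[(FF (lev ∅) : SA (inferInstance : MeasurableSpace (Om (n + 3)))).1]
        fun ω : Om (n + 3) => ω 0 :=
      measurable_cylinderEvent_apply (X := fun _ => Fin (n + 3) → Bool) (mem_lev_empty.2 rfl)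
    exact ((measurable_pi_apply j).comp h1) (measurableSet_singleton true)
  have hΨu : ∀ j, Ψ ⁻¹' u j = A j := fun j => by
    ext y
    simp [hΨ, hu, hs, h0]
  have h1 := Ar.mixAll u hum
  have h2 : Tendsto (fun N => μ.real (⋂ j, τ (t N j) ⁻¹' A j)) U (𝓝 (∏ j, μ.real (A j))) := by
    have h3 : ∏ j, Ar.P.real (u j) = ∏ j, μ.real (A j) :=
      Finset.prod_congr rfl fun j _ => by rw [← hΨu, ← hlaw' _ (hum j)]
    rw [h3] at h1
    refine h1.congr fun N => ?_
    change P.real _ = _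
    rw [hlaw' _ (@MeasurableSet.iInter _ _ (FF (lev ∅)).1 _ _ fun j => hshm _ _ (hum j))]
    simp only [preimage_iInter, hΨsh, hΨu]
    rfl
  obtain ⟨N, hN⟩ := (Metric.tendsto_nhds.1 h2 ε hε).exists
  rw [Real.dist_eq] at hN
  exact absurd hN (not_lt.2 (hbad N))

theorem mixOrd_all (hτ : ∀ m, MeasurePreserving (τ m) μ μ)
    (hadd : ∀ m m' y, τ (m + m') y = τ m (τ m' y)) (h0 : ∀ y, τ 0 y = y)
    (hmix : ∀ A B, MeasurableSet A → MeasurableSet B →
      Tendsto (fun m : ℕ => μ.real (A ∩ τ m ⁻¹' B)) atTop (𝓝 (μ.real A * μ.real B)))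
    (k : ℕ) : MixOrd μ τ k := by
  induction k using Nat.strong_induction_on with
  | _ k ih =>
    by_cases hk : k ≤ 2
    · exact mixOrd_small hτ hadd hmix hk
    · obtain ⟨n, rfl⟩ : ∃ n, k = n + 3 := ⟨k - 3, by omega⟩
      exact mixOrd_step hτ hadd h0 hmix n ih

end Vale.Agent.P102
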