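import Vale.Agent.P102.Freeze

/-! Conditional independence of rows given the noise. -/

namespace Vale.Agent.P102
open MeasureTheory ProbabilityTheory Filter Topology Set
open scoped InnerProductSpace ComplexConjugate

variable {k : ℕ} [NeZero k]

lemma DN_subset_RR (q : ℚ) (J : Finset (Fin k)) : DN k ⊆ RR q J := subset_union_left

lemma RR_empty (q : ℚ) : RR q (∅ : Finset (Fin k)) = DN k := by simp [RR]

lemma RR_mono (q : ℚ) {J J' : Finset (Fin k)} (h : J ⊆ J') : RR q J ⊆ RR q J' := by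
  rintro γ (hγ | ⟨j, hj, hγ⟩)
  · exact Or.inl hγ
  · exact Or.inr ⟨j, h hj, hγ⟩

lemma RR_union (q : ℚ) (J J' : Finset (Fin k)) : RR q (J ∪ J') = RR q J ∪ RR q J' := by
  refine Subset.antisymm ?_ (union_subset (RR_mono q Finset.subset_union_left)
    (RR_mono q Finset.subset_union_right))
  rintro γ (hγ | ⟨j, hj, hγ⟩)
  · exact Or.inl (Or.inl hγ)
  · rcases Finset.mem_union.1 hj with h | h
    · exact Or.inl (Or.inr ⟨j, h, hγ⟩)
    · exact Or.inr (Or.inr ⟨j, h, hγ⟩)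

omit [NeZero k] in
lemma add_sg_mem_DN {q : ℚ} (hq : Free k q) (δ : Dig k) (γ : Gam k) :
    γ + sg q δ ∈ DN k ↔ γ ∈ DN k := by
  have key : ∀ s (c : Fin k × Fin k), col k s = some c → (γ + sg q δ).2 s = γ.2 s :=
    fun s c hs => add_sg_snd_of_ne γ (fun h => by
      rw [h, show col k q = none from hq] at hs
      cases hs) δ
  constructor
  · rintro ⟨s, i, e, j, h1, h2, h3, h4, h5⟩
    exact ⟨s, i, e, j, h1, h2, h3, h4, (key s _ h1).symm.trans h5⟩
  · rintro ⟨s, i, e, j, h1, h2, h3, h4, h5⟩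
    exact ⟨s, i, e, j, h1, h2, h3, h4, (key s _ h1).trans h5⟩

lemma add_sg_mem_RR {q Q : ℚ} (hq : Free k q) (hQ : Q ≠ q) (K : Finset (Fin k)) (δ : Dig k)
    (γ : Gam k) : γ + sg q δ ∈ RR Q K ↔ γ ∈ RR Q K := by
  simp only [RR, mem_union, add_sg_mem_DN hq, mem_ofPred_eq, add_sg_snd_of_ne γ hQ]

lemma add_tm_mem_RR (Q : ℚ) (K : Finset (Fin k)) (m : ℤ) (γ : Gam k) :
    γ + tm m ∈ RR Q K ↔ γ ∈ RR Q K := by
  simp [RR, DN, tm]

lemma gmap_mem_RR (σ : ℚ ↪o ℚ) (hσ : ∀ s c, col k s = some c → col k (σ s) = some c) (Q : ℚ)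
    (K : Finset (Fin k)) {γ : Gam k} (h : γ ∈ RR Q K) : gmap σ γ ∈ RR (σ Q) K := by
  rcases h with ⟨s, i, e, j, h1, h2, h3, h4, h5⟩ | ⟨j, hj, h⟩
  · exact Or.inl ⟨σ s, i, e, j, hσ _ _ h1, h2, h3, h4, (gmap_snd_apply σ γ s).trans h5⟩
  · exact Or.inr ⟨j, hj, (gmap_snd_apply σ γ Q).trans h⟩

lemma image_piE_RR (Q : ℚ) (K : Finset (Fin k)) : gmap piE '' RR Q K = RR (Q + 1) K := by
  refine Subset.antisymm ?_ fun γ hγ => ?_
  · rintro _ ⟨γ, hγ, rfl⟩
    exact gmap_mem_RR piE (fun s c h => (col_add_one s).trans h) Q K hγ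
  · refine ⟨gmap piE' γ, ?_, ?_⟩
    · have := gmap_mem_RR piE' (fun s c h => by
        rw [← col_add_one, ← h]
        congr 1
        simp [piE']) _ K hγ
      simpa [piE'] using this
    · rw [gmap_gmap]
      exact gmap_fix (S := univ) _ (fun s _ => by simp [piE, piE']) fun _ _ => mem_univ _

omit [NeZero k] in
/-- Colour preserving embeddings fixing a finite set, with an extra constraint. -/
lemma rows_exists_emb (F : Finset ℚ) (g : ℚ → ℚ) (hg : StrictMonoOn g F)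
    (c : ℚ → Option (Fin k × Fin k)) (z b : ℚ) (hb : ∀ x ∈ F, g x < b) :
    ∃ σ : ℚ ↪o ℚ, (∀ x ∈ F, σ x = g x) ∧ (∀ x, x ∉ F → col k (σ x) = c x ∧ σ x ≠ z) ∧
      ∀ x, σ x < b := by
  refine exists_orderEmb (fun x => {y | col k y = c x ∧ y ≠ z}) (fun x a a' h => ?_) F g hg b hb
  obtain ⟨y, h1, h2, h3⟩ := col_dense (c x) h
  by_cases hy : y = z
  · obtain ⟨y', h1', h2', h3'⟩ := col_dense (c x) h1
    exact ⟨y', ⟨h3', (hy ▸ h2').ne⟩, h1', h2'.trans h2⟩
  · exact ⟨y, ⟨h3, hy⟩, h1, h2⟩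

omit [NeZero k] in
lemma rows_exists_fix (F : Finset ℚ) (c : ℚ → Option (Fin k × Fin k)) (z : ℚ) :
    ∃ σ : ℚ ↪o ℚ, (∀ x ∈ F, σ x = x) ∧ ∀ x, x ∉ F → col k (σ x) = c x ∧ σ x ≠ z := by
  obtain ⟨b, hb⟩ := F.bddAbove
  obtain ⟨σ, h1, h2, -⟩ := rows_exists_emb F id strictMonoOn_id c z (b + 1)
    fun x hx => lt_add_of_le_of_pos (hb hx) one_pos
  exact ⟨σ, h1, h2⟩

namespace Arr

variable (A : Arr k)

lemma sh_PE_RR {q Q : ℚ} (hq : Free k q) (hQ : Q ≠ q) (K : Finset (Fin k)) (δ : Dig k)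
    (x : LB A.P) : A.sh (sg q δ) (A.PE (RR Q K) x) = A.PE (RR Q K) (A.sh (sg q δ) x) :=
  A.sh_PE _ (add_sg_mem_RR hq hQ K δ) x

lemma sh_tm_mem_RR (Q : ℚ) (K : Finset (Fin k)) (m : ℤ) {x : LB A.P} (hx : x ∈ A.LL (RR Q K)) :
    A.sh (tm m) x ∈ A.LL (RR Q K) :=
  A.sh_mem _ (fun γ h => (add_tm_mem_RR Q K m γ).2 h) hx

lemma sh_sg_mem_RR (q : ℚ) (i : Fin k) {x : LB A.P} (hx : x ∈ A.LL (lev (Iio q))) :
    A.sh (sg q (ee i - ee 0)) x ∈ A.LL (RR q {i}) := by
  refine A.sh_mem _ (fun γ hγ => Or.inr ⟨i, Finset.mem_singleton_self _, ?_⟩) hx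
  have : γ.2 q = 0 := by
    by_contra h
    exact lt_irrefl q (hγ q h)
  rw [add_sg_snd_self, this, zero_add]

/-- Reduction of statements about one row to functions not involving the scale. -/
lemma rows_induction {q : ℚ} (i : Fin k) (p : Submodule ℂ (LB A.P))
    (hp : IsClosed (p : Set (LB A.P)))
    (h : ∀ (S : Finset ℚ), q ∉ S → ∀ z ∈ A.LL (DN k), ∀ y ∈ A.LL (lev (S : Set ℚ)),
      z * A.sh (sg q (ee i - ee 0)) y ∈ p) : ∀ x ∈ A.LL (RR q {i}), x ∈ p := by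
  classical
  refine A.LL_cover_induction _ (fun b : Bool => if b then DN k else Row q (ee i - ee 0))
    (fun γ hγ => ?_) p hp fun S x hx => ?_
  · rcases hγ with hγ | ⟨j, hj, hγ⟩
    · exact ⟨true, hγ⟩
    · rw [Finset.mem_singleton.1 hj] at hγ
      exact ⟨false, hγ⟩
  · rw [Fintype.prod_bool]
    have h1 : x false = A.sh (sg q (ee i - ee 0)) (A.sh (sg q (-(ee i - ee 0))) (x false)) := by
      rw [A.sh_sh, ← sg_add, add_neg_cancel, sg_zero, sh_zero]
    rw [h1]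
    refine h (S.erase q) (Finset.notMem_erase _ _) _
      (A.LL_mono (fun γ hγ => hγ.1.2) (hx true)) _ (A.sh_mem _ (fun γ hγ => ?_) (hx false))
    intro s hs
    have hne : s ≠ q := by
      rintro rfl
      have : γ.2 s = ee i - ee 0 := hγ.1.2
      rw [add_sg_snd_self, this, add_neg_cancel] at hs
      exact hs rfl
    rw [add_sg_snd_of_ne _ hne] at hs
    exact Finset.mem_coe.2 (Finset.mem_erase.2 ⟨hne, hγ.2 s hs⟩)

/-- (C1) -/
lemma PE_mem_row {q Q : ℚ} (hq : Free k q) (hQ : Q ≠ q) (K : Finset (Fin k)) (i : Fin k)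
    {x : LB A.P} (hx : x ∈ A.LL (RR q {i})) : A.PE (RR Q K) x ∈ A.LL (RR q {i}) := by
  classical
  refine A.rows_induction i ((LS A.P (FF (RR q {i}))).comap (A.PE (RR Q K)).toLinearMap)
    ((isClosed_LS _).preimage (A.PE (RR Q K)).continuous) (fun S hS z hz y hy => ?_) x hx
  change A.PE (RR Q K) _ ∈ A.LL (RR q {i})
  rw [cE_mul_left (A.LL_mono (DN_subset_RR _ _) hz), ← A.sh_PE_RR hq hQ]
  refine mul_mem (A.LL_mono (DN_subset_RR _ _) hz) ?_
  obtain ⟨σ, h1, h2⟩ := rows_exists_fix (k := k) (insert Q S) (col k) q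
  have hcol : ∀ s, col k (σ s) = col k s := fun s => by
    by_cases hs : s ∈ insert Q S
    · rw [h1 s hs]
    · exact (h2 s hs).1
  have hrange : q ∉ range σ := by
    rintro ⟨s, hs⟩
    by_cases hs' : s ∈ insert Q S
    · rw [h1 s hs'] at hs
      rcases Finset.mem_insert.1 hs' with h | h
      · exact hQ (h.symm.trans hs)
      · exact hS (hs ▸ h)
    · exact (h2 s hs').2 hs
  have hfix : A.em σ y = y := A.em_fix σ
    (fun γ hγ => gmap_fix σ (fun s hs => h1 s (Finset.mem_insert_of_mem hs)) hγ) hy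
  rw [A.PE_eq_of_emb σ (Δ := RR Q K ∩ Row q 0) (fun γ hγ => ⟨?_, gmap_snd_of_not_mem σ γ hrange⟩)
    inter_subset_left hfix]
  · refine A.sh_mem _ (fun γ hγ => Or.inr ⟨i, Finset.mem_singleton_self _, ?_⟩) (cE_mem _ _)
    have : γ.2 q = 0 := hγ.2
    rw [add_sg_snd_self, this, zero_add]
  · have := gmap_mem_RR σ (fun s c h => (hcol s).trans h) Q K hγ
    rwa [h1 Q (Finset.mem_insert_self _ _)] at this

/-- (C2) -/
lemma cind_rows {q Q : ℚ} (hq : Free k q) (hQ : Q ≠ q) (K : Finset (Fin k)) {t e : Fin k}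
    (hte : t ≠ e) {J : Finset (Fin k)} (ht : t ∉ J) (he : e ∉ J) :
    CInd A.P (FF (RR Q K)) (FF (RR q {t})) (FF (RR q J)) := by
  classical
  refine cind_of_cE_sup fun x hx => ?_
  rw [← FF_union]
  refine A.rows_induction t (LinearMap.eqLocus (A.PE (RR Q K ∪ RR q J)).toLinearMap
    (A.PE (RR Q K)).toLinearMap)
    (isClosed_eq (A.PE _).continuous (A.PE _).continuous) (fun S hS z hz y hy => ?_) x hx
  change A.PE (RR Q K ∪ RR q J) _ = A.PE (RR Q K) _
  have hz1 : z ∈ A.LL (RR Q K) := A.LL_mono (DN_subset_RR _ _) hz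
  rw [cE_mul_left hz1, cE_mul_left (A.LL_mono subset_union_left hz1), ← A.sh_PE_RR hq hQ,
    ← A.sh_PE (sg q (ee t - ee 0)) (Δ := RR Q K ∪ {γ | ∃ j ∈ J, γ.2 q = ee j - ee t})]
  · congr 2
    obtain ⟨σ, h1, h2⟩ := rows_exists_fix (k := k) (insert Q S)
      (fun s => if s = q then some (t, e) else col k s) q
    have hqn : q ∉ insert Q S := by
      rw [Finset.mem_insert, not_or]
      exact ⟨hQ.symm, hS⟩
    have hcol : ∀ s c, col k s = some c → col k (σ s) = some c := fun s c hc => by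
      by_cases hs : s ∈ insert Q S
      · rwa [h1 s hs]
      · have hsq : s ≠ q := fun h => by
          rw [h, show col k q = none from hq] at hc
          cases hc
        rw [(h2 s hs).1, if_neg hsq, hc]
    have hσq : col k (σ q) = some (t, e) := by rw [(h2 q hqn).1, if_pos rfl]
    have hfix : A.em σ y = y := A.em_fix σ
      (fun γ hγ => gmap_fix σ (fun s hs => h1 s (Finset.mem_insert_of_mem hs)) hγ) hy
    refine A.PE_eq_of_emb σ (fun γ hγ => ?_) subset_union_left hfix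
    rcases hγ with hγ | ⟨j, hj, hγ⟩
    · have := gmap_mem_RR σ hcol Q K hγ
      rwa [h1 Q (Finset.mem_insert_self _ _)] at this
    · exact Or.inl ⟨σ q, t, e, j, hσq, hte, fun h => ht (h ▸ hj), fun h => he (h ▸ hj),
        (gmap_snd_apply σ γ q).trans hγ⟩
  · intro γ
    rw [mem_union, add_sg_mem_RR hq hQ, mem_union]
    constructor
    · rintro (h | h | ⟨j, hj, h⟩)
      · exact Or.inl h
      · exact Or.inl (Or.inl ((add_sg_mem_DN hq _ _).1 h))
      · refine Or.inr ⟨j, hj, ?_⟩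
        rw [add_sg_snd_self] at h
        rw [eq_sub_of_add_eq h]
        abel
    · rintro (h | ⟨j, hj, h⟩)
      · exact Or.inl h
      · refine Or.inr (Or.inr ⟨j, hj, ?_⟩)
        rw [add_sg_snd_self, h]
        abel

lemma PE_mem_rows {q Q : ℚ} (hq : Free k q) (hQ : Q ≠ q) (K : Finset (Fin k)) {e : Fin k}
    {J : Finset (Fin k)} (he : e ∉ J) {x : LB A.P} (hx : x ∈ A.LL (RR q J)) :
    A.PE (RR Q K) x ∈ A.LL (RR q J) := by
  classical
  induction J using Finset.induction_on generalizing x with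
  | empty =>
    rw [RR_empty] at hx ⊢
    rwa [cE_of_mem (A.LL_mono (DN_subset_RR _ _) hx)]
  | insert t J ht ih =>
    rw [Finset.mem_insert, not_or] at he
    have h1 : FF (RR q (insert t J)) = FF (RR q {t}) ⊔ FF (RR q J) := by
      rw [← FF_union, ← RR_union, Finset.insert_eq]
    change x ∈ L A.P (FF (RR q (insert t J))) at hx
    change _ ∈ L A.P (FF (RR q (insert t J)))
    rw [h1] at hx ⊢
    refine L_sup_induction _ _ ((LS A.P (FF (RR q {t}) ⊔ FF (RR q J))).comap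
      (A.PE (RR Q K)).toLinearMap) ((isClosed_LS _).preimage (A.PE (RR Q K)).continuous)
      (fun a ha b hb => ?_) x hx
    change A.PE (RR Q K) _ ∈ L A.P (FF (RR q {t}) ⊔ FF (RR q J))
    rw [A.cind_rows hq hQ K (fun h => he.1 h.symm) ht he.2 a ha b hb]
    exact mul_mem (L_le_sup_left _ _ (A.PE_mem_row hq hQ K t ha)) (L_le_sup_right _ _ (ih he.2 hb))

lemma PE_comm {q Q : ℚ} (hq : Free k q) (hQ : Q ≠ q) (K : Finset (Fin k)) {e : Fin k}
    {J : Finset (Fin k)} (he : e ∉ J) (x : LB A.P) :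
    A.PE (RR Q K) (A.PE (RR q J) x) = A.PE (RR q J) (A.PE (RR Q K) x) :=
  cE_comm (fun _ hx => A.PE_mem_rows hq hQ K he hx) x

lemma PE_mem_lev {q Q : ℚ} (hQ : Q < q) (K : Finset (Fin k)) {x : LB A.P}
    (hx : x ∈ A.LL (lev (Iio q))) : A.PE (RR Q K) x ∈ A.LL (lev (Iio q)) := by
  classical
  refine A.LL_lev_induction _ ((LS A.P (FF (lev (Iio q)))).comap (A.PE (RR Q K)).toLinearMap)
    ((isClosed_LS _).preimage (A.PE (RR Q K)).continuous) (fun S y hy => ?_) x hx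
  change A.PE (RR Q K) _ ∈ A.LL (lev (Iio q))
  obtain ⟨σ, h1, h2, h3⟩ := rows_exists_emb (k := k) (insert Q (S.filter (· < q))) id
    strictMonoOn_id (col k) q q fun s hs => by
      rcases Finset.mem_insert.1 hs with h | h
      · exact h ▸ hQ
      · exact (Finset.mem_filter.1 h).2
  have hcol : ∀ s, col k (σ s) = col k s := fun s => by
    by_cases hs : s ∈ insert Q (S.filter (· < q))
    · rw [h1 s hs, id]
    · exact (h2 s hs).1
  have hfix : A.em σ y = y := A.em_fix σ (fun γ hγ => gmap_fix σ (S := Iio q ∩ S)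
    (fun s hs => h1 s (Finset.mem_insert_of_mem (Finset.mem_filter.2 ⟨hs.2, hs.1⟩)))
    fun s hs => ⟨hγ.1 s hs, hγ.2 s hs⟩) hy
  rw [A.PE_eq_of_emb σ (Δ := RR Q K ∩ lev (Iio q)) (fun γ hγ => ⟨?_,
    gmap_mem_lev σ (S := univ) (fun s _ => h3 s) fun _ _ => mem_univ _⟩) inter_subset_left hfix]
  · exact A.LL_mono inter_subset_right (cE_mem _ _)
  · have := gmap_mem_RR σ (fun s c h => (hcol s).trans h) Q K hγ
    rwa [h1 Q (Finset.mem_insert_self _ _)] at this

/-- (Eq) -/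
lemma em_PE_RR (σ : ℚ ↪o ℚ) (hσ : ∀ s, col k (σ s) = col k s) (Q : ℚ) (K : Finset (Fin k))
    (x : LB A.P) : A.em σ (A.PE (RR Q K) x) = A.PE (RR (σ Q) K) (A.em σ x) := by
  classical
  have hx : x ∈ A.LL univ := by
    have : (FF univ : SA (inferInstance : MeasurableSpace (Om k))) = ⊤ :=
      Subtype.ext cylinderEvents_univ
    change x ∈ L A.P (FF univ)
    rw [this]
    exact mem_L_top x
  refine A.LL_lev_induction _ (LinearMap.eqLocus
    ((pullL (A.em_mp σ)).comp (A.PE (RR Q K))).toLinearMap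
    ((A.PE (RR (σ Q) K)).comp (pullL (A.em_mp σ))).toLinearMap)
    (isClosed_eq ((pullL (A.em_mp σ)).comp (A.PE (RR Q K))).continuous
      ((A.PE (RR (σ Q) K)).comp (pullL (A.em_mp σ))).continuous)
    (fun S y hy => ?_) x hx
  change A.em σ (A.PE (RR Q K) y) = A.PE (RR (σ Q) K) (A.em σ y)
  rw [A.em_PE]
  set g : ℚ → ℚ := Function.invFun σ with hg
  have hgσ : ∀ s, g (σ s) = s := Function.leftInverse_invFun σ.injective
  obtain ⟨b, hb⟩ := (insert Q S).bddAbove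
  obtain ⟨τ, h1, h2, -⟩ := rows_exists_emb (k := k) ((insert Q S).image σ) g
    (fun a ha a' ha' h => by
      obtain ⟨a, -, rfl⟩ := Finset.mem_image.1 ha
      obtain ⟨a', -, rfl⟩ := Finset.mem_image.1 ha'
      rw [hgσ, hgσ]
      exact σ.lt_iff_lt.1 h) (col k) 0 (b + 1) fun a ha => by
      obtain ⟨a, ha', rfl⟩ := Finset.mem_image.1 ha
      rw [hgσ]
      exact lt_add_of_le_of_pos (hb ha') one_pos
  have hτσ : ∀ s ∈ insert Q S, τ (σ s) = s := fun s hs =>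
    (h1 _ (Finset.mem_image_of_mem _ hs)).trans (hgσ s)
  have hcol : ∀ s, col k (τ s) = col k s := fun s => by
    by_cases hs : s ∈ (insert Q S).image σ
    · obtain ⟨a, ha, rfl⟩ := Finset.mem_image.1 hs
      rw [hτσ a ha, hσ]
    · exact (h2 s hs).1
  refine (A.PE_eq_of_emb (τ.trans σ) (Δ := gmap σ '' RR Q K) (fun γ hγ => ⟨gmap τ γ, ?_, gmap_gmap _ _ _⟩) ?_ ?_).symm
  · have := gmap_mem_RR τ (fun s c h => (hcol s).trans h) _ K hγ
    rwa [hτσ Q (Finset.mem_insert_self _ _)] at this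
  · rintro _ ⟨γ, hγ, rfl⟩
    exact gmap_mem_RR σ (fun s c h => (hσ s).trans h) _ K hγ
  · rw [← A.em_em, A.em_em τ σ y, A.em_fix (σ.trans τ) (fun γ hγ => gmap_fix _
      (fun s hs => hτσ s (Finset.mem_insert_of_mem hs)) hγ.2) hy]

lemma zero_mean {q Q : ℚ} (hq : Free k q) (hQ : Q ≠ q) (K : Finset (Fin k)) {t e : Fin k}
    (hte : t ≠ e) (F : Fin k → LB A.P) (hF : ∀ i, F i ∈ A.LL (RR q {i}))
    (ht : A.PE (RR Q K) (F t) = 0) (he : F e ∈ A.LL (RR Q K)) : E A.P (∏ i, F i) = 0 := by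
  classical
  have hmem : t ∈ Finset.univ.erase e := Finset.mem_erase.2 ⟨hte, Finset.mem_univ _⟩
  rw [← Finset.mul_prod_erase _ _ (Finset.mem_univ e), ← Finset.mul_prod_erase _ _ hmem,
    ← E_mul_cE he, A.cind_rows hq hQ K hte (J := (Finset.univ.erase e).erase t) (by simp)
      (by simp) _ (hF t) _ (prod_mem fun i hi =>
        A.LL_mono (RR_mono q (Finset.singleton_subset_iff.2 hi)) (hF i)), ht, zero_mul, mul_zero,
    map_zero]

/-- The zero mean property for the multilinear form. -/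
lemma Lam_eq_zero {q Q : ℚ} (hq : Free k q) (hQ : Q ≠ q) (K : Finset (Fin k)) {t e : Fin k}
    (hte : t ≠ e) (x : Fin k → LB A.P) (hx : ∀ i, x i ∈ A.LL (lev (Iio q)))
    (ht : A.PE (RR Q K) (x t) = 0) (he : x e ∈ A.LL (RR Q K)) : A.Lam q x = 0 := by
  refine A.zero_mean hq hQ K hte _ (fun i => A.sh_sg_mem_RR q i (hx i)) ?_
    (A.sh_mem _ (fun γ hγ => (add_sg_mem_RR hq hQ K _ γ).2 hγ) he)
  rw [← A.sh_PE_RR hq hQ, ht, map_zero]

end Arr

end Vale.Agent.P102
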