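import Vale.Agent.P102.ApiPull

/-! Squares of sigma-algebras: heap commutativity, the operator `Sop`, factorisation. -/

namespace Vale.Agent.P102
open MeasureTheory ProbabilityTheory Filter Topology
open scoped InnerProductSpace ComplexConjugate

variable {X : Type*} {m0 : MeasurableSpace X}

/-- Four independent corners and four sides, each side being measurable for its two corners and
independent of each of them. -/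
structure Sq (μ : Measure X) [IsProbabilityMeasure μ] where
  /-- corner -/
  U1 : SA m0
  /-- corner -/
  U2 : SA m0
  /-- corner -/
  U3 : SA m0
  /-- corner -/
  U4 : SA m0
  /-- side -/
  S12 : SA m0
  /-- side -/
  S34 : SA m0
  /-- side -/
  S13 : SA m0
  /-- side -/
  S24 : SA m0
  le12 : L μ S12 ≤ L μ (U1 ⊔ U2)
  le34 : L μ S34 ≤ L μ (U3 ⊔ U4)
  le13 : L μ S13 ≤ L μ (U1 ⊔ U3)
  le24 : L μ S24 ≤ L μ (U2 ⊔ U4)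
  indRow : Ind μ (U1 ⊔ U2) (U3 ⊔ U4)
  indCol : Ind μ (U1 ⊔ U3) (U2 ⊔ U4)
  i12a : Ind μ S12 U1
  i12b : Ind μ S12 U2
  i34a : Ind μ S34 U3
  i34b : Ind μ S34 U4
  i13a : Ind μ S13 U1
  i13b : Ind μ S13 U3
  i24a : Ind μ S24 U2
  i24b : Ind μ S24 U4

variable {μ : Measure X} [IsProbabilityMeasure μ]

namespace Sq

variable (S : Sq μ)

/-- The centre. -/
def Z (x : LB μ) : Prop := x ∈ L μ (S.S12 ⊔ S.S34) ∧ x ∈ L μ (S.S13 ⊔ S.S24)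

/-- Transposition. -/
def tr : Sq μ where
  U1 := S.U1
  U2 := S.U3
  U3 := S.U2
  U4 := S.U4
  S12 := S.S13
  S34 := S.S24
  S13 := S.S12
  S24 := S.S34
  le12 := S.le13
  le34 := S.le24
  le13 := S.le12
  le24 := S.le34
  indRow := S.indCol
  indCol := S.indRow
  i12a := S.i13a
  i12b := S.i13b
  i34a := S.i24a
  i34b := S.i24b
  i13a := S.i12a
  i13b := S.i12b
  i24a := S.i34a
  i24b := S.i34b

/-- Exchange of the two columns. -/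
def flipC : Sq μ where
  U1 := S.U2
  U2 := S.U1
  U3 := S.U4
  U4 := S.U3
  S12 := S.S12
  S34 := S.S34
  S13 := S.S24
  S24 := S.S13
  le12 := sup_comm S.U1 S.U2 ▸ S.le12
  le34 := sup_comm S.U3 S.U4 ▸ S.le34
  le13 := S.le24
  le24 := S.le13
  indRow := sup_comm S.U1 S.U2 ▸ sup_comm S.U3 S.U4 ▸ S.indRow
  indCol := S.indCol.symm
  i12a := S.i12b
  i12b := S.i12a
  i34a := S.i34b
  i34b := S.i34a
  i13a := S.i24a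
  i13b := S.i24b
  i24a := S.i13a
  i24b := S.i13b

/-- Exchange of the two rows. -/
def flipR : Sq μ := S.tr.flipC.tr

lemma Z.tr {S : Sq μ} {x : LB μ} (h : S.Z x) : S.tr.Z x := ⟨h.2, h.1⟩

lemma Z.flipC {S : Sq μ} {x : LB μ} (h : S.Z x) : S.flipC.Z x :=
  ⟨h.1, sup_comm S.S13 S.S24 ▸ h.2⟩

lemma Z.flipR {S : Sq μ} {x : LB μ} (h : S.Z x) : S.flipR.Z x := h.tr.flipC.tr

lemma Z.star {S : Sq μ} {x : LB μ} (h : S.Z x) : S.Z (star x) := ⟨star_mem h.1, star_mem h.2⟩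

lemma ind12 : Ind μ S.U1 S.U2 := S.indCol.mono (L_le_sup_left _ _) (L_le_sup_left _ _)

lemma ind34 : Ind μ S.U3 S.U4 := S.indCol.mono (L_le_sup_right _ _) (L_le_sup_right _ _)

lemma indS : Ind μ S.S12 S.S34 := S.indRow.mono S.le12 S.le34

omit [IsProbabilityMeasure μ] in
lemma sq_mul_mem {m m' : SA m0} {a b : LB μ} (ha : a ∈ L μ m) (hb : b ∈ L μ m') :
    a * b ∈ L μ (m ⊔ m') :=
  mul_mem (L_le_sup_left _ _ ha) (L_le_sup_right _ _ hb)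

lemma sq_ext {m m' : SA m0} (n n' : SA m0) (c d c' d' : LB μ)
    (h : ∀ a ∈ L μ m, ∀ b ∈ L μ m',
      E μ (c * cE μ n (d * (a * b))) = E μ (c' * cE μ n' (d' * (a * b)))) :
    ∀ x ∈ L μ (m ⊔ m'), E μ (c * cE μ n (d * x)) = E μ (c' * cE μ n' (d' * x)) :=
  L_sup_ext m m' ((EL μ).comp ((mulL c).comp ((cE μ n).comp (mulL d))))
    ((EL μ).comp ((mulL c').comp ((cE μ n').comp (mulL d')))) h

lemma sq_mem {m m' : SA m0} (n n' : SA m0) (d : LB μ)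
    (h : ∀ a ∈ L μ m, ∀ b ∈ L μ m', cE μ n (d * (a * b)) ∈ L μ n') :
    ∀ x ∈ L μ (m ⊔ m'), cE μ n (d * x) ∈ L μ n' :=
  L_sup_induction m m' ((LS μ n').comap ((cE μ n).comp (mulL d)).toLinearMap)
    ((isClosed_LS n').preimage ((cE μ n).comp (mulL d)).continuous) h

lemma sq_le34 : L μ (S.U3 ⊔ S.U4) ≤ L μ (S.U2 ⊔ S.U3 ⊔ S.U4) :=
  L_mono (sup_le_sup_right le_sup_right _)

lemma sq_le2 : L μ S.U2 ≤ L μ (S.U2 ⊔ S.U3 ⊔ S.U4) := L_mono (le_sup_left.trans le_sup_left)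

lemma sq_le3 : L μ S.U3 ≤ L μ (S.U2 ⊔ S.U3 ⊔ S.U4) := L_mono (le_sup_right.trans le_sup_left)

lemma cE234_mul {z b : LB μ} (hz : z ∈ L μ (S.U1 ⊔ S.U2)) (hb : b ∈ L μ (S.U3 ⊔ S.U4)) :
    cE μ (S.U2 ⊔ S.U3 ⊔ S.U4) (z * b) = cE μ S.U2 z * b := by
  rw [cE_mul_right (S.sq_le34 hb), sup_assoc, S.indRow.cE_sup (L_le_sup_right _ _) hz]

lemma cE123_mul {z b : LB μ} (hz : z ∈ L μ (S.U1 ⊔ S.U2)) (hb : b ∈ L μ (S.U3 ⊔ S.U4)) :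
    cE μ (S.U1 ⊔ S.U2 ⊔ S.U3) (z * b) = z * cE μ S.U3 b := by
  rw [cE_mul_left (L_le_sup_left _ _ hz), sup_comm,
    S.indRow.symm.cE_sup (L_le_sup_left _ _) hb]

/-- Integrating out the first corner on functions of the two horizontal sides. -/
lemma cE234_side {x : LB μ} (hx : x ∈ L μ (S.S12 ⊔ S.S34)) :
    cE μ (S.U2 ⊔ S.U3 ⊔ S.U4) x = cE μ S.S34 x := by
  refine L_sup_ext _ _ _ _ (fun a ha b hb => ?_) x hx
  rw [S.cE234_mul (S.le12 ha) (S.le34 hb), S.i12b.symm.cE_eq ha, cE_mul_right hb,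
    S.indS.symm.cE_eq ha]

lemma cE123_side {x : LB μ} (hx : x ∈ L μ (S.S12 ⊔ S.S34)) :
    cE μ (S.U1 ⊔ S.U2 ⊔ S.U3) x = cE μ S.S12 x := by
  refine L_sup_ext _ _ _ _ (fun a ha b hb => ?_) x hx
  rw [S.cE123_mul (S.le12 ha) (S.le34 hb), S.i34a.symm.cE_eq hb, cE_mul_left ha,
    S.indS.cE_eq hb]

lemma cE12_side {x : LB μ} (hx : x ∈ L μ (S.S12 ⊔ S.S34)) :
    cE μ (S.U1 ⊔ S.U2) x = cE μ S.S12 x := by
  refine L_sup_ext _ _ _ _ (fun a ha b hb => ?_) x hx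
  rw [S.indRow.cE_mul (S.le12 ha) (S.le34 hb), S.indS.cE_mul ha hb]

lemma cE34_side {x : LB μ} (hx : x ∈ L μ (S.S12 ⊔ S.S34)) :
    cE μ (S.U3 ⊔ S.U4) x = cE μ S.S34 x := by
  refine L_sup_ext _ _ _ _ (fun a ha b hb => ?_) x hx
  rw [mul_comm, S.indRow.symm.cE_mul (S.le34 hb) (S.le12 ha), S.indS.symm.cE_mul hb ha]

lemma sq_E23 {Y u v : LB μ} (hY : Y ∈ L μ (S.S12 ⊔ S.S34)) (hu : u ∈ L μ S.U2)
    (hv : v ∈ L μ S.U3) : E μ (u * v * Y) = E μ u * E μ v * E μ Y := by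
  rw [← E_mul_cE (mul_mem (S.sq_le2 hu) (S.sq_le3 hv)), S.cE234_side hY, mul_assoc,
    S.indRow u (L_le_sup_right _ _ hu) _
      (mul_mem (L_le_sup_left _ _ hv) (S.le34 (cE_mem _ _))),
    S.i34a.symm v hv _ (cE_mem _ _), E_cE, mul_assoc]

lemma sq_phi_psi {G' a b a'' b'' a1 a2 a3 a4 : LB μ} (ha : a ∈ L μ S.S12) (hb : b ∈ L μ S.S34)
    (hG' : G' ∈ L μ (S.S12 ⊔ S.S34)) (ha'' : a'' ∈ L μ S.S12) (hb'' : b'' ∈ L μ S.S34)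
    (h1 : a1 ∈ L μ S.U1) (h2 : a2 ∈ L μ S.U2) (h3 : a3 ∈ L μ S.U3) (h4 : a4 ∈ L μ S.U4) :
    E μ (G' * cE μ (S.U1 ⊔ S.U2) (a3 * a4 * (a'' * b'')) *
      cE μ (S.U3 ⊔ S.U4) (a1 * a2 * (a * b))) =
      E μ (a2 * a3 * G' * cE μ (S.U1 ⊔ S.U2 ⊔ S.U3) (a4 * (a'' * b'')) *
        cE μ (S.U2 ⊔ S.U3 ⊔ S.U4) (a1 * (a * b))) := by
  have e1 : a3 * a4 * (a'' * b'') = a'' * (a3 * (a4 * b'')) := by ring
  have e2 : a1 * a2 * (a * b) = b * (a2 * (a1 * a)) := by ring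
  have e3 : a4 * (a'' * b'') = a'' * (a4 * b'') := by ring
  have m1 : a4 * b'' ∈ L μ (S.U3 ⊔ S.U4) := mul_mem (L_le_sup_right _ _ h4) (S.le34 hb'')
  have m2 : a1 * a ∈ L μ (S.U1 ⊔ S.U2) := mul_mem (L_le_sup_left _ _ h1) (S.le12 ha)
  rw [e1, e2, e3, ← mul_assoc a1,
    S.indRow.cE_mul (S.le12 ha'') (mul_mem (L_le_sup_left _ _ h3) m1),
    S.indRow.symm.cE_mul (S.le34 hb) (mul_mem (L_le_sup_right _ _ h2) m2),
    S.cE123_mul (S.le12 ha'') m1, S.cE234_mul m2 (S.le34 hb)]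
  have e4 : a2 * a3 * G' * (a'' * cE μ S.U3 (a4 * b'')) * (cE μ S.U2 (a1 * a) * b) =
      a2 * cE μ S.U2 (a1 * a) * (a3 * cE μ S.U3 (a4 * b'')) * (G' * (a'' * b)) := by ring
  rw [e4, S.sq_E23 (mul_mem hG' (sq_mul_mem ha'' hb)) (mul_mem h2 (cE_mem _ _))
    (mul_mem h3 (cE_mem _ _)), E_mul_cE h2, E_mul_cE h3]
  simp only [mul_smul_comm, smul_mul_assoc, map_smul, smul_eq_mul, mul_assoc]

/-- The two expressions of the heap operation agree. -/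
lemma phi_psi {G G' G'' a1 a2 a3 a4 : LB μ} (hG : G ∈ L μ (S.S12 ⊔ S.S34))
    (hG' : G' ∈ L μ (S.S12 ⊔ S.S34)) (hG'' : G'' ∈ L μ (S.S12 ⊔ S.S34))
    (h1 : a1 ∈ L μ S.U1) (h2 : a2 ∈ L μ S.U2) (h3 : a3 ∈ L μ S.U3) (h4 : a4 ∈ L μ S.U4) :
    E μ (G' * cE μ (S.U1 ⊔ S.U2) (G'' * (a3 * a4)) * cE μ (S.U3 ⊔ S.U4) (G * (a1 * a2))) =
      E μ (a2 * a3 * G' * cE μ (S.U1 ⊔ S.U2 ⊔ S.U3) (G'' * a4) *
        cE μ (S.U2 ⊔ S.U3 ⊔ S.U4) (G * a1)) := by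
  rw [mul_comm G, mul_comm G, mul_comm G'', mul_comm G'']
  refine sq_ext _ _ _ _ _ _ (fun a ha b hb => ?_) G hG
  rw [mul_right_comm G', mul_right_comm (a2 * a3 * G')]
  refine sq_ext _ _ _ _ _ _ (fun a'' ha'' b'' hb'' => ?_) G'' hG''
  rw [mul_right_comm G', mul_right_comm (a2 * a3 * G')]
  exact S.sq_phi_psi ha hb hG' ha'' hb'' h1 h2 h3 h4

lemma sq_heap {G G' G'' a1 a2 a3 a4 : LB μ} (hG : S.Z G) (hG' : S.Z G') (hG'' : S.Z G'')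
    (h1 : a1 ∈ L μ S.U1) (h2 : a2 ∈ L μ S.U2) (h3 : a3 ∈ L μ S.U3) (h4 : a4 ∈ L μ S.U4) :
    E μ (G' * cE μ (S.U1 ⊔ S.U2) (G'' * (a3 * a4)) * cE μ (S.U3 ⊔ S.U4) (G * (a1 * a2))) =
      E μ (G' * cE μ (S.U1 ⊔ S.U2) (G * (a3 * a4)) * cE μ (S.U3 ⊔ S.U4) (G'' * (a1 * a2))) := by
  have p1 := S.phi_psi hG.1 hG'.1 hG''.1 h1 h2 h3 h4
  have p2 : E μ (G' * cE μ (S.U1 ⊔ S.U3) (G'' * (a2 * a4)) * cE μ (S.U2 ⊔ S.U4) (G * (a1 * a3))) =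
      E μ (a3 * a2 * G' * cE μ (S.U1 ⊔ S.U3 ⊔ S.U2) (G'' * a4) *
        cE μ (S.U3 ⊔ S.U2 ⊔ S.U4) (G * a1)) := S.tr.phi_psi hG.2 hG'.2 hG''.2 h1 h3 h2 h4
  have p3 : E μ (G' * cE μ (S.U2 ⊔ S.U1) (G * (a4 * a3)) * cE μ (S.U4 ⊔ S.U3) (G'' * (a2 * a1))) =
      E μ (a1 * a4 * G' * cE μ (S.U2 ⊔ S.U1 ⊔ S.U4) (G * a3) *
        cE μ (S.U1 ⊔ S.U4 ⊔ S.U3) (G'' * a2)) := S.flipC.phi_psi hG''.1 hG'.1 hG.1 h2 h1 h4 h3
  have p4 : E μ (G' * cE μ (S.U3 ⊔ S.U1) (G'' * (a4 * a2)) * cE μ (S.U4 ⊔ S.U2) (G * (a3 * a1))) =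
      E μ (a1 * a4 * G' * cE μ (S.U3 ⊔ S.U1 ⊔ S.U4) (G'' * a2) *
        cE μ (S.U1 ⊔ S.U4 ⊔ S.U2) (G * a3)) :=
    S.tr.flipC.phi_psi hG.2 hG'.2 hG''.2 h3 h1 h4 h2
  rw [sup_right_comm S.U1 S.U3, sup_comm S.U3 S.U2, mul_comm a3 a2, ← p1] at p2
  rw [sup_comm S.U2 S.U1, sup_comm S.U4 S.U3, mul_comm a4 a3, mul_comm a2 a1,
    sup_right_comm S.U1 S.U4] at p3
  rw [sup_comm S.U3 S.U1, sup_comm S.U4 S.U2, mul_comm a4 a2, mul_comm a3 a1, p2,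
    sup_right_comm S.U1 S.U4, mul_right_comm (a1 * a4 * G'), ← p3] at p4
  exact p4

/-- Heap commutativity. -/
lemma heap {G G' G'' a b : LB μ} (hG : S.Z G) (hG' : S.Z G') (hG'' : S.Z G'')
    (ha : a ∈ L μ (S.U1 ⊔ S.U2)) (hb : b ∈ L μ (S.U3 ⊔ S.U4)) :
    E μ (G' * cE μ (S.U1 ⊔ S.U2) (G'' * b) * cE μ (S.U3 ⊔ S.U4) (G * a)) =
      E μ (G' * cE μ (S.U1 ⊔ S.U2) (G * b) * cE μ (S.U3 ⊔ S.U4) (G'' * a)) := by
  refine sq_ext _ _ _ _ _ _ (fun a1 h1 a2 h2 => ?_) a ha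
  rw [mul_right_comm G', mul_right_comm G' (cE μ (S.U1 ⊔ S.U2) (G * b))]
  refine sq_ext _ _ _ _ _ _ (fun a3 h3 a4 h4 => ?_) b hb
  rw [mul_right_comm G', mul_right_comm G' (cE μ (S.U3 ⊔ S.U4) (G'' * (a1 * a2)))]
  exact S.sq_heap hG hG' hG'' h1 h2 h3 h4

lemma heap_op {G G' G'' b : LB μ} (hG : S.Z G) (hG' : S.Z G') (hG'' : S.Z G'')
    (hb : b ∈ L μ S.S34) :
    cE μ S.S12 (G * cE μ S.S34 (G' * cE μ S.S12 (G'' * b))) =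
      cE μ S.S12 (G'' * cE μ S.S34 (G' * cE μ S.S12 (G * b))) := by
  refine eq_of_E_mul (cE_mem _ _) (cE_mem _ _) fun a ha => ?_
  have e : ∀ A B : LB μ, S.Z A → S.Z B →
      E μ (a * cE μ S.S12 (A * cE μ S.S34 (G' * cE μ S.S12 (B * b)))) =
      E μ (G' * cE μ (S.U1 ⊔ S.U2) (B * b) * cE μ (S.U3 ⊔ S.U4) (A * a)) := fun A B hA hB => by
    rw [E_mul_cE ha, ← mul_assoc, ← E_cE_mul, mul_comm a, mul_comm,
      S.cE12_side (mul_mem hB.1 (L_le_sup_right _ _ hb)),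
      S.cE34_side (mul_mem hA.1 (L_le_sup_left _ _ ha))]
  rw [e G G'' hG hG'', e G'' G hG'' hG]
  exact S.heap hG hG' hG'' (S.le12 ha) (S.le34 hb)

lemma heap_op' {G G' G'' a : LB μ} (hG : S.Z G) (hG' : S.Z G') (hG'' : S.Z G'')
    (ha : a ∈ L μ S.S12) :
    cE μ S.S34 (G * cE μ S.S12 (G' * cE μ S.S34 (G'' * a))) =
      cE μ S.S34 (G'' * cE μ S.S12 (G' * cE μ S.S34 (G * a))) :=
  S.flipR.heap_op hG.flipR hG'.flipR hG''.flipR ha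

/-- The operator `P_123 M_F P_234 M_{conj F}`. -/
noncomputable def Sop (F y : LB μ) : LB μ :=
  cE μ (S.U1 ⊔ S.U2 ⊔ S.U3) (F * cE μ (S.U2 ⊔ S.U3 ⊔ S.U4) (star F * y))

lemma tr_Sop (F y : LB μ) : S.tr.Sop F y = S.Sop F y := by
  change cE μ (S.U1 ⊔ S.U3 ⊔ S.U2) (F * cE μ (S.U3 ⊔ S.U2 ⊔ S.U4) (star F * y)) = _
  rw [sup_right_comm S.U1 S.U3, sup_comm S.U3 S.U2, Sop]

lemma Sop_side {F g : LB μ} (hF : F ∈ L μ (S.S12 ⊔ S.S34)) (hg : g ∈ L μ S.S12) :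
    S.Sop F g = cE μ S.S12 (F * cE μ S.S34 (star F * g)) := by
  rw [Sop, S.cE234_side (mul_mem (star_mem hF) (L_le_sup_left _ _ hg)),
    S.cE123_side (mul_mem hF (L_le_sup_right _ _ (cE_mem _ _)))]

lemma Sop_mem12 {F y : LB μ} (hF : F ∈ L μ (S.S12 ⊔ S.S34)) (hy : y ∈ L μ S.U1) :
    S.Sop F y ∈ L μ (S.U1 ⊔ S.U2) := by
  have h1 : cE μ (S.U2 ⊔ S.U3 ⊔ S.U4) (y * star F) ∈ L μ (S.U1 ⊔ S.U2 ⊔ S.S34) := by
    refine sq_mem _ _ _ (fun a ha b hb => ?_) _ (star_mem hF)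
    rw [← mul_assoc, S.cE234_mul (mul_mem (L_le_sup_left _ _ hy) (S.le12 ha)) (S.le34 hb)]
    exact sq_mul_mem (L_le_sup_right _ _ (cE_mem _ _)) hb
  have h2 := sq_mem (S.U1 ⊔ S.U2 ⊔ S.U3) (S.U1 ⊔ S.U2) 1 (fun z hz b hb => by
    rw [one_mul, S.cE123_mul hz (S.le34 hb), S.i34a.symm.cE_eq hb]
    exact mul_mem hz ((L μ _).algebraMap_mem _)) _ (mul_mem (L_sup_mono S.le12 le_rfl hF) h1)
  rwa [one_mul, mul_comm y] at h2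

lemma Sop_corner {F y : LB μ} (hF : S.Z F) (hy : y ∈ L μ S.U1) : S.Sop F y ∈ L μ S.U1 :=
  mem_of_mem_sup_sup (S.indRow.mono le_rfl (L_le_sup_left _ _)) (S.Sop_mem12 hF.1 hy)
    (S.tr_Sop F y ▸ S.tr.Sop_mem12 hF.2 hy)

lemma Sop_mul (F y : LB μ) {η : LB μ} (hη : η ∈ L μ S.U2) : S.Sop F (y * η) = S.Sop F y * η := by
  rw [Sop, Sop, ← mul_assoc, cE_mul_right (S.sq_le2 hη), ← mul_assoc,
    cE_mul_right (L_le_sup_left _ _ (L_le_sup_right _ _ hη))]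

lemma inner_Sop (F x : LB μ) {y : LB μ} (hy : y ∈ L μ (S.U1 ⊔ S.U2 ⊔ S.U3)) :
    ⟪y, S.Sop F x⟫_ℂ =
      ⟪cE μ (S.U2 ⊔ S.U3 ⊔ S.U4) (star F * y), cE μ (S.U2 ⊔ S.U3 ⊔ S.U4) (star F * x)⟫_ℂ := by
  rw [Sop, inner_cE_of_mem hy, inner_mul_right, inner_cE_left, cE_cE]

lemma sq_Sop_symm (F : LB μ) {x y : LB μ} (hx : x ∈ L μ (S.U1 ⊔ S.U2 ⊔ S.U3))
    (hy : y ∈ L μ (S.U1 ⊔ S.U2 ⊔ S.U3)) : ⟪y, S.Sop F x⟫_ℂ = ⟪S.Sop F y, x⟫_ℂ := by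
  rw [← inner_conj_symm (S.Sop F y), S.inner_Sop F x hy, S.inner_Sop F y hx, inner_conj_symm]

/-- `Sop` commutes with the projection onto an invariant sub-sigma-algebra. -/
lemma cE_Sop (F : LB μ) {m : SA m0} (hm : L μ m ≤ L μ (S.U1 ⊔ S.U2 ⊔ S.U3))
    (hinv : ∀ z ∈ L μ m, S.Sop F z ∈ L μ m) {x : LB μ} (hx : x ∈ L μ (S.U1 ⊔ S.U2 ⊔ S.U3)) :
    cE μ m (S.Sop F x) = S.Sop F (cE μ m x) := by
  refine cE_unique (hinv _ (cE_mem m x)) fun z hz => ?_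
  rw [E_mul_eq_inner, E_mul_eq_inner, S.sq_Sop_symm F (hm (cE_mem m x)) (hm (star_mem hz)),
    S.sq_Sop_symm F hx (hm (star_mem hz)), inner_cE_of_mem (hinv _ (star_mem hz))]

/-- A unimodular product in one direction factors into the corners. -/
lemma factor {c c' : LB μ} (hc : c ∈ L μ S.S12) (hc' : c' ∈ L μ S.S34)
    (uc : c ∈ unitary (LB μ)) (uc' : c' ∈ unitary (LB μ)) (h : c * c' ∈ L μ (S.S13 ⊔ S.S24)) :
    ∃ c1 ∈ L μ S.U1, ∃ c2 ∈ L μ S.U2, c1 ∈ unitary (LB μ) ∧ c2 ∈ unitary (LB μ) ∧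
      c = c1 * c2 := by
  have h1 : ∀ y ∈ L μ S.U1, c * cE μ S.U2 (star c * y) ∈ L μ S.U1 := fun y hy => by
    have := S.Sop_corner (F := c * c') ⟨sq_mul_mem hc hc', h⟩ hy
    have e1 : star (c * c') * y = star c * y * star c' := by rw [star_mul]; ring
    have e2 : c * c' * (cE μ S.U2 (star c * y) * star c') =
        c * cE μ S.U2 (star c * y) * (star c' * c') := by ring
    rwa [Sop, e1, S.cE234_mul (mul_mem (star_mem (S.le12 hc)) (L_le_sup_left _ _ hy))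
      (star_mem (S.le34 hc')), e2, mem_unitary_iff.1 uc', mul_one, cE_of_mem (L_le_sup_left _ _
        (mul_mem (S.le12 hc) (L_le_sup_right _ _ (cE_mem _ _))))] at this
  obtain ⟨y, hy, h0⟩ : ∃ y ∈ L μ S.U1, cE μ S.U2 (star c * y) ≠ 0 := by
    by_contra! h0
    have e : star c = 0 := eq_of_E_mul_mul (star_mem (S.le12 hc)) (zero_mem _) fun a ha b hb => by
      have := cE_eq_zero_iff.1 (h0 a ha) b hb
      rw [mul_zero, map_zero, ← this]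
      congr 1
      ring
    have := norm_unitary uc
    rw [← norm_star', e, norm_zero] at this
    exact zero_ne_one this
  set ζ := cE μ S.U2 (star c * y) with hζ
  have hζ2 : ζ ∈ L μ S.U2 := cE_mem _ _
  have e1 : star ζ * ζ = star (c * ζ) * (c * ζ) := by
    rw [star_mul]
    linear_combination (-(star ζ * ζ)) * mem_unitary_iff.1 uc
  have uζ := unitary_of_const_modulus (S.ind12.eq_const
    (e1 ▸ mul_mem (star_mem (h1 y hy)) (h1 y hy)) (mul_mem (star_mem hζ2) hζ2)) h0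
  refine ⟨c * (((‖ζ‖⁻¹ : ℝ) : ℂ) • ζ), ?_, star (((‖ζ‖⁻¹ : ℝ) : ℂ) • ζ),
    star_mem ((L μ _).smul_mem hζ2 _), mul_mem uc uζ, Unitary.star_mem uζ, ?_⟩
  · rw [mul_smul_comm]
    exact (L μ _).smul_mem (h1 y hy) _
  · rw [mul_assoc, mul_comm _ (star _), mem_unitary_iff.1 uζ, mul_one]

end Sq

end Vale.Agent.P102
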