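import Vale.Agent.P102.Square
import Vale.Agent.P102.Eigen

/-! The structure theorem: singular values of functions of the centre are Fourier coefficients. -/

namespace Vale.Agent.P102
open MeasureTheory ProbabilityTheory Filter Topology
open scoped InnerProductSpace ComplexConjugate

variable {X : Type*} {m0 : MeasurableSpace X} {μ : Measure X} [IsProbabilityMeasure μ]

namespace Sq

variable (S : Sq μ)

/-- The eigenspace of `Sop` in the first corner. -/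
noncomputable def Wsp (F : LB μ) (t : ℝ) : Submodule ℂ (LB μ) where
  carrier := {c | c ∈ L μ S.U1 ∧ S.Sop F c = (t : ℂ) • c}
  add_mem' := by
    rintro g g' ⟨h1, h2⟩ ⟨h3, h4⟩
    refine ⟨add_mem h1 h3, ?_⟩
    unfold Sop at h2 h4 ⊢
    rw [mul_add, map_add, mul_add, map_add, h2, h4, smul_add]
  zero_mem' := ⟨zero_mem _, by simp [Sop]⟩
  smul_mem' := by
    rintro c g ⟨h1, h2⟩
    refine ⟨(L μ S.U1).smul_mem h1 c, ?_⟩
    unfold Sop at h2 ⊢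
    rw [mul_smul_comm, map_smul, mul_smul_comm, map_smul, h2, smul_comm]

lemma tr_Wsp (F : LB μ) (t : ℝ) : S.tr.Wsp F t = S.Wsp F t := by
  ext c
  change c ∈ L μ S.U1 ∧ S.tr.Sop F c = _ ↔ c ∈ L μ S.U1 ∧ S.Sop F c = _
  rw [tr_Sop]

lemma thms_le123 : L μ (S.U1 ⊔ S.U2) ≤ L μ (S.U1 ⊔ S.U2 ⊔ S.U3) := L_le_sup_left _ _

lemma thms_Sop_V {F : LB μ} (hF : S.Z F) {t : ℝ} {g : LB μ} (hg : g ∈ Vsp S.S12 S.S34 F t)
    {η : LB μ} (hη : η ∈ L μ S.U2) : S.Sop F (g * η) = (t : ℂ) • (g * η) := by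
  rw [S.Sop_mul F g hη, S.Sop_side hF.1 hg.1, hg.2, smul_mul_assoc]

lemma thms_Sop_sub (F x y : LB μ) : S.Sop F (x - y) = S.Sop F x - S.Sop F y := by
  simp only [Sop, mul_sub, map_sub]

lemma thms_Sop_sum {ι : Type*} (J : Finset ι) (F : LB μ) (x : ι → LB μ) :
    S.Sop F (∑ i ∈ J, x i) = ∑ i ∈ J, S.Sop F (x i) := by
  simp only [Sop, Finset.mul_sum, map_sum]

lemma cE_mem_Wsp {F : LB μ} (hF : S.Z F) {t : ℝ} {g : LB μ} (hg : g ∈ Vsp S.S12 S.S34 F t)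
    {η : LB μ} (hη : η ∈ L μ S.U2) : cE μ S.U1 (g * η) ∈ S.Wsp F t := by
  refine ⟨cE_mem _ _, ?_⟩
  rw [← S.cE_Sop F ((L_le_sup_left _ _).trans S.thms_le123) (fun z hz => S.Sop_corner hF hz)
    (S.thms_le123 (mul_mem (S.le12 hg.1) (L_le_sup_right _ _ hη))), S.thms_Sop_V hF hg hη,
    map_smul]

lemma Wsp_le {F : LB μ} (hF : S.Z F) {t : ℝ} (ht : 0 < t) :
    S.Wsp F t ≤ mulSpan (Vsp S.S12 S.S34 F t) S.U2 := by
  intro c hc
  have := finiteDimensional_Vsp S.indS F ht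
  set V := Vsp S.S12 S.S34 F t with hV
  set e := stdOrthonormalBasis ℂ V with he
  set cV : LB μ := ∑ i, (e i : LB μ) * cE μ S.U2 (star (e i : LB μ) * c) with hcV
  have hcVm : cV ∈ mulSpan V S.U2 :=
    Submodule.sum_mem _ fun i _ => Submodule.subset_span ⟨_, (e i).2, _, cE_mem _ _, rfl⟩
  have h12 : c - cV ∈ L μ (S.U1 ⊔ S.U2) :=
    sub_mem (L_le_sup_left _ _ hc.1) (sum_mem fun i _ =>
      mul_mem (S.le12 (e i).2.1) (L_le_sup_right _ _ (cE_mem _ _)))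
  have hS : S.Sop F (c - cV) = (t : ℂ) • (c - cV) := by
    rw [thms_Sop_sub, hc.2, hcV, thms_Sop_sum, smul_sub, Finset.smul_sum]
    congr 1
    exact Finset.sum_congr rfl fun i _ => S.thms_Sop_V hF (e i).2 (cE_mem _ _)
  have horth : ∀ j, cE μ S.U2 (star (e j : LB μ) * (c - cV)) = 0 := fun j => by
    rw [mul_sub, map_sub, hcV, Finset.mul_sum, map_sum, Finset.sum_eq_single j, sub_eq_zero]
    · rw [← mul_assoc, mul_comm (star (e j : LB μ) * e j),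
        S.i12b.symm.cE_mul (cE_mem _ _) (mul_mem (star_mem (e j).2.1) (e j).2.1), ← inner_def,
        ← Submodule.coe_inner, e.inner_eq_one, one_smul]
    · intro i _ hij
      rw [← mul_assoc, mul_comm (star (e j : LB μ) * e i),
        S.i12b.symm.cE_mul (cE_mem _ _) (mul_mem (star_mem (e j).2.1) (e i).2.1), ← inner_def,
        ← Submodule.coe_inner, e.inner_eq_zero hij.symm, zero_smul]
    · simp
  have h1 : ∀ η ∈ L μ S.U2, cE μ S.S12 ((c - cV) * η) = 0 := fun η hη => by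
    have hm : cE μ S.S12 ((c - cV) * η) ∈ V := by
      refine ⟨cE_mem _ _, ?_⟩
      rw [← S.Sop_side hF.1 (cE_mem _ _), ← S.cE_Sop F (S.le12.trans S.thms_le123)
        (fun z hz => by rw [S.Sop_side hF.1 hz]; exact cE_mem _ _)
        (S.thms_le123 (mul_mem h12 (L_le_sup_right _ _ hη))), S.Sop_mul F _ hη, hS,
        smul_mul_assoc, map_smul]
    have h0 : (⟨_, hm⟩ : V) = 0 := by
      rw [← e.sum_repr ⟨_, hm⟩]
      refine Finset.sum_eq_zero fun j _ => ?_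
      rw [e.repr_apply_apply, Submodule.coe_inner, inner_cE_of_mem (e j).2.1, inner_def,
        ← mul_assoc, ← E_cE_mul' hη, horth, zero_mul, map_zero, zero_smul]
    exact congrArg Subtype.val h0
  have h2 : ∀ a ∈ L μ S.S12, cE μ S.U2 (a * (c - cV)) = 0 := fun a ha =>
    cE_eq_zero_iff.2 fun η hη => by
      rw [← mul_assoc, mul_comm η, mul_assoc, mul_comm η, ← E_mul_cE ha, h1 η hη, mul_zero,
        map_zero]
  have h3 := L_sup_ext S.S12 S.S34 ((cE μ (S.U2 ⊔ S.U3 ⊔ S.U4)).comp (mulL (c - cV))) 0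
    (fun a ha b hb => by
      change cE μ _ ((c - cV) * (a * b)) = 0
      rw [← mul_assoc, S.cE234_mul (mul_mem h12 (S.le12 ha)) (S.le34 hb), mul_comm _ a, h2 a ha,
        zero_mul]) (star F) (star_mem hF.1)
  change cE μ _ ((c - cV) * star F) = 0 at h3
  have h4 : S.Sop F (c - cV) = 0 := by rw [Sop, mul_comm (star F), h3, mul_zero, map_zero]
  rw [hS, smul_eq_zero] at h4
  rw [sub_eq_zero.1 (h4.resolve_left (by exact_mod_cast ht.ne'))]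
  exact hcVm

lemma exists_ne_zero_Wsp {F : LB μ} (hF : S.Z F) {t : ℝ} {g : LB μ}
    (hg : g ∈ Vsp S.S12 S.S34 F t) (h0 : g ≠ 0) : ∃ c ∈ S.Wsp F t, c ≠ 0 := by
  by_contra hcon
  push Not at hcon
  refine h0 (eq_of_E_mul_mul (S.le12 hg.1) (zero_mem _) fun a ha b hb => ?_)
  rw [mul_assoc, mul_comm b, ← E_mul_cE ha, hcon _ (S.cE_mem_Wsp hF hg hb)]
  simp

/-- Characters in both directions. -/
def Chr2 : Set (LB μ) :=
  {χ | ∃ G ∈ L μ S.S12, ∃ H ∈ L μ S.S34, ∃ G' ∈ L μ S.S13, ∃ H' ∈ L μ S.S24,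
    G ∈ unitary (LB μ) ∧ H ∈ unitary (LB μ) ∧ G' ∈ unitary (LB μ) ∧ H' ∈ unitary (LB μ) ∧
    χ = G * H ∧ χ = G' * H'}

/-- The final step. -/
lemma exists_chr {F : LB μ} (hF : S.Z F) {t : ℝ} (ht : 0 < t) {c c' d' : LB μ}
    (hc : c ∈ L μ S.U1) (hc' : c' ∈ L μ S.U2) (hd' : d' ∈ L μ S.U3)
    (uc : c ∈ unitary (LB μ)) (uc' : c' ∈ unitary (LB μ)) (ud' : d' ∈ unitary (LB μ))
    (h1 : c * c' ∈ Vsp S.S12 S.S34 F t) (h2 : c * d' ∈ Vsp S.S13 S.S24 F t) :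
    ∃ χ ∈ S.Chr2, ‖⟪χ, F⟫_ℂ‖ ^ 2 = t := by
  have key : ∀ (S : Sq μ) {c' : LB μ}, S.Z F → c' ∈ L μ S.U2 → c' ∈ unitary (LB μ) →
      c * c' ∈ Vsp S.S12 S.S34 F t →
      cE μ (S.U2 ⊔ S.U3 ⊔ S.U4) (F * star c) = c' * cE μ S.S34 (star (c * c') * F) ∧
        ‖cE μ S.S34 (star (c * c') * F)‖ ^ 2 = t := fun S c' hF hc' uc' h => by
    constructor
    · rw [← S.cE234_side (mul_mem (star_mem (L_le_sup_left _ _ h.1)) hF.1),
        ← cE_mul_left ((L_le_sup_left _ _).trans (L_le_sup_left _ _) hc')]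
      congr 1
      have := mem_unitary_iff.1 uc'
      rw [star_mul]
      linear_combination (-(F * star c)) * this
    · rw [← norm_star', ← cE_star, star_mul, star_star, norm_sq_of_mem_Vsp h,
        norm_unitary (mul_mem uc uc'), one_pow, mul_one]
  obtain ⟨k1, n1⟩ := key S hF hc' uc' h1
  obtain ⟨k2, n2⟩ := key S.tr hF.tr hd' ud' h2
  change cE μ (S.U3 ⊔ S.U2 ⊔ S.U4) _ = d' * cE μ S.S24 _ at k2
  change ‖cE μ S.S24 _‖ ^ 2 = t at n2
  rw [sup_comm S.U3, k1] at k2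
  set H := cE μ S.S34 (star (c * c') * F) with hH
  set H' := cE μ S.S24 (star (c * d') * F) with hH'
  have mH : H ∈ L μ S.S34 := cE_mem _ _
  have mH' : H' ∈ L μ S.S24 := cE_mem _ _
  have e1 : star H * H = star H' * H' := by
    have h1 := mem_unitary_iff.1 uc'
    have h2 := mem_unitary_iff.1 ud'
    have h3 : star (c' * H) * (c' * H) = star (d' * H') * (d' * H') := by rw [k2]
    rw [star_mul, star_mul] at h3
    linear_combination h3 - (star H * H) * h1 + (star H' * H') * h2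
  have hi : Ind μ (S.U4 ⊔ S.U3) S.U2 :=
    S.indRow.symm.mono (L_mono (sup_comm _ _).le) (L_le_sup_right _ _)
  have m4 : star H * H ∈ L μ S.U4 :=
    mem_of_mem_sup_sup hi (sup_comm S.U3 S.U4 ▸ S.le34 (mul_mem (star_mem mH) mH))
      (sup_comm S.U2 S.U4 ▸ e1 ▸ S.le24 (mul_mem (star_mem mH') mH'))
  have c1 := S.i34b.eq_const (mul_mem (star_mem mH) mH) m4
  have hn : ‖H'‖ = ‖H‖ :=
    (pow_left_inj₀ (norm_nonneg _) (norm_nonneg _) two_ne_zero).1 (n2.trans n1.symm)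
  have hH0 : ‖H‖ ≠ 0 := fun h => by
    rw [h] at n1
    exact ht.ne' (by rw [← n1]; norm_num)
  have u1 := unitary_of_const_modulus c1 (norm_ne_zero_iff.1 hH0)
  have u2 := unitary_of_const_modulus (e1 ▸ c1) (norm_ne_zero_iff.1 (hn ▸ hH0))
  rw [hn] at u2
  refine ⟨c * c' * (((‖H‖⁻¹ : ℝ) : ℂ) • H), ⟨_, h1.1, _, (L μ S.S34).smul_mem mH _, _, h2.1, _,
    (L μ S.S24).smul_mem mH' _, mul_mem uc uc', u1, mul_mem uc ud', u2, rfl, ?_⟩, ?_⟩
  · rw [mul_smul_comm, mul_smul_comm, mul_assoc, mul_assoc, k2]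
  · rw [inner_mul_left, ← inner_cE_of_mem ((L μ S.S34).smul_mem mH _), ← hH, inner_smul_left,
      inner_self_eq_norm_sq_to_K, ← n1]
    simp only [Complex.conj_ofReal, norm_mul, Complex.norm_real, norm_inv, norm_norm, norm_pow,
      Complex.coe_algebraMap]
    field_simp

/-- Spanning by unimodular vectors, given a sub-square with centre the side `S12`. -/
lemma Wsp_le_span (S1 : Sq μ) (e1 : S1.S12 = S.U1) (e2 : S1.S34 = S.U2)
    (hZ : ∀ x ∈ L μ S.S12, S1.Z x) {F : LB μ} (hF : S.Z F) {t : ℝ} (ht : 0 < t) :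
    S.Wsp F t ≤ Submodule.span ℂ {c | c ∈ S.Wsp F t ∧ c ∈ unitary (LB μ) ∧
      ∃ c' ∈ L μ S.U2, c' ∈ unitary (LB μ) ∧ c * c' ∈ Vsp S.S12 S.S34 F t} := by
  have := finiteDimensional_Vsp S.indS F ht
  refine prod_span S.i12a S.i12b S.ind12 _ _ (S.flipC.Wsp F t) (fun g hg => hg.1)
    (fun c hc => hc.1) (fun c hc => hc.1) (fun g hg η hη => S.cE_mem_Wsp hF hg hη)
    (fun g hg η hη => S.flipC.cE_mem_Wsp hF.flipC hg hη) (S.Wsp_le hF ht)
    (S.flipC.Wsp_le hF.flipC ht) (fun G hG G' hG' G'' hG'' η hη => ?_)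
    fun G hG G' hG' G'' hG'' η hη => ?_
  · rw [← e1, ← e2]
    exact S1.heap_op (hZ _ hG) (hZ _ hG') (hZ _ hG'') (e2 ▸ hη)
  · rw [← e1, ← e2]
    exact S1.heap_op' (hZ _ hG) (hZ _ hG') (hZ _ hG'') (e1 ▸ hη)

/-- Theorem S. -/
theorem thmS (S1 S2 : Sq μ) (e1 : S1.S12 = S.U1) (e2 : S1.S34 = S.U2)
    (hZ1 : ∀ x ∈ L μ S.S12, S1.Z x) (e3 : S2.S12 = S.U1) (e4 : S2.S34 = S.U3)
    (hZ2 : ∀ x ∈ L μ S.S13, S2.Z x) (e5 : S2.U1 = S1.U1) (e6 : S2.U2 = S1.U2)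
    {F : LB μ} (hF : S.Z F) {δ : ℝ} (hδ : 0 ≤ δ) (h : ∀ χ ∈ S.Chr2, ‖⟪χ, F⟫_ℂ‖ ≤ δ)
    {x y : LB μ} (hx : x ∈ L μ S.S12) (hy : y ∈ L μ S.S34) :
    ‖E μ (F * (x * y))‖ ≤ δ * ‖x‖ * ‖y‖ := by
  by_contra hcon
  obtain ⟨t, hδt, g, hg, hg0⟩ := exists_top_eigen S.indS hF.1 hx hy hδ (not_le.1 hcon)
  have ht : 0 < t := lt_of_le_of_lt (sq_nonneg δ) hδt
  obtain ⟨c0, hc0, hc00⟩ := S.exists_ne_zero_Wsp hF hg hg0
  obtain ⟨c, ⟨hc, uc, c', hc', uc', hcc⟩⟩ : ∃ c, c ∈ {c | c ∈ S.Wsp F t ∧ c ∈ unitary (LB μ) ∧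
      ∃ c' ∈ L μ S.U2, c' ∈ unitary (LB μ) ∧ c * c' ∈ Vsp S.S12 S.S34 F t} := by
    by_contra hne
    have h1 := S.Wsp_le_span S1 e1 e2 hZ1 hF ht hc0
    rw [Set.eq_empty_of_forall_notMem fun c hc => hne ⟨c, hc⟩, Submodule.span_empty] at h1
    exact hc00 h1
  have h2 := S.tr.Wsp_le_span S2 e3 e4 hZ2 hF.tr ht (S.tr_Wsp F t ▸ hc)
  obtain ⟨d, ⟨hd, ud, d', hd', ud', hdd⟩, hne⟩ : ∃ d, d ∈ {c | c ∈ S.tr.Wsp F t ∧
      c ∈ unitary (LB μ) ∧ ∃ c' ∈ L μ S.tr.U2, c' ∈ unitary (LB μ) ∧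
        c * c' ∈ Vsp S.tr.S12 S.tr.S34 F t} ∧ ⟪c, d⟫_ℂ ≠ 0 := by
    by_contra hne
    push Not at hne
    have h3 : ⟪c, c⟫_ℂ = 0 := by
      refine Submodule.span_induction (p := fun z _ => ⟪c, z⟫_ℂ = 0) hne (inner_zero_right _)
        (fun a b _ _ ha hb => by rw [inner_add_right, ha, hb, add_zero])
        (fun a b _ hb => by rw [inner_smul_right, hb, mul_zero]) h2
    have := norm_unitary uc
    rw [inner_self_eq_zero.1 h3, norm_zero] at this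
    exact zero_ne_one this
  obtain ⟨c1, hc1, c2, hc2, uc1, uc2, ec⟩ :=
    S1.factor (e1 ▸ hc.1) (e2 ▸ hc') uc uc' (hZ1 _ hcc.1).2
  obtain ⟨d1, hd1, d2, hd2, ud1, ud2, ed⟩ :=
    S2.factor (e3 ▸ hd.1) (e4 ▸ hd') ud ud' (hZ2 _ hdd.1).2
  rw [e5] at hd1
  rw [e6] at hd2
  have e7 : star c1 * d1 * (star c2 * d2) = star c * d := by
    rw [ec, ed, star_mul]
    ring
  have h01 := zero_one S1.i12a S1.i12b S1.ind12 (mul_mem (star_mem hc1) hd1)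
    (mul_mem (star_mem hc2) hd2) (e7 ▸ e1 ▸ mul_mem (star_mem hc.1) hd.1)
    (mul_mem (Unitary.star_mem uc1) ud1) (mul_mem (Unitary.star_mem uc2) ud2)
  rw [e7] at h01
  have h1 := h01.resolve_left hne
  have h3 := unitary_eq_const (mul_mem (Unitary.star_mem uc) ud) h1
  set l := E μ (star c * d) with hl
  have h4 : d = l • c := by
    have := mem_unitary_iff.1 uc
    rw [Algebra.smul_def, ← h3]
    linear_combination (-d) * this
  obtain ⟨χ, hχ, hn⟩ := S.exists_chr hF ht hc.1 hc' ((L μ S.U3).smul_mem hd' l) uc uc'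
    (smul_mem_unitary ud' h1) hcc (by
      rw [mul_smul_comm, ← smul_mul_assoc, ← h4]
      exact hdd)
  have := pow_le_pow_left₀ (norm_nonneg _) (h χ hχ) 2
  linarith

end Sq

end Vale.Agent.P102
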