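import Vale.Agent.P102.Rows
import Vale.Agent.P102.Proj

/-! The universal part of standard functions. -/

namespace Vale.Agent.P102
open MeasureTheory ProbabilityTheory Filter Topology Set
open scoped InnerProductSpace ComplexConjugate

variable {n : ℕ}

/-- All rows but the zeroth. -/
def J1 (n : ℕ) : Finset (Fin (n + 3)) := Finset.univ.erase 0

/-- All rows but the zeroth and the first. -/
def J2 (n : ℕ) : Finset (Fin (n + 3)) := (Finset.univ.erase 0).erase 1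

/-- Free scales. -/
abbrev FreeS (k : ℕ) : Type := {q : ℚ // Free k q}

instance (k : ℕ) : Infinite (FreeS k) := by
  refine Set.Infinite.to_subtype (s := {q | Free k q}) (Set.infinite_of_forall_exists_gt fun a => ?_)
  obtain ⟨x, h1, -, h2⟩ := col_dense (k := k) none (lt_add_one a)
  exact ⟨x, h2, h1⟩

/-- Finite sets of free scales of the same size are conjugate. -/
lemma exists_emb_free {k : ℕ} (Ls Ls' : Finset (FreeS k)) (h : Ls.card = Ls'.card) :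
    ∃ (σ : ℚ ↪o ℚ) (τ : FreeS k ↪ FreeS k), (∀ s, col k (σ s) = col k s) ∧
      (∀ Q, (τ Q : ℚ) = σ Q) ∧ Ls.map τ = Ls' := by
  classical
  let e : Ls ≃o Ls' := (Ls.orderIsoOfFin h).symm.trans (Ls'.orderIsoOfFin rfl)
  let g : ℚ → ℚ := fun x => if h : ∃ h : Free k x, ⟨x, h⟩ ∈ Ls then
    (e ⟨⟨x, h.choose⟩, h.choose_spec⟩ : FreeS k) else 0
  have hg : ∀ Q : Ls, g (Q : FreeS k) = (e Q : FreeS k) := fun Q => dif_pos ⟨Q.1.2, Q.2⟩
  obtain ⟨b, hb⟩ := (Ls'.image Subtype.val).exists_le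
  obtain ⟨σ, h1, h2, -⟩ := exists_orderEmb (fun x => {y | col k y = col k x})
    (fun x a c h => let ⟨y, h1, h2, h3⟩ := col_dense (col k x) h; ⟨y, h3, h1, h2⟩)
    (Ls.image Subtype.val) g (by
      simp only [StrictMonoOn, Finset.coe_image, mem_image, Finset.mem_coe]
      rintro _ ⟨Q, hQ, rfl⟩ _ ⟨Q', hQ', rfl⟩ h
      rw [hg ⟨Q, hQ⟩, hg ⟨Q', hQ'⟩]
      exact e.strictMono (a := ⟨Q, hQ⟩) (b := ⟨Q', hQ'⟩) h) (b + 1) (by
      intro x hx
      obtain ⟨Q, hQ, rfl⟩ := Finset.mem_image.1 hx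
      rw [hg ⟨Q, hQ⟩]
      exact (hb _ (Finset.mem_image_of_mem _ (e ⟨Q, hQ⟩).2)).trans_lt (lt_add_one b))
  have h3 : ∀ s, col k (σ s) = col k s := fun s => by
    by_cases hs : s ∈ Ls.image Subtype.val
    · obtain ⟨Q, hQ, rfl⟩ := Finset.mem_image.1 hs
      rw [h1 _ hs, hg ⟨Q, hQ⟩]
      exact (e ⟨Q, hQ⟩).1.2.trans Q.2.symm
    · exact h2 s hs
  refine ⟨σ, ⟨fun Q => ⟨σ Q, (h3 Q).trans Q.2⟩, fun Q Q' h =>
    Subtype.ext (σ.injective (congrArg Subtype.val h))⟩, h3, fun _ => rfl,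
    Finset.eq_of_subset_of_card_le (fun x hx => ?_) (by rw [Finset.card_map, h])⟩
  obtain ⟨Q, hQ, rfl⟩ := Finset.mem_map.1 hx
  refine (congrArg (· ∈ Ls') (Subtype.ext ?_)).mpr (e ⟨Q, hQ⟩).2
  exact (h1 _ (Finset.mem_image_of_mem _ hQ)).trans (hg ⟨Q, hQ⟩)

lemma exists_free_below (k : ℕ) (q : ℚ) (N : ℕ) :
    ∃ Ls : Finset (FreeS k), Ls.card = N ∧ ∀ Q ∈ Ls, (Q : ℚ) < q := by
  induction N generalizing q with
  | zero => exact ⟨∅, rfl, by simp⟩
  | succ N ih =>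
    obtain ⟨x, -, h1, h2⟩ := col_dense (k := k) none (sub_one_lt q)
    obtain ⟨Ls, h3, h4⟩ := ih x
    refine ⟨Finset.cons ⟨x, h2⟩ Ls fun h => lt_irrefl x (h4 _ h), by rw [Finset.card_cons, h3],
      fun Q hQ => ?_⟩
    rcases Finset.mem_cons.1 hQ with rfl | hQ
    · exact h1
    · exact (h4 Q hQ).trans h1

lemma univ_norm_sum_sq {ι H : Type*} [NormedAddCommGroup H] [InnerProductSpace ℂ H] (s : Finset ι)
    (v : ι → H) (h : ∀ i ∈ s, ∀ j ∈ s, i ≠ j → ⟪v i, v j⟫_ℂ = 0) :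
    ‖∑ i ∈ s, v i‖ ^ 2 = ∑ i ∈ s, ‖v i‖ ^ 2 := by
  classical
  induction s using Finset.induction_on with
  | empty => simp
  | insert a s ha ih =>
    rw [Finset.sum_insert ha, Finset.sum_insert ha, ← ih fun i hi j hj =>
      h i (Finset.mem_insert_of_mem hi) j (Finset.mem_insert_of_mem hj), sq, sq, sq,
      norm_add_sq_eq_norm_sq_add_norm_sq_of_inner_eq_zero (𝕜 := ℂ)]
    rw [inner_sum]
    exact Finset.sum_eq_zero fun j hj => h a (Finset.mem_insert_self _ _) j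
      (Finset.mem_insert_of_mem hj) fun e => ha (e ▸ hj)

namespace Arr

variable (A : Arr (n + 3))

/-- The commuting projections onto the rows `1, …, k - 1` at the free scales. -/
noncomputable def pf : ProjFam (FreeS (n + 3)) (LB A.P) where
  P Q := A.PE (RR Q (J1 n))
  comm Q Q' := by
    by_cases h : Q = Q'
    · subst h
      exact Commute.refl _
    · ext x
      exact A.PE_comm Q'.2 (fun h' => h (Subtype.ext h')) _ (e := 0) (by simp [J1]) x
  idem Q x := cE_cE _ x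
  sa Q x y := inner_cE_left _ x y

lemma univ_em_Pi {f : LB A.P} (hf : f ∈ A.LL (lev ∅)) (σ : ℚ ↪o ℚ)
    (τ : FreeS (n + 3) ↪ FreeS (n + 3)) (h1 : ∀ s, col (n + 3) (σ s) = col (n + 3) s)
    (h2 : ∀ Q, (τ Q : ℚ) = σ Q) (Ls S : Finset (FreeS (n + 3))) :
    A.em σ (A.pf.Pi Ls S f) = A.pf.Pi (Ls.map τ) (S.map τ) f := by
  have := A.pf.Pi_map (pullL (A.em_mp σ)) τ Ls S (fun Q _ x => by
    change A.em σ (A.PE _ x) = A.PE (RR (τ Q) _) (A.em σ x)
    rw [h2, A.em_PE_RR σ h1]) f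
  rwa [pullL_apply, pullL_apply, A.em_std σ hf] at this

lemma univ_Pi_lev {q : ℚ} {Ls : Finset (FreeS (n + 3))} (hL : ∀ Q ∈ Ls, (Q : ℚ) < q)
    (S : Finset (FreeS (n + 3))) {y : LB A.P} (hy : y ∈ A.LL (lev (Iio q))) :
    A.pf.Pi Ls S y ∈ A.LL (lev (Iio q)) :=
  A.pf.Pi_mem Ls S (LS A.P (FF (lev (Iio q)))) (fun Q h _ hx => A.PE_mem_lev (hL Q h) _ hx) hy

lemma univ_Lam_update (q : ℚ) (x : Fin (n + 3) → LB A.P) (i : Fin (n + 3)) (y : LB A.P) :
    A.Lam q (Function.update x i y) = E A.P (A.sh (sg q (ee i - ee 0)) y *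
      ∏ j ∈ Finset.univ.erase i, A.sh (sg q (ee j - ee 0)) (x j)) := by
  rw [Lam, ← Finset.mul_prod_erase _ _ (Finset.mem_univ i), Function.update_self]
  exact congrArg (fun z => E A.P (_ * z)) (Finset.prod_congr rfl fun j hj => by
    rw [Function.update_of_ne (Finset.ne_of_mem_erase hj)])

lemma univ_Lam_sum (q : ℚ) (x : Fin (n + 3) → LB A.P) (i : Fin (n + 3))
    (Ls : Finset (FreeS (n + 3))) :
    A.Lam q x = ∑ S ∈ Ls.powerset, A.Lam q (Function.update x i (A.pf.Pi Ls S (x i))) := by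
  simp only [univ_Lam_update]
  rw [← map_sum, ← Finset.sum_mul, ← map_sum, A.pf.sum_Pi, ← univ_Lam_update,
    Function.update_eq_self]

lemma univ_proj {q : ℚ} (hq : Free (n + 3) q) {Ls S : Finset (FreeS (n + 3))}
    (hL : ∀ Q ∈ Ls, (Q : ℚ) < q) (hS : S ⊆ Ls) {x : Fin (n + 3) → LB A.P}
    (hx : ∀ i, x i ∈ A.LL (lev (Iio q))) {t e : Fin (n + 3)} (h : t ≠ e) {y : LB A.P}
    (hy : x t = A.pf.Pi Ls S y) :
    A.Lam q x = A.Lam q (Function.update x e (A.pf.Pi Ls S (x e))) := by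
  rw [A.univ_Lam_sum q x e Ls, Finset.sum_eq_single_of_mem S (Finset.mem_powerset.2 hS)]
  intro S' hS' hne
  have hx' : ∀ i, Function.update x e (A.pf.Pi Ls S' (x e)) i ∈ A.LL (lev (Iio q)) := fun i => by
    by_cases hi : i = e
    · rw [hi, Function.update_self]
      exact A.univ_Pi_lev hL _ (hx e)
    · rw [Function.update_of_ne hi]
      exact hx i
  obtain ⟨Q, hQ⟩ : ∃ Q, ¬ (Q ∈ S' ↔ Q ∈ S) := not_forall.1 fun h => hne (Finset.ext h)
  by_cases h1 : Q ∈ S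
  · have h2 := hS h1
    refine A.Lam_eq_zero hq (hL Q h2).ne (J1 n) h.symm _ hx' ?_ ?_
    · rw [Function.update_self]
      exact A.pf.P_Pi_of_not_mem h2 (by tauto) _
    · rw [Function.update_of_ne h, hy, ← A.pf.P_Pi_of_mem h2 h1]
      exact cE_mem _ _
  · have h3 : Q ∈ S' := by tauto
    have h2 := Finset.mem_powerset.1 hS' h3
    refine A.Lam_eq_zero hq (hL Q h2).ne (J1 n) h _ hx' ?_ ?_
    · rw [Function.update_of_ne h, hy]
      exact A.pf.P_Pi_of_not_mem h2 h1 _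
    · rw [Function.update_self, ← A.pf.P_Pi_of_mem h2 h3]
      exact cE_mem _ _

lemma univ_sh_row (q : ℚ) (δ : Dig (n + 3)) {y : LB A.P} (hy : y ∈ A.LL (lev (Iio q))) :
    A.sh (sg q δ) y ∈ A.LL (Row q δ ∩ lev (Iic q)) := by
  refine A.sh_mem _ (fun γ h => ?_) hy
  refine ⟨?_, fun s hs => ?_⟩
  · change (γ + sg q δ).2 q = δ
    rw [add_sg_snd_self, not_not.1 fun e => lt_irrefl q (h q e), zero_add]
  · by_cases e : s = q
    · exact e.le
    · rw [add_sg_snd_of_ne _ e] at hs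
      exact (mem_Iio.1 (h s hs)).le

lemma norm_Pi_ones_eq {f : LB A.P} (hf : f ∈ A.LL (lev ∅)) (Ls Ls' : Finset (FreeS (n + 3)))
    (h : Ls.card = Ls'.card) : ‖A.pf.Pi Ls Ls f‖ = ‖A.pf.Pi Ls' Ls' f‖ := by
  obtain ⟨σ, τ, h1, h2, h3⟩ := exists_emb_free Ls Ls' h
  rw [← norm_pull (A.em_mp σ), A.univ_em_Pi hf σ τ h1 h2, h3]

lemma norm_Pi_zeros_eq {f : LB A.P} (hf : f ∈ A.LL (lev ∅)) (Ls Ls' : Finset (FreeS (n + 3)))
    (h : Ls.card = Ls'.card) : ‖A.pf.Pi Ls ∅ f‖ = ‖A.pf.Pi Ls' ∅ f‖ := by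
  obtain ⟨σ, τ, h1, h2, h3⟩ := exists_emb_free Ls Ls' h
  rw [← norm_pull (A.em_mp σ), A.univ_em_Pi hf σ τ h1 h2, h3, Finset.map_empty]

/-- The limit of the pure products. -/
lemma exists_limit {f : LB A.P} (hf : f ∈ A.LL (lev ∅)) (hb : Bd f 1) :
    ∃ u : LB A.P, u ∈ A.LL (lev ∅) ∧ Bd u 1 ∧ E A.P u = E A.P f ∧
      (∀ Q, Free (n + 3) Q → u ∈ A.LL (RR Q (J1 n))) ∧
      ∀ ε : ℝ, 0 < ε → ∃ N : ℕ, ∀ Ls : Finset (FreeS (n + 3)), N ≤ Ls.card →
        ‖A.pf.Pi Ls Ls f - u‖ ≤ ε := by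
  choose Ls hL _ using exists_free_below (n + 3) 0
  have hc := fun ε (hε : 0 < ε) => A.pf.ones_cauchy f (A.norm_Pi_ones_eq hf) hε
  have hbd : ∀ L', Bd (A.pf.Pi L' L' f) 1 := fun L' =>
    A.pf.Pi_ones_induction L' (Bd · 1) (fun _ _ _ h => h.cE _) hb
  obtain ⟨u, hu, ht⟩ := cauchySeq_tendsto_of_isComplete (isComplete_bd (μ := A.P) 1)
    (u := fun N => A.pf.Pi (Ls N) (Ls N) f) (fun N => hbd _) (Metric.cauchySeq_iff.2 fun ε hε => by
      obtain ⟨N, h⟩ := hc _ (half_pos hε)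
      exact ⟨N, fun a ha b hb => (dist_eq_norm _ _).trans_lt
        ((h _ _ (ha.trans (hL a).ge) (hb.trans (hL b).ge)).trans_lt (half_lt_self hε))⟩)
  have h1 : ∀ ε : ℝ, 0 < ε → ∃ N : ℕ, ∀ L' : Finset (FreeS (n + 3)), N ≤ L'.card →
      ‖A.pf.Pi L' L' f - u‖ ≤ ε := fun ε hε => (hc ε hε).imp fun N h L' h' =>
    le_of_tendsto (tendsto_const_nhds.sub ht).norm
      ((eventually_ge_atTop N).mono fun M hM => h _ _ h' (hM.trans (hL M).ge))
  have h2 : ∀ L' : ℕ → Finset (FreeS (n + 3)), (∀ N, N ≤ (L' N).card) →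
      Tendsto (fun N => A.pf.Pi (L' N) (L' N) f) atTop (𝓝 u) := fun L' h =>
    Metric.tendsto_atTop.2 fun ε hε => (h1 _ (half_pos hε)).imp fun N h' M hM =>
      (dist_eq_norm _ _).trans_lt ((h' _ (hM.trans (h M))).trans_lt (half_lt_self hε))
  refine ⟨u, A.std_of_pi ?_, hu, ?_, fun Q hQ => ?_, h1⟩
  · let τ : FreeS (n + 3) ↪ FreeS (n + 3) := ⟨fun Q => ⟨Q + 1, (col_add_one _).trans Q.2⟩,
      fun Q Q' h => Subtype.ext (add_right_cancel (congrArg Subtype.val h))⟩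
    refine tendsto_nhds_unique (((continuous_pull (A.em_mp piE)).tendsto u).comp ht)
      ((h2 (fun N => (Ls N).map τ) fun N => by rw [Finset.card_map, hL]).congr fun N => ?_)
    exact (A.univ_em_Pi hf piE τ col_add_one (fun _ => rfl) _ _).symm
  · refine tendsto_nhds_unique ((continuous_E.tendsto u).comp ht)
      (tendsto_const_nhds.congr fun N => ?_)
    exact (A.pf.Pi_ones_induction _ (fun x => E A.P x = E A.P f)
      (fun _ _ _ h => (E_cE _ _).trans h) rfl).symm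
  · refine (isClosed_L _).mem_of_tendsto (h2 (fun N => insert ⟨Q, hQ⟩ (Ls N)) fun N =>
      (hL N).ge.trans (Finset.card_le_card (Finset.subset_insert _ _))) (.of_forall fun N => ?_)
    rw [← A.pf.P_Pi_of_mem (Finset.mem_insert_self _ _) (Finset.mem_insert_self _ _)]
    exact cE_mem _ _

/-- The all-zero term is small. -/
lemma zeros_small (q : ℚ) (f : Fin (n + 3) → LB A.P) (hf : ∀ i, f i ∈ A.LL (lev ∅))
    (hb : ∀ i, Bd (f i) 1) (Ls : Finset (FreeS (n + 3))) (hL : ∀ Q ∈ Ls, (Q : ℚ) < q)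
    (hne : Ls.Nonempty) :
    ‖A.Lam q (Function.update f 0 (A.pf.Pi Ls ∅ (f 0)))‖ ^ 2 ≤ 4 / Ls.card := by
  let φ : ℚ → LB A.P := fun Q => ∏ j ∈ Finset.univ.erase 0, A.sh (sg Q (ee j - ee 0)) (f j)
  have hf' : ∀ Q i, f i ∈ A.LL (lev (Iio Q)) := fun Q i => A.LL_mono (lev_mono (by simp)) (hf i)
  have p1 : ∀ Q, φ Q ∈ A.LL (lev {Q}) := fun Q => prod_mem fun j _ => A.sh_mem _ (fun γ h => by
    intro s hs
    by_contra e
    rw [add_sg_snd_of_ne _ e] at hs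
    exact h s hs) (hf j)
  have p2 : ∀ Q, φ Q ∈ A.LL (lev (Ici Q)) := fun Q => A.LL_mono (lev_mono (by simp)) (p1 Q)
  have p3 : ∀ Q, Bd (φ Q) 1 := fun Q => bd_prod_one _ _ fun j _ => (hb j).pull _
  obtain ⟨g, hg⟩ : ∃ g, g = A.PE (lev ∅) (φ q) := ⟨_, rfl⟩
  have g1 : g ∈ A.LL (lev ∅) := hg ▸ cE_mem _ _
  have g2 : ∀ Q, A.PE (lev ∅) (φ Q) = g := fun Q => by
    let σ : ℚ ↪o ℚ := (OrderIso.addRight (Q - q)).toOrderEmbedding
    have e1 : gmap σ '' lev ∅ = (lev ∅ : Set (Gam (n + 3))) :=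
      (image_congr fun γ h => gmap_fix σ (by simp) h).trans (image_id' _)
    have e2 : A.em σ (φ q) = φ Q := by
      rw [map_prod]
      refine Finset.prod_congr rfl fun j _ => ?_
      rw [em_sh, gmap_sg, A.em_std σ (hf j), show σ q = Q by simp [σ]]
    rw [← A.em_std σ g1, hg, em_PE, e1, e2]
  have g3 : Bd g 1 := hg ▸ (p3 q).cE _
  have h1 : A.Lam q (Function.update f 0 (A.pf.Pi Ls ∅ (f 0))) =
      ⟪A.pf.Pi Ls ∅ (star g), f 0⟫_ℂ := by
    rw [univ_Lam_update, sub_self, sg_zero, sh_zero, mul_comm,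
      A.E_mul_slow q (p2 q) (A.univ_Pi_lev hL _ (hf' q 0)), ← hg, E_mul_eq_inner, A.pf.Pi_sa]
  have h2 : A.pf.Pi Ls ∅ (∑ Q ∈ Ls, star (g - φ Q)) = (Ls.card : ℂ) • A.pf.Pi Ls ∅ (star g) := by
    rw [map_sum, Nat.cast_smul_eq_nsmul, ← Finset.sum_const]
    refine Finset.sum_congr rfl fun Q hQ => ?_
    rw [star_sub, map_sub, A.pf.Pi_zeros_of_fix hQ (y := star (φ Q)), sub_zero]
    exact cE_of_mem (star_mem (prod_mem fun j hj => A.LL_mono (RR_mono _ (by simpa [J1] using hj))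
      (A.sh_sg_mem_RR Q j (hf' Q j))))
  have h3 : ∀ Q Q' : ℚ, Q < Q' → ⟪star (g - φ Q'), star (g - φ Q)⟫_ℂ = 0 := fun Q Q' h => by
    rw [← E_mul_eq_inner, A.E_mul_slow Q' (sub_mem (A.LL_mono (lev_mono (by simp)) g1) (p2 Q'))
      (star_mem (sub_mem (A.LL_mono (lev_mono (by simp)) g1)
        (A.LL_mono (lev_mono (by simpa using h)) (p1 Q)))), map_sub, g2, cE_of_mem g1, sub_self,
      zero_mul, map_zero]
  have h4 := univ_norm_sum_sq Ls (fun Q => star (g - φ Q)) fun Q _ Q' _ h =>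
    (lt_or_gt_of_ne h).elim (fun h => inner_eq_zero_symm.1 (h3 _ _ h)) (h3 _ _)
  have h5 : ∑ Q ∈ Ls, ‖star (g - φ Q)‖ ^ 2 ≤ Ls.card • (4 : ℝ) :=
    Finset.sum_le_card_nsmul _ _ _ fun Q _ => by
      rw [norm_star']
      nlinarith [(g3.sub (p3 Q)).norm_le, norm_nonneg (g - φ Q)]
  have h6 := pow_le_pow_left₀ (norm_nonneg _)
    (A.pf.norm_Pi_le Ls ∅ (∑ Q ∈ Ls, star (g - φ Q))) 2
  rw [h2, h4, norm_smul, Complex.norm_natCast] at h6
  have h7 : ‖⟪A.pf.Pi Ls ∅ (star g), f 0⟫_ℂ‖ ≤ ‖A.pf.Pi Ls ∅ (star g)‖ :=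
    (norm_inner_le_norm _ _).trans (mul_le_of_le_one_right (norm_nonneg _) (hb 0).norm_le)
  have h8 : (0 : ℝ) < Ls.card := by exact_mod_cast hne.card_pos
  rw [h1, le_div_iff₀ h8]
  rw [nsmul_eq_mul] at h5
  have h9 := mul_le_mul_of_nonneg_right (pow_le_pow_left₀ (norm_nonneg _) h7 2) h8.le
  exact h9.trans (le_of_mul_le_mul_left (by nlinarith) h8)

/-- The main decomposition: up to a small error all slots may be projected. -/
lemma Lam_approx {q : ℚ} (hq : Free (n + 3) q) (f : Fin (n + 3) → LB A.P)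
    (hf : ∀ i, f i ∈ A.LL (lev ∅)) (hb : ∀ i, Bd (f i) 1) {ε : ℝ} (hε : 0 < ε) :
    ∃ N : ℕ, ∀ Ls : Finset (FreeS (n + 3)), N ≤ Ls.card → (∀ Q ∈ Ls, (Q : ℚ) < q) →
      ‖A.Lam q f - A.Lam q fun i => A.pf.Pi Ls Ls (f i)‖ ≤ ε := by
  have hε2 := half_pos hε
  obtain ⟨N1, hN1⟩ := A.pf.mixed_small (f 1) (A.norm_Pi_ones_eq (hf 1))
    (A.norm_Pi_zeros_eq (hf 1)) hε2
  obtain ⟨N2, hN2⟩ := exists_nat_gt (4 / (ε / 2) ^ 2)
  refine ⟨N1 + N2 + 1, fun Ls hN hL => ?_⟩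
  have hne : Ls.Nonempty := Finset.card_pos.1 (by omega)
  have hf' : ∀ i, f i ∈ A.LL (lev (Iio q)) := fun i => A.LL_mono (lev_mono (by simp)) (hf i)
  have up : ∀ (x : Fin (n + 3) → LB A.P), (∀ i, x i ∈ A.LL (lev (Iio q))) → ∀ e S i,
      Function.update x e (A.pf.Pi Ls S (x e)) i ∈ A.LL (lev (Iio q)) := fun x hx e S i => by
    by_cases hi : i = e
    · rw [hi, Function.update_self]
      exact A.univ_Pi_lev hL _ (hx e)
    · rw [Function.update_of_ne hi]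
      exact hx i
  have t1 : ∀ J : Finset (Fin (n + 3)), A.Lam q (Function.update f 1 (A.pf.Pi Ls Ls (f 1))) =
      A.Lam q fun i => if i ∈ insert 1 J then A.pf.Pi Ls Ls (f i) else f i := by
    intro J
    induction J using Finset.induction_on with
    | empty =>
      refine congrArg _ (funext fun i => ?_)
      by_cases h : i = 1 <;> simp [h]
    | insert a J ha ih =>
      by_cases h : a = 1
      · rw [ih, h, Finset.insert_idem]
      rw [ih, A.univ_proj hq hL subset_rfl (fun i => by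
        split_ifs
        · exact A.univ_Pi_lev hL _ (hf' i)
        · exact hf' i) (Ne.symm h) (y := f 1) (by simp)]
      refine congrArg _ (funext fun i => ?_)
      by_cases h' : i = a <;> simp [h', h, ha]
  have t0 : A.Lam q (Function.update f 1 (A.pf.Pi Ls ∅ (f 1))) =
      A.Lam q (Function.update f 0 (A.pf.Pi Ls ∅ (f 0))) := by
    rw [A.univ_proj hq hL (Finset.empty_subset _) (up f hf' 1 ∅) (t := 1) (e := 0) (by simp)
      (Function.update_self ..), A.univ_proj hq hL (Finset.empty_subset _) (up f hf' 0 ∅) (t := 0)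
      (e := 1) (by simp) (Function.update_self ..), Function.update_comm (by simp),
      Function.update_of_ne (by simp), Function.update_of_ne (by simp)]
  obtain ⟨c, hc⟩ : ∃ c : Fin (n + 3), c = ⟨2, by omega⟩ := ⟨_, rfl⟩
  have c1 : (1 : Fin (n + 3)) ≠ c := by simp [hc, Fin.ext_iff]
  have c0 : (0 : Fin (n + 3)) ≠ c := by simp [hc, Fin.ext_iff]
  let v : Finset (FreeS (n + 3)) → LB A.P := fun S =>
    A.sh (sg q (ee 1 - ee 0)) (A.pf.Pi Ls S (f 1)) * A.sh (sg q (ee c - ee 0)) (A.pf.Pi Ls S (f c))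
  let G := ∏ j ∈ (Finset.univ.erase c).erase 1, A.sh (sg q (ee j - ee 0)) (f j)
  have tm : ∀ S ⊆ Ls, A.Lam q (Function.update f 1 (A.pf.Pi Ls S (f 1))) = E A.P (G * v S) := by
    intro S hS
    rw [A.univ_proj hq hL hS (up f hf' 1 S) c1 (Function.update_self ..), univ_Lam_update,
      ← Finset.mul_prod_erase _ _ (Finset.mem_erase.2 ⟨c1, Finset.mem_univ _⟩),
      Function.update_self, Function.update_of_ne c1.symm, Finset.prod_congr rfl fun j hj => by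
        rw [Function.update_of_ne (Finset.ne_of_mem_erase hj)]]
    exact congrArg _ (by ring)
  have iv : ∀ S S', ⟪v S, v S'⟫_ℂ = ⟪A.pf.Pi Ls S (f 1), A.pf.Pi Ls S' (f 1)⟫_ℂ *
      ⟪A.pf.Pi Ls S (f c), A.pf.Pi Ls S' (f c)⟫_ℂ := fun S S' => by
    have := A.E_prod_rows {1, c} (fun h => by simpa [c0] using h.ge (Finset.mem_univ 0))
      q (-ee 0) (fun j => A.sh (sg q (ee j - ee 0)) (star (A.pf.Pi Ls S (f j)) * A.pf.Pi Ls S' (f j)))
      fun j _ => sub_eq_add_neg (ee j) (ee 0) ▸ A.univ_sh_row q _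
        (mul_mem (star_mem (A.univ_Pi_lev hL _ (hf' j))) (A.univ_Pi_lev hL _ (hf' j)))
    rw [Finset.prod_pair c1, Finset.prod_pair c1, E_pull, E_pull] at this
    rw [inner_def, inner_def, inner_def, ← this]
    refine congrArg _ ?_
    simp only [v, map_mul, map_star, star_mul]
    ring
  let M := (Ls.powerset.erase Ls).erase ∅
  have hM : ∀ S ∈ M, S ⊆ Ls ∧ S ≠ Ls ∧ S ≠ ∅ := fun S hS => by
    simp only [M, Finset.mem_erase, Finset.mem_powerset] at hS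
    tauto
  have m1 : ‖∑ S ∈ M, v S‖ ^ 2 ≤ (ε / 2) ^ 2 := by
    rw [univ_norm_sum_sq M v fun S hS S' hS' h => by
      rw [iv, A.pf.inner_Pi_Pi (hM S hS).1 (hM S' hS').1 h, zero_mul]]
    calc _ ≤ ∑ S ∈ M, (ε / 2) ^ 2 * ‖A.pf.Pi Ls S (f c)‖ ^ 2 := Finset.sum_le_sum fun S hS => by
          have := congrArg norm (iv S S)
          simp only [inner_self_eq_norm_sq_to_K, norm_mul, norm_pow, RCLike.norm_ofReal,
            abs_norm] at this
          rw [this]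
          gcongr
          exact hN1 Ls S (by omega) (hM S hS).1 (hM S hS).2.1 (hM S hS).2.2
      _ ≤ ∑ S ∈ Ls.powerset, (ε / 2) ^ 2 * ‖A.pf.Pi Ls S (f c)‖ ^ 2 :=
          Finset.sum_le_sum_of_subset_of_nonneg
            (fun S hS => Finset.mem_powerset.2 (hM S hS).1) fun _ _ _ => by positivity
      _ ≤ _ := by
          rw [← Finset.mul_sum, A.pf.sum_norm_sq_Pi]
          exact mul_le_of_le_one_right (sq_nonneg _)
            (pow_le_one₀ (norm_nonneg _) (hb c).norm_le)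
  have m2 : ‖E A.P (G * ∑ S ∈ M, v S)‖ ≤ ε / 2 := (norm_E_mul_le _ _).trans
    ((mul_le_of_le_one_left (norm_nonneg _) (bd_prod_one _ _ fun j _ => (hb j).pull _).norm_le).trans
      (abs_le_of_sq_le_sq' m1 hε2.le).2)
  have z := A.zeros_small q f hf hb Ls hL hne
  have z2 : ‖A.Lam q (Function.update f 0 (A.pf.Pi Ls ∅ (f 0)))‖ ≤ ε / 2 := by
    refine (abs_le_of_sq_le_sq' (z.trans ?_) hε2.le).2
    have : (N2 : ℝ) ≤ Ls.card := by exact_mod_cast (by omega : N2 ≤ Ls.card)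
    rw [div_lt_iff₀ (by positivity)] at hN2
    rw [div_le_iff₀ (by exact_mod_cast hne.card_pos)]
    nlinarith [sq_nonneg (ε / 2)]
  rw [A.univ_Lam_sum q f 1 Ls, ← Finset.add_sum_erase _ _ (Finset.mem_powerset_self Ls),
    ← Finset.add_sum_erase _ _ (Finset.mem_erase.2 ⟨hne.ne_empty.symm, Finset.empty_mem_powerset _⟩),
    t0, t1 Finset.univ, Finset.sum_congr rfl fun S hS => tm S (hM S hS).1, ← map_sum,
    ← Finset.mul_sum]
  simp only [Finset.mem_insert, Finset.mem_univ, or_true, if_true, add_sub_cancel_left]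
  exact (norm_add_le _ _).trans (by linarith)

theorem exists_universal {q : ℚ} (hq : Free (n + 3) q) (f : Fin (n + 3) → LB A.P)
    (hf : ∀ i, f i ∈ A.LL (lev ∅)) (hb : ∀ i, Bd (f i) 1) :
    ∃ u : Fin (n + 3) → LB A.P, (∀ i, u i ∈ A.LL (lev ∅)) ∧ (∀ i, Bd (u i) 1) ∧
      (∀ i, E A.P (u i) = E A.P (f i)) ∧
      (∀ i Q, Free (n + 3) Q → u i ∈ A.LL (RR Q (J1 n))) ∧ A.Lam q u = A.Lam q f := by
  choose u h1 h2 h3 h4 h5 using fun i => A.exists_limit (hf i) (hb i)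
  refine ⟨u, h1, h2, h3, h4, eq_of_forall_dist_le fun ε hε => ?_⟩
  have hδ : 0 < ε / (n + 4) := by positivity
  choose N hN using fun i => h5 i _ hδ
  obtain ⟨N', hN'⟩ := A.Lam_approx hq f hf hb hδ
  obtain ⟨Ls, hL, hL'⟩ := exists_free_below (n + 3) q (N' + Finset.univ.sup N)
  have e1 := hN' Ls (by omega) hL'
  have e2 : ‖(A.Lam q fun i => A.pf.Pi Ls Ls (f i)) - A.Lam q u‖ ≤ (n + 3) * (ε / (n + 4)) := by
    rw [Lam, Lam, ← map_sub]
    refine (norm_E_le _).trans ((norm_prod_sub_prod_le _ _ _ (fun j _ => Bd.pull _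
      (A.pf.Pi_ones_induction Ls (Bd · 1) (fun _ _ _ h => h.cE _) (hb j)))
      fun j _ => (h2 j).pull _).trans ((Finset.sum_le_card_nsmul _ _ (ε / (n + 4))
        fun j _ => ?_).trans (by simp)))
    rw [← map_sub, norm_pull]
    exact hN j Ls (by have := Finset.le_sup (f := N) (Finset.mem_univ j); omega)
  rw [dist_comm, dist_eq_norm]
  refine (norm_sub_le_norm_sub_add_norm_sub _ _ _).trans ((add_le_add e1 e2).trans (le_of_eq ?_))
  field_simp
  ring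

end Arr

end Vale.Agent.P102
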